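import Vale.Agent.P284Z.J.G0

/-!
# P284Z, block JG: forms on the covering
-/

set_option linter.all false

open scoped ContDiff Topology ComplexOrder ComplexConjugate
open Filter Set Function Metric

noncomputable section

namespace Vale.Agent.P284Z.JGx

open Vale.Agent.P272.K Vale.Agent.P284.H650 J A

section loc
variable {n q r : ℕ} {z : Cm n}

theorem pb_mul (S : Matrix (Fin r) (Fin q) ℂ) (T : Matrix (Fin q) (Fin n) ℂ) (H : Mx r) :
    pb (S * T) H = pb T (pb S H) := by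
  simp only [pb, Matrix.transpose_mul, Matrix.map_mul, Matrix.mul_assoc]

theorem det_fac (S : Mx n) :
    S.transpose.det * (S.map (starRingEnd ℂ)).det = ((‖S.det‖ ^ 2 : ℝ) : ℂ) := by
  rw [show (S.map (starRingEnd ℂ)).det = conj S.det from (RingHom.map_det (starRingEnd ℂ) _).symm,
    Matrix.det_transpose, Complex.mul_conj, Complex.normSq_eq_norm_sq]

theorem MD_pb (S : Mx n) (X : Fin n → Mx n) :
    MD (fun i => pb S (X i)) = ((‖S.det‖ ^ 2 : ℝ) : ℂ) * MD X := by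
  rw [← det_fac]
  exact MD_congr X _ _

theorem det_pb (S H : Mx n) : (pb S H).det = ((‖S.det‖ ^ 2 : ℝ) : ℂ) * H.det := by
  rw [← det_fac, pb, Matrix.det_mul, Matrix.det_mul]
  ring

theorem jm_congr {s t : Cm n → Cm q} (h : s =ᶠ[𝓝 z] t) : jm s z = jm t z := by
  simp only [jm, h.fderiv_eq]

theorem cont_MD : Continuous (MD : (Fin n → Mx n) → ℂ) := by
  unfold MD
  refine continuous_finsetSum _ fun s _ => Continuous.matrix_det ?_
  exact continuous_matrix fun i j =>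
    (continuous_apply (A := fun _ : Fin n => Mx n) (s i)).matrix_elem i j

theorem cf_congr {U : Set (Cm n)} {X Y : Cm n → Mx n} (hU : IsOpen U) (h : CF U X)
    (e : ∀ z ∈ U, Y z = X z) : CF U Y := by
  have e' : ∀ z ∈ U, ∀ i j, (fun y => Y y i j) =ᶠ[𝓝 z] fun y => X y i j := fun z hz i j =>
    mem_of_superset (hU.mem_nhds hz) fun y hy => congrFun (congrFun (e y hy) i) j
  refine ⟨fun z hz i j => (h.sm z hz i j).congr_of_eventuallyEq (e' z hz i j),
    fun z hz i r l => ?_, fun z hz => e z hz ▸ h.herm z hz⟩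
  rw [INT.dz_congr (e' z hz r l), INT.dz_congr (e' z hz i l), h.cl z hz]

theorem hc_congr {u v : Cm n → ℂ} (h : u =ᶠ[𝓝 z] v) : hc u z = hc v z := by
  ext j k
  exact INT.dz_congr (INT.dzb_congr' h)

theorem dc_congr {u v ψ χ : Cm n → ℂ} (h : u =ᶠ[𝓝 z] v) (h' : ψ =ᶠ[𝓝 z] χ) :
    dc u ψ z = dc v χ z := by
  ext j k
  simp only [dc, Matrix.of_apply, INT.dz_congr h, INT.dzb_congr h']

theorem hc_split {u : Cm n → ℂ} (hu : ContDiffAt ℝ 2 u z) :
    hc u z = cHess (fun w => (u w).re) z + Complex.I • cHess (fun w => (u w).im) z := by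
  have h1 : ContDiffAt ℝ 2 (fun w => ((u w).re : ℂ)) z :=
    INT.ofReal_contDiffAt (Complex.reCLM.contDiff.contDiffAt.comp z hu)
  have h2 : ContDiffAt ℝ 2 (fun w => ((u w).im : ℂ)) z :=
    INT.ofReal_contDiffAt (Complex.imCLM.contDiff.contDiffAt.comp z hu)
  ext j k
  have h3 : dzb k u =ᶠ[𝓝 z] fun y => dzb k (fun w => ((u w).re : ℂ)) y +
      Complex.I * dzb k (fun w => ((u w).im : ℂ)) y := by
    filter_upwards [h1.eventually (by simp), h2.eventually (by simp)] with y k1 k2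
    have k3 := k2.differentiableAt (by simp)
    rw [← INT.dzb_const_mul _ k3, ← INT.dzb_add (k1.differentiableAt (by simp)) (k3.const_mul _)]
    congr 1
    funext w
    rw [mul_comm, Complex.re_add_im]
  have d1 := (INT.contDiffAt_dzb (i := k) (m := 1) h1 (by norm_num)).differentiableAt (by simp)
  have d2 := (INT.contDiffAt_dzb (i := k) (m := 1) h2 (by norm_num)).differentiableAt (by simp)
  show dz j (dzb k u) z = _
  rw [INT.dz_congr h3, INT.dz_add d1 (d2.const_mul _), INT.dz_const_mul _ d2]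
  rfl

theorem an_sm {s : Cm n → Cm q} (hs : AnalyticAt ℂ s z) {m : WithTop ℕ∞} : ContDiffAt ℝ m s z :=
  (hs.contDiffAt (n := m)).restrict_scalars ℝ

variable (hB : JB)
include hB

theorem hc_comp {s : Cm n → Cm q} {u : Cm q → ℂ} (hs : AnalyticAt ℂ s z)
    (hu : ContDiffAt ℝ 2 u (s z)) : hc (fun w => u (s w)) z = pb (jm s z) (hc u (s z)) := by
  rw [hc_split hu, hc_split (u := fun w => u (s w)) (hu.comp z (an_sm hs))]
  have h1 := hB.hess_comp n q s (fun w => (u w).re) z hs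
    (Complex.reCLM.contDiff.contDiffAt.comp _ hu)
  have h2 := hB.hess_comp n q s (fun w => (u w).im) z hs
    (Complex.imCLM.contDiff.contDiffAt.comp _ hu)
  simp only [Function.comp_apply, h1, h2, pb, Matrix.mul_add, Matrix.add_mul, Matrix.mul_smul,
    Matrix.smul_mul]

theorem dc_comp {s : Cm n → Cm q} {u ψ : Cm q → ℂ} (hs : AnalyticAt ℂ s z)
    (hu : DifferentiableAt ℝ u (s z)) (hψ : DifferentiableAt ℝ ψ (s z)) :
    dc (fun w => u (s w)) (fun w => ψ (s w)) z = pb (jm s z) (dc u ψ (s z)) := by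
  ext j k
  have h1 := congrFun (hB.dz_comp n q s u z hs hu).1 j
  have h2 := congrFun (hB.dz_comp n q s ψ z hs hψ).2 k
  simp only [dc, Matrix.of_apply, h1, h2, pb, Matrix.mul_apply, Matrix.mulVec, dotProduct,
    Matrix.transpose_apply, Finset.sum_mul, Finset.mul_sum]
  exact Finset.sum_congr rfl fun b _ => Finset.sum_congr rfl fun c _ => by ring

end loc

variable {n : ℕ} {Γ E : Type} [Group Γ] [TopologicalSpace E] [MulAction Γ E] {C : Cov n Γ E}
  {γ g : Γ} {a b : C.I} {z : Cm n} {y : E} {K Ω : Set E}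

theorem det_re (hz : z ∈ C.B 4 a) : 0 < (cHess (C.ρ a) z).det.re ∧
    (((cHess (C.ρ a) z).det.re : ℝ) : ℂ) = (cHess (C.ρ a) z).det := by
  have h := Complex.lt_def.1 (C.ρ_pos a z hz).det_pos
  exact ⟨h.1, Complex.ext rfl h.2⟩

theorem det_ne (hz : z ∈ C.B 4 a) : (cHess (C.ρ a) z).det ≠ 0 := (C.ρ_pos a z hz).det_pos.ne'

theorem det_cont (hz : z ∈ C.B 4 a) : ContinuousAt (fun w => (cHess (C.ρ a) w).det) z :=
  (INT.contDiffAt_det (INT.smooth_cHess (C.ρ_sm a z hz))).continuousAt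

variable (hB : JB)
include hB

theorem fm_om (A : ℝ) {f : E → ℝ} (hf : C.SmAt f y) : C.FmAt (C.om A f) y := by
  intro γ g a b z h e
  obtain ⟨t, h1, h2⟩ := C.ρ_ch g a b z h.1 h.2
  have h3 : ContDiffAt ℝ 2 (fun w => A * C.ρ b w + f (C.pt γ b w)) (C.tr g a b z) :=
    ((contDiffAt_const.mul (C.ρ_sm b _ (ov_mem h))).add
      (hf γ b _ (ov_mem h) ((pt_tr h γ).trans e))).of_le two_le
  have h4 : AnalyticAt ℂ (fun w => (A : ℂ) * t w) z := analyticAt_const.mul h1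
  have h5 : (fun w => A * C.ρ a w + f (C.pt (γ * g) a w)) =ᶠ[𝓝 z] fun w =>
      (A * C.ρ b (C.tr g a b w) + f (C.pt γ b (C.tr g a b w))) + ((A : ℂ) * t w).re := by
    filter_upwards [h2, pt_tr_ev h γ f] with w k1 k2
    rw [k1, k2, Complex.re_ofReal_mul, mul_add]
    exact add_right_comm _ _ _
  have h6 : ContDiffAt ℝ 2 (fun w => A * C.ρ b (C.tr g a b w) + f (C.pt γ b (C.tr g a b w))) z :=
    h3.comp z (an_sm (tr_an h))
  have h7 : ContDiffAt ℝ 2 (fun w => ((A : ℂ) * t w).re) z :=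
    Complex.reCLM.contDiff.contDiffAt.comp z ((h4.contDiffAt (n := 2)).restrict_scalars ℝ)
  have h8 := C2.cHess_congr h5
  rw [C2.cHess_add h6 h7, (hB.hess_re n _ z h4).1, add_zero,
    hB.hess_comp n n _ (fun w => A * C.ρ b w + f (C.pt γ b w)) z (tr_an h) h3] at h8
  exact h8

theorem rho_ch (h : C.Ov g a b z) :
    cHess (C.ρ a) z = pb (jm (C.tr g a b) z) (cHess (C.ρ b) (C.tr g a b z)) := by
  simpa only [Cov.om, one_mul, add_zero] using fm_om hB (C := C) 1 (f := fun _ => 0)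
    (fun _ _ _ _ _ => contDiffAt_const) 1 g a b z h rfl

theorem mD_pt (X : Fin n → C.Fm) (γ : Γ) (a : C.I) (z : Cm n) (hz : z ∈ C.B 4 a)
    (h : ∀ i, C.FmAt (X i) (C.pt γ a z)) :
    C.mD X (C.pt γ a z) = MD (fun i => X i γ a z) / (cHess (C.ρ a) z).det := by
  obtain ⟨h1, h2⟩ := ch₀_spec (C := C) (C.pt γ a z)
  obtain ⟨h3, h4⟩ := ov_of_eq hz h1 h2.symm
  have h5 := fun i => h i (C.ch₀ (C.pt γ a z)).1 _ a _ z h3 (by rw [mul_inv_cancel_left])
  have h6 := det_ne hz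
  rw [mul_inv_cancel_left, h4] at h5
  rw [rho_ch hB h3, h4, det_pb] at h6 ⊢
  rw [funext h5, MD_pb, mul_div_mul_left _ _ (left_ne_zero_of_mul h6)]
  rfl

theorem mD_cont (X : Fin n → C.Fm) (Ω : Set E) (hΩ : IsOpen Ω)
    (h : ∀ i, ∀ y ∈ Ω, C.FmAt (X i) y)
    (hc : ∀ i γ a, ContinuousOn (X i γ a) {z ∈ C.B 4 a | C.pt γ a z ∈ Ω}) :
    ContinuousOn (C.mD X) Ω := by
  intro y hy
  obtain ⟨γ, a, z, hz, rfl⟩ := exists_pt (C := C) y
  have hU := (open_pre γ a hΩ).mem_nhds ⟨B14 a hz, hy⟩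
  refine (contAt (B14 a hz) (ContinuousAt.congr (f := fun w =>
    MD (fun i => X i γ a w) / (cHess (C.ρ a) w).det) ?_ ?_)).continuousWithinAt
  · exact (cont_MD.continuousAt.comp (continuousAt_pi.2 fun i => (hc i γ a).continuousAt hU)).div
      (det_cont (B14 a hz)) (det_ne (B14 a hz))
  · exact mem_of_superset hU fun w hw => (mD_pt hB X γ a w hw.1 fun i => h i _ hw.2).symm

theorem cf_om (A : ℝ) (f : E → ℝ) (Ω : Set E) (hf : ∀ y ∈ Ω, C.SmAt f y) :
    C.CFOn (C.om A f) Ω :=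
  ⟨fun y hy => fm_om hB A (hf y hy), fun γ a => Sm.cf fun z hz =>
    (contDiffAt_const.mul (C.ρ_sm a z hz.1)).add (hf _ hz.2 γ a z hz.1 rfl)⟩

theorem cf_pbs (q : ℕ) (s : E → Cm q) (Ω : Set E) (hΩ : IsOpen Ω) (hs : C.HolOn s Ω) :
    C.CFOn (C.pbs s) Ω := by
  refine ⟨fun y hy γ g a b z h e => ?_, fun γ a => ?_⟩
  · have h1 := hs γ b _ (ov_mem h) (by rwa [pt_tr h γ, e])
    simp only [Cov.pbs]
    rw [jm_congr (pt_tr_ev h γ s), hB.jm_comp n n q _ _ z (tr_an h) h1, pb_mul]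
  · have h1 : ContDiff ℝ ∞ fun w : Cm q => nsq (w - 0) :=
      ContDiff.sum fun b _ => (contDiff_norm_sq ℂ).comp (by fun_prop)
    refine cf_congr (open_pre γ a hΩ) (Sm.cf (f := fun w => nsq (s (C.pt γ a w) - 0))
      fun z hz => h1.contDiffAt.comp z (an_sm (hs γ a z hz.1 hz.2))) fun z hz => ?_
    rw [hB.hess_comp n q _ (fun w => nsq (w - 0)) z (hs γ a z hz.1 hz.2)
      (h1.contDiffAt.of_le two_le), hB.hess_nsq]
    rfl

theorem fm_dc {u ψ : E → ℂ} (hu : C.SmAt u y) (hψ : C.SmAt ψ y) : C.FmAt (C.dc u ψ) y := by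
  intro γ g a b z h e
  have e' := (pt_tr h γ).trans e
  exact (dc_congr (pt_tr_ev h γ u) (pt_tr_ev h γ ψ)).trans (dc_comp hB
    (u := fun w => u (C.pt γ b w)) (ψ := fun w => ψ (C.pt γ b w)) (tr_an h)
    ((hu γ b _ (ov_mem h) e').differentiableAt (by simp))
    ((hψ γ b _ (ov_mem h) e').differentiableAt (by simp)))

theorem fm_hc {u : E → ℂ} (hu : C.SmAt u y) : C.FmAt (C.hc u) y := fun γ g a b z h e =>
  (hc_congr (pt_tr_ev h γ u)).trans (hc_comp hB (u := fun w => u (C.pt γ b w)) (tr_an h)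
    ((hu γ b _ (ov_mem h) ((pt_tr h γ).trans e)).of_le two_le))

omit hB in
theorem sm_ofReal {f : E → ℝ} (h : C.SmAt f y) : C.SmAt (fun y => (f y : ℂ)) y :=
  fun γ a z hz e => INT.ofReal_contDiffAt (h γ a z hz e)

end Vale.Agent.P284Z.JGx
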