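import Vale.Agent.P284Z.J.Spec
import Mathlib.MeasureTheory.Measure.Haar.Disintegration
import Mathlib.Analysis.Calculus.InverseFunctionTheorem.ContDiff

/-!
# P284Z, block J: calculus of pull-backs
-/

set_option linter.all false

open scoped ContDiff Topology ComplexOrder ComplexConjugate ENNReal
open Filter Set Function Matrix MeasureTheory

noncomputable section

namespace Vale.Agent.P284Z.J

open Vale.Agent.P272.K Vale.Agent.P284.H650

variable {n q : ℕ} {s : Cm n → Cm q} {z : Cm n}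

theorem jm_apply (s : Cm n → Cm q) (z : Cm n) (b : Fin q) (j : Fin n) :
    jm s z b j = fderiv ℂ s z (Pi.single j 1) b := rfl

theorem jm_mulVec (s : Cm n → Cm q) (z v : Cm n) : (jm s z).mulVec v = fderiv ℂ s z v := by
  conv_rhs => rw [pi_eq_sum_univ' v]
  ext b
  simp [Matrix.mulVec, dotProduct, jm_apply, mul_comm]

theorem dz_comp {u : Cm q → ℂ} (hs : DifferentiableAt ℂ s z) (hu : DifferentiableAt ℝ u (s z))
    (j : Fin n) : dz j (fun w => u (s w)) z = ∑ b, jm s z b j * dz b u (s z) ∧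
      dzb j (fun w => u (s w)) z = ∑ b, conj (jm s z b j) * dzb b u (s z) := by
  have h1 : ∀ v, fderiv ℝ (fun w => u (s w)) z v = fderiv ℝ u (s z) (fderiv ℂ s z v) := fun v => by
    rw [fderiv_fun_comp z hu (hs.restrictScalars ℝ), ← fderivR_of_holo hs]
    rfl
  have h2 : (Pi.single j Complex.I : Cm n) = Complex.I • Pi.single j 1 := by
    rw [← Pi.single_smul, smul_eq_mul, mul_one]
  rw [dz, dzb, h1, h1, h2, map_smul, fderiv_eq, fderiv_eq, Finset.mul_sum,
    ← Finset.sum_sub_distrib, ← Finset.sum_add_distrib, Finset.sum_div, Finset.sum_div]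
  simp only [Pi.smul_apply, smul_eq_mul, cj, map_mul, Complex.conj_I, ← jm_apply]
  constructor <;> refine Finset.sum_congr rfl fun b _ => ?_
  · linear_combination (dzb b u (s z) * conj (jm s z b j) - dz b u (s z) * jm s z b j) / 2 *
      Complex.I_mul_I
  · linear_combination (dz b u (s z) * jm s z b j - dzb b u (s z) * conj (jm s z b j)) / 2 *
      Complex.I_mul_I

theorem an_jm (hs : AnalyticAt ℂ s z) (b : Fin q) (j : Fin n) :
    AnalyticAt ℂ (fun w => jm s w b j) z :=
  analyticAt_pi_iff.1 ((ContinuousLinearMap.apply ℂ (Cm q) (Pi.single j 1 : Cm n)).analyticAt _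
    |>.comp hs.fderiv) b

theorem hc_comp {u : Cm q → ℂ} (hs : AnalyticAt ℂ s z) (hu : ContDiffAt ℝ 2 u (s z)) :
    hc (fun w => u (s w)) z = pb (jm s z) (hc u (s z)) := by
  ext j k
  have h1 : dzb k (fun w => u (s w)) =ᶠ[𝓝 z]
      fun y => ∑ b, cj (jm s y b k) * dzb b u (s y) := by
    filter_upwards [hs.eventually_analyticAt,
      hs.continuousAt.eventually (hu.eventually (by simp))] with y hy hy2
    exact (dz_comp hy.differentiableAt (hy2.differentiableAt two_ne_zero) k).2
  have d1 := fun b => (differentiableAt_dzb (i := b) hu).comp z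
    (hs.differentiableAt.restrictScalars ℝ)
  have d2 := fun b => (an_jm hs b k).differentiableAt
  have d3 : ∀ b, DifferentiableAt ℝ (fun y => cj (jm s y b k)) z := fun b =>
    Complex.conjCLE.differentiableAt.comp z ((d2 b).restrictScalars ℝ)
  rw [hc, Matrix.of_apply, dz_congr h1, dz_sum (F := fun b y => cj (jm s y b k) * dzb b u (s y)) _
    fun b _ => (d3 b).mul (d1 b), pb, Matrix.mul_apply]
  refine Finset.sum_congr rfl fun b _ => ?_
  rw [dz_mul (g := fun y => dzb b u (s y)) (d3 b) (d1 b), dz_cj ((d2 b).restrictScalars ℝ),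
    dzb_of_holo (d2 b), (dz_comp hs.differentiableAt (differentiableAt_dzb hu) j).1, cj, map_zero,
    zero_mul, zero_add, mul_comm]
  rfl

theorem hess_comp {u : Cm q → ℝ} (hs : AnalyticAt ℂ s z) (hu : ContDiffAt ℝ 2 u (s z)) :
    cHess (fun w => u (s w)) z = pb (jm s z) (cHess u (s z)) :=
  hc_comp (u := fun w => (u w : ℂ)) hs (ofReal_contDiffAt hu)

theorem pb_rk1 (S : Matrix (Fin q) (Fin n) ℂ) (x y : Cm q) :
    pb S (rk1 x y) = rk1 (Sᵀ.mulVec x) ((S.map (starRingEnd ℂ))ᵀ.mulVec y) := by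
  ext j k
  simp only [pb, rk1, Matrix.mul_apply, Matrix.of_apply, Matrix.mulVec, dotProduct,
    Matrix.transpose_apply, Finset.sum_mul, Finset.mul_sum]
  exact Finset.sum_congr rfl fun _ _ => Finset.sum_congr rfl fun _ _ => by ring

theorem gg_comp {u v : Cm q → ℝ} (hs : DifferentiableAt ℂ s z) (hu : DifferentiableAt ℝ u (s z))
    (hv : DifferentiableAt ℝ v (s z)) :
    gg (fun w => u (s w)) (fun w => v (s w)) z = pb (jm s z) (gg u v (s z)) := by
  rw [gg, gg, pb_rk1]
  congr 1
  · exact funext fun j => (dz_comp hs (AMP.ofReal_diff hu) j).1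
  · exact funext fun j => (dz_comp hs (AMP.ofReal_diff hv) j).2

theorem pb_psd (S : Matrix (Fin q) (Fin n) ℂ) {H : Mx q} (h : H.PosSemidef) :
    (pb S H).PosSemidef := by
  have := h.conjTranspose_mul_mul_same (S.map (starRingEnd ℂ))
  rwa [show (S.map (starRingEnd ℂ))ᴴ = Sᵀ by ext; simp] at this

theorem sm_nsq (t₀ : Cm q) : ContDiff ℝ ∞ fun w => nsq (w - t₀) :=
  ContDiff.sum fun b _ => ContDiff.norm_sq ℂ (by fun_prop)

theorem dz_coord (t₀ t : Cm q) (j k : Fin q) :
    dz j (fun w => w k - t₀ k) t = (1 : Mx q) j k := by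
  have h : HasFDerivAt (fun w : Cm q => w k - t₀ k) (ContinuousLinearMap.proj (R := ℂ) k) t :=
    (ContinuousLinearMap.proj (R := ℂ) (φ := fun _ => ℂ) k).hasFDerivAt.sub_const _
  rw [dz_of_holo h.differentiableAt, h.fderiv, Matrix.one_apply, ContinuousLinearMap.proj_apply,
    Pi.single_apply, if_congr eq_comm rfl rfl]

theorem dzb_nsq (t₀ t : Cm q) (k : Fin q) :
    dzb k (fun w => (nsq (w - t₀) : ℂ)) t = t k - t₀ k := by
  have h1 : (fun w => (nsq (w - t₀) : ℂ)) = fun w => ∑ b, (w b - t₀ b) * cj (w b - t₀ b) := by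
    funext w
    simp only [nsq, Complex.mul_conj', Pi.sub_apply]
    push_cast
    rfl
  have d1 : ∀ b, DifferentiableAt ℂ (fun w : Cm q => w b - t₀ b) t := fun b => by fun_prop
  have d2 := fun b => (d1 b).restrictScalars ℝ
  have d3 : ∀ b, DifferentiableAt ℝ (fun w : Cm q => cj (w b - t₀ b)) t := fun b =>
    Complex.conjCLE.differentiableAt.comp t (d2 b)
  rw [h1, dzb_sum (F := fun b w => (w b - t₀ b) * cj (w b - t₀ b)) _ fun b _ => (d2 b).mul (d3 b)]
  simp only [dzb_mul (d2 _) (d3 _), dzb_cj (d2 _), dzb_of_holo (d1 _), dz_coord]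
  simp [Matrix.one_apply]

theorem hess_nsq (t₀ t : Cm q) : cHess (fun w => nsq (w - t₀)) t = 1 := by
  ext j k
  rw [cHess_apply, funext fun t => dzb_nsq t₀ t k, dz_coord]

theorem gg_nsq (t₀ t : Cm q) : gg (fun w => nsq (w - t₀)) (fun w => nsq (w - t₀)) t =
    rk1 (star (t - t₀)) (t - t₀) := by
  rw [gg]
  congr 1 <;> funext j
  · rw [dzv, ← Complex.conj_conj (dz _ _ _), ← AMP.dzb_real_eq, dzb_nsq]
    rfl
  · exact dzb_nsq t₀ t j

theorem jm_comp {r : ℕ} {t : Cm q → Cm r} (hs : DifferentiableAt ℂ s z)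
    (ht : DifferentiableAt ℂ t (s z)) : jm (fun w => t (s w)) z = jm t (s z) * jm s z := by
  ext b j
  rw [jm_apply, fderiv_fun_comp z ht hs, ContinuousLinearMap.comp_apply, ← jm_mulVec]
  rfl

theorem hess_log {g : Cm n → ℂ} (hg : AnalyticAt ℂ g z) (h0 : g z ≠ 0) :
    cHess (fun w => Real.log (‖g w‖ ^ 2)) z = 0 := cHess_log_norm_sq hg.contDiffAt h0

theorem hess_re {g : Cm n → ℂ} (hg : AnalyticAt ℂ g z) : cHess (fun w => (g w).re) z = 0 := by
  rw [← hess_log (hg.div_const (c := 2)).cexp' (Complex.exp_ne_zero _)]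
  congr
  funext w
  rw [Complex.norm_exp, Real.log_pow, Real.log_exp, Complex.div_ofNat_re]
  push_cast
  ring

theorem hc_holo {g : Cm n → ℂ} (hg : AnalyticAt ℂ g z) : hc g z = 0 := by
  ext j k
  rw [hc, Matrix.of_apply, dz_congr (g := fun _ => 0)
    (hg.eventually_analyticAt.mono fun y hy => dzb_of_holo hy.differentiableAt), dz_const]
  rfl

theorem det_real {Θ : Cm n → Cm n} (h : DifferentiableAt ℂ Θ z) :
    (fderiv ℝ Θ z).det = ‖(jm Θ z).det‖ ^ 2 := by
  rw [INT.det_fderiv_real h]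
  congr 3
  ext p i
  exact jmat_apply h p i

theorem cov {U : Set (Cm n)} {Θ : Cm n → Cm n} (hU : MeasurableSet U)
    (h : ∀ z ∈ U, DifferentiableAt ℂ Θ z) (hi : InjOn Θ U) (f : Cm n → ℝ≥0∞) :
    ∫⁻ w in Θ '' U, f w = ∫⁻ z in U, ENNReal.ofReal (‖(jm Θ z).det‖ ^ 2) * f (Θ z) := by
  rw [lintegral_image_eq_lintegral_abs_det_fderiv_mul volume hU
    (fun z hz => ((h z hz).restrictScalars ℝ).hasFDerivAt.hasFDerivWithinAt) hi]
  refine setLIntegral_congr_fun hU fun z hz => ?_
  simp only [det_real (h z hz), abs_sq]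

theorem null {U : Set (Cm n)} (hs : AnalyticOnNhd ℂ s U)
    (h : ∀ z ∈ U, Surjective (fderiv ℂ s z)) {A : Set (Cm q)} (hA : volume A = 0) :
    volume {z ∈ U | s z ∈ A} = 0 := by
  refine measure_null_of_locally_null _ fun z hz => ?_
  obtain ⟨R, hR⟩ := (fderiv ℂ s z : Cm n →ₗ[ℂ] Cm q).exists_rightInverse_of_surjective
    (LinearMap.range_eq_top.2 (h z hz.1))
  have c1 : ContDiffAt ℂ 1 (fun w => w + R.toContinuousLinearMap (s w - fderiv ℂ s z w)) z :=
    contDiffAt_id.add (R.toContinuousLinearMap.contDiff.contDiffAt.comp z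
      ((hs z hz.1).contDiffAt.sub (fderiv ℂ s z).contDiff.contDiffAt))
  have c2 : HasFDerivAt (fun w => w + R.toContinuousLinearMap (s w - fderiv ℂ s z w))
      (ContinuousLinearEquiv.refl ℂ (Cm n) : Cm n →L[ℂ] Cm n) z := by
    simpa using (hasFDerivAt_id z).add (R.toContinuousLinearMap.hasFDerivAt.comp z
      ((hs z hz.1).differentiableAt.hasFDerivAt.sub (fderiv ℂ s z).hasFDerivAt))
  have c3 := (c1.to_localInverse c2 one_ne_zero).eventually (by simp)
  have c4 : volume {w | fderiv ℂ s z w ∈ toMeasurable volume A} = 0 := by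
    simpa only [ae_iff, mem_compl_iff, not_not, ContinuousLinearMap.coe_coe] using (ae_comp_linearMap_mem_iff
      (fderiv ℂ s z : Cm n →ₗ[ℂ] Cm q) volume volume (h z hz.1)
      (measurableSet_toMeasurable volume A).compl).2
      (compl_mem_ae_iff.2 ((measure_toMeasurable A).trans hA))
  refine ⟨_, ?_, addHaar_image_eq_zero_of_differentiableOn_of_addHaar_eq_zero volume
    (f := c1.localInverse c2 one_ne_zero) (s := {w | ContDiffAt ℂ 1 (c1.localInverse c2 one_ne_zero) w
      ∧ fderiv ℂ s z w ∈ toMeasurable volume A}) (fun w hw => ((hw.1.differentiableAt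
        one_ne_zero).restrictScalars ℝ).differentiableWithinAt)
    (measure_mono_null (fun w hw => hw.2) c4)⟩
  filter_upwards [self_mem_nhdsWithin, nhdsWithin_le_nhds (c1.continuousAt.eventually c3),
    nhdsWithin_le_nhds (c1.hasStrictFDerivAt' c2 one_ne_zero).eventually_left_inverse]
    with w h1 h2 h3
  refine ⟨_, ⟨h2, subset_toMeasurable _ _ ?_⟩, h3⟩
  have h4 : fderiv ℂ s z (R.toContinuousLinearMap (s w - fderiv ℂ s z w)) = s w - fderiv ℂ s z w :=
    LinearMap.congr_fun hR _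
  rw [map_add, h4, add_sub_cancel]
  exact h1.2

end J

open J

/-- **JB** -/
theorem jb : JB where
  hess_comp _ _ _ _ _ := hess_comp
  dz_comp _ _ _ _ _ hs hu := ⟨funext fun j => (dz_comp hs.differentiableAt hu j).1,
    funext fun j => (dz_comp hs.differentiableAt hu j).2⟩
  hess_nsq _ := hess_nsq
  jm_comp _ _ _ _ _ _ hs ht := jm_comp hs.differentiableAt ht.differentiableAt
  hess_re _ _ _ hg := ⟨hess_re hg, hc_holo hg, hess_log hg⟩
  cov _ _ _ hU h := cov hU.measurableSet fun z hz => (h z hz).differentiableAt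
  null _ _ _ _ _ hs h _ := null hs h

end Vale.Agent.P284Z
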