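import Vale.Agent.P284Z.J.G3
import Vale.Agent.P284Z.J.JB

/-!
# P284Z, block JG
-/

namespace Vale.Agent.P284Z

/-- **JG** -/
theorem jg {n : ℕ} {Γ E : Type} [Group Γ] [Countable Γ] [TopologicalSpace E] [T2Space E]
    [MulAction Γ E] (C : Cov n Γ E) [MeasurableSpace E] [BorelSpace E] : JG C :=
  jg_of jb C

end Vale.Agent.P284Z
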