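import Vale.Agent.P284Z.J.Ibp

/-!
# P284Z, block J: definitions and statements used by the blocks K and L
-/

open scoped ContDiff Topology ComplexOrder ComplexConjugate ENNReal
open Filter Set Function Metric MeasureTheory

noncomputable section

namespace Vale.Agent.P284Z

open Vale.Agent.P272.K Vale.Agent.P284.H650 J

/-! ### pull-backs -/

/-- the square of the euclidean norm -/
def nsq {q : ℕ} (x : Cm q) : ℝ := ∑ b, ‖x b‖ ^ 2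

/-- the Jacobian matrix of a holomorphic map -/
def jm {n q : ℕ} (s : Cm n → Cm q) (z : Cm n) : Matrix (Fin q) (Fin n) ℂ :=
  Matrix.of fun b j => fderiv ℂ s z (Pi.single j 1) b

/-- the pull-back of the form `H` by the linear map `S` -/
def pb {n q : ℕ} (S : Matrix (Fin q) (Fin n) ℂ) (H : Mx q) : Mx n :=
  S.transpose * H * S.map (starRingEnd ℂ)

/-- `A` in the first `d` slots, `B` in the last `q` slots -/
def blk {α : Type} {n d q : ℕ} (e : Fin d ⊕ Fin q ≃ Fin n) (A B : α) : Fin n → α :=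
  fun i => Sum.elim (fun _ => A) (fun _ => B) (e.symm i)

/-- the square matrix with the rows of `T` and of `S` -/
def stk {n d q : ℕ} (e : Fin d ⊕ Fin q ≃ Fin n) (T : Matrix (Fin d) (Fin n) ℂ)
    (S : Matrix (Fin q) (Fin n) ℂ) : Mx n :=
  Matrix.of fun i j => Sum.elim (fun l => T l j) (fun b => S b j) (e.symm i)

/-- the matrix `∂_j u ∂̄_k ψ` -/
def dc {n : ℕ} (u ψ : Cm n → ℂ) (z : Cm n) : Mx n := Matrix.of fun j k => dz j u z * dzb k ψ z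

/-- the complex Hessian of a complex function -/
def hc {n : ℕ} (u : Cm n → ℂ) (z : Cm n) : Mx n := Matrix.of fun j k => dz j (dzb k u) z

/-- **JA**: algebra of pull-backs -/
structure JA : Prop where
  /-- `q` slots are pulled back from `ℂ^q`, and one more covector -/
  vanish : ∀ (n q : ℕ) (S : Matrix (Fin q) (Fin n) ℂ) (X : Fin n → Mx n) (ι : Fin q → Fin n)
    (k : Fin n), Injective ι → (∀ b, ι b ≠ k) → (∀ b, ∃ H, X (ι b) = pb S H) →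
    ∀ (x : Cm q) (η : Cm n),
      MD (update X k (rk1 (S.transpose.mulVec x) η)) = 0 ∧
      MD (update X k (rk1 η ((S.map (starRingEnd ℂ)).transpose.mulVec x))) = 0
  /-- `q` slots are pulled back from `ℂ^q`, all but one are the euclidean form -/
  trace : ∀ (n q : ℕ) (S : Matrix (Fin q) (Fin n) ℂ) (X : Fin n → Mx n) (ι : Fin q → Fin n),
    Injective ι → (∀ b, X (ι b) = pb S 1) → ∀ (b : Fin q) (H : Mx q),
      (q : ℂ) * MD (update X (ι b) (pb S H)) = H.trace * MD X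
  /-- change of the map to `ℂ^q` -/
  scale : ∀ (n q : ℕ) (S : Matrix (Fin q) (Fin n) ℂ) (G : Mx q) (X : Fin n → Mx n)
    (ι : Fin q → Fin n), Injective ι → (∀ b, X (ι b) = pb S 1) →
      MD (fun i => if i ∈ range ι then pb (G * S) 1 else X i) = (‖G.det‖ ^ 2 : ℝ) * MD X
  two : ∀ (n d q : ℕ) (e : Fin d ⊕ Fin q ≃ Fin n) (T : Matrix (Fin d) (Fin n) ℂ)
    (S : Matrix (Fin q) (Fin n) ℂ),
      md (blk e (pb T 1) (pb S 1)) = d.factorial * q.factorial * ‖(stk e T S).det‖ ^ 2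
  block : ∀ (n d q : ℕ) (e : Fin d ⊕ Fin q ≃ Fin n) (T : Matrix (Fin d) (Fin n) ℂ)
    (S : Matrix (Fin q) (Fin n) ℂ) (l₀ : Fin d) (H : Mx n),
      MD (update (blk e (pb T 1) (pb S 1)) (e (.inl l₀)) (pb (stk e T S) H)) =
        ((d - 1).factorial * q.factorial * ‖(stk e T S).det‖ ^ 2 : ℝ) *
          ∑ l, H (e (.inl l)) (e (.inl l))
  /-- the minors of `S` are controlled by `(S^* β)^q ∧ β^d` -/
  minor : ∀ (n d q : ℕ) (e : Fin d ⊕ Fin q ≃ Fin n), ∃ K : ℝ, ∀ (S : Matrix (Fin q) (Fin n) ℂ)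
    (ξ : Fin q → Cm n), ‖ξ‖ ≤ 1 →
      ‖(Matrix.of fun b k => S.mulVec (ξ k) b).det‖ ^ 2 ≤ K * md (blk e 1 (pb S 1))
  /-- Cauchy-Schwarz, complex form -/
  cs : ∀ (n : ℕ) (X : Fin n → Mx n) (k : Fin n), (∀ i, i ≠ k → (X i).PosSemidef) →
    ∀ ξ η : Cm n, ‖MD (update X k (rk1 ξ (star η)))‖ ^ 2 ≤
      sl X k (rk1 ξ (star ξ)) * sl X k (rk1 η (star η))

/-- **JB**: calculus of pull-backs -/
structure JB : Prop where
  hess_comp : ∀ (n q : ℕ) (s : Cm n → Cm q) (u : Cm q → ℝ) (z : Cm n), AnalyticAt ℂ s z →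
    ContDiffAt ℝ 2 u (s z) → cHess (fun w => u (s w)) z = pb (jm s z) (cHess u (s z))
  dz_comp : ∀ (n q : ℕ) (s : Cm n → Cm q) (u : Cm q → ℂ) (z : Cm n), AnalyticAt ℂ s z →
    DifferentiableAt ℝ u (s z) →
    (fun j => dz j (fun w => u (s w)) z) = (jm s z).transpose.mulVec (fun b => dz b u (s z)) ∧
    (fun j => dzb j (fun w => u (s w)) z) =
      ((jm s z).map (starRingEnd ℂ)).transpose.mulVec fun b => dzb b u (s z)
  hess_nsq : ∀ (q : ℕ) (t₀ t : Cm q), cHess (fun w => nsq (w - t₀)) t = 1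
  jm_comp : ∀ (n q r : ℕ) (s : Cm n → Cm q) (t : Cm q → Cm r) (z : Cm n), AnalyticAt ℂ s z →
    AnalyticAt ℂ t (s z) → jm (fun w => t (s w)) z = jm t (s z) * jm s z
  hess_re : ∀ (n : ℕ) (g : Cm n → ℂ) (z : Cm n), AnalyticAt ℂ g z →
    cHess (fun w => (g w).re) z = 0 ∧ hc g z = 0 ∧
      (g z ≠ 0 → cHess (fun w => Real.log (‖g w‖ ^ 2)) z = 0)
  /-- change of variables by an injective holomorphic map -/
  cov : ∀ (n : ℕ) (U : Set (Cm n)) (Θ : Cm n → Cm n), IsOpen U → AnalyticOnNhd ℂ Θ U →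
    InjOn Θ U → ∀ f : Cm n → ℝ≥0∞,
      ∫⁻ w in Θ '' U, f w = ∫⁻ z in U, ENNReal.ofReal (‖(jm Θ z).det‖ ^ 2) * f (Θ z)
  /-- submersions pull null sets back to null sets -/
  null : ∀ (n q : ℕ) (U : Set (Cm n)) (s : Cm n → Cm q), IsOpen U → AnalyticOnNhd ℂ s U →
    (∀ z ∈ U, Surjective (fderiv ℂ s z)) → ∀ A : Set (Cm q), volume A = 0 →
      volume {z ∈ U | s z ∈ A} = 0

/-- **MV**: the mean value inequality on the graph of `s` -/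
def JMV : Prop := ∀ n : ℕ, ∃ c > (0 : ℝ), ∀ (q : ℕ) (U K : Set (Cm n)) (s : Cm n → Cm q)
  (u : Cm n → ℝ) (z₀ : Cm n) (R : ℝ), IsOpen U → AnalyticOnNhd ℂ s U → Sm U u →
    (∀ z ∈ U, 0 ≤ u z ∧ (cHess u z).PosSemidef) → z₀ ∈ U → 0 < R → IsCompact K → K ⊆ U →
    (∀ z ∈ U, u z ≠ 0 → nsq (z - z₀) + nsq (s z - s z₀) ≤ R ^ 2 → z ∈ K) →
    ENNReal.ofReal (c * R ^ (2 * n) * u z₀) ≤
      ∫⁻ z in {z ∈ U | nsq (z - z₀) + nsq (s z - s z₀) ≤ R ^ 2},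
        ENNReal.ofReal (u z * (1 + pb (jm s z) 1).det.re)

/-! ### forms on the covering -/

variable {n : ℕ} {Γ E : Type} [Group Γ] [TopologicalSpace E] [MulAction Γ E]

namespace Cov
variable (C : Cov n Γ E)

/-- `f` is smooth at `y` -/
def SmAt {V : Type} [NormedAddCommGroup V] [NormedSpace ℝ V] (f : E → V) (y : E) : Prop :=
  ∀ γ a, ∀ z ∈ C.B 4 a, C.pt γ a z = y → ContDiffAt ℝ ∞ (fun w => f (C.pt γ a w)) z

/-- families of matrices, one for each point of each chart -/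
abbrev Fm : Type := Γ → C.I → Cm n → Mx n

/-- `H` changes like a form of type `(1,1)` at `y` -/
def FmAt (H : C.Fm) (y : E) : Prop := ∀ γ g a b z, C.Ov g a b z → C.pt (γ * g) a z = y →
  H (γ * g) a z = pb (jm (C.tr g a b) z) (H γ b (C.tr g a b z))

/-- `H` is a smooth closed real form of type `(1,1)` on `Ω` -/
def CFOn (H : C.Fm) (Ω : Set E) : Prop :=
  (∀ y ∈ Ω, C.FmAt H y) ∧ ∀ γ a, CF {z ∈ C.B 4 a | C.pt γ a z ∈ Ω} (H γ a)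

/-- `A ω + i∂∂̄ g` -/
def om (A : ℝ) (g : E → ℝ) : C.Fm := fun γ a => cHess fun w => A * C.ρ a w + g (C.pt γ a w)

/-- the pull-back of the euclidean form by `s` -/
def pbs {q : ℕ} (s : E → Cm q) : C.Fm := fun γ a z => pb (jm (fun w => s (C.pt γ a w)) z) 1

/-- `i ∂h ∧ ∂̄f` -/
def gg (h f : E → ℝ) : C.Fm := fun γ a =>
  Vale.Agent.P284.H650.gg (fun w => h (C.pt γ a w)) fun w => f (C.pt γ a w)

/-- `i ∂u ∧ ∂̄ψ` -/
def dc (u ψ : E → ℂ) : C.Fm := fun γ a =>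
  Vale.Agent.P284Z.dc (fun w => u (C.pt γ a w)) fun w => ψ (C.pt γ a w)

/-- `i ∂∂̄u` -/
def hc (u : E → ℂ) : C.Fm := fun γ a => Vale.Agent.P284Z.hc fun w => u (C.pt γ a w)

/-- a chart at `y` -/
def ch₀ (y : E) : Γ × C.I × Cm n :=
  ((C.cover y).choose, (C.cover y).choose_spec.choose,
    (C.cover y).choose_spec.choose_spec.choose)

/-- the quotient of the wedge product of `n` forms by the volume form -/
def mD (X : Fin n → C.Fm) (y : E) : ℂ :=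
  MD (fun i => X i (C.ch₀ y).1 (C.ch₀ y).2.1 (C.ch₀ y).2.2) /
    (cHess (C.ρ (C.ch₀ y).2.1) (C.ch₀ y).2.2).det

/-- `μ` is the volume measure -/
def Vol [MeasurableSpace E] (μ : Measure E) : Prop := ∀ γ a (f : E → ℝ≥0∞), Measurable f →
  ∫⁻ y in C.pt γ a '' C.B 4 a, f y ∂μ =
    ∫⁻ z in C.B 4 a, f (C.pt γ a z) * ENNReal.ofReal (cHess (C.ρ a) z).det.re

/-- smooth invariant `A ω`-plurisubharmonic functions -/
structure SmPsh (A : ℝ) (g : E → ℝ) : Prop where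
  inv : ∀ (γ : Γ) y, g (γ • y) = g y
  sm : ∀ y, C.SmAt g y
  psd : ∀ a, ∀ z ∈ C.B 4 a, (C.om A g 1 a z).PosSemidef

/-- `F` is smooth and plurisubharmonic on the polydisc `B (7/4) a`, at distance at most `L` of
`A ρ + g` -/
def Near (A L : ℝ) (g : E → ℝ) (a : C.I) (F : Cm n → ℝ) : Prop :=
  ∀ z ∈ C.B (7 / 4) a, ContDiffAt ℝ ∞ F z ∧ (cHess F z).PosSemidef ∧
    |F z - (A * C.ρ a z + g (C.pt 1 a z))| ≤ L

/-- the Monge-Ampère mass of `A ρ + F` on `S` -/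
def mass (A : ℝ) (a : C.I) (F : Cm n → ℝ) (S : Set (Cm n)) : ℝ≥0∞ :=
  ∫⁻ z in S, ENNReal.ofReal (cHess (fun w => A * C.ρ a w + F w) z).det.re

end Cov

/-- **JG**: the global calculus on the covering -/
structure JG (C : Cov n Γ E) [MeasurableSpace E] : Prop where
  vol : ∃ μ : Measure E, C.Vol μ
  inv : ∀ μ, C.Vol μ → ∀ (γ : Γ) (f : E → ℝ≥0∞), ∫⁻ y, f (γ • y) ∂μ = ∫⁻ y, f y ∂μ
  fin : ∀ μ, C.Vol μ → ∀ K, IsCompact K → μ K < ⊤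
  /-- null sets are the sets which are null in the charts -/
  ae : ∀ μ, C.Vol μ → ∀ S : Set E, μ S = 0 ↔ ∀ γ a, volume {z ∈ C.B 4 a | C.pt γ a z ∈ S} = 0
  /-- integrals over `E` and sums of integrals over the charts -/
  le_sum : ∀ μ, C.Vol μ → ∀ f : E → ℝ≥0∞, Measurable f → ∫⁻ y, f y ∂μ ≤
    ∑' γ, ∑ a, ∫⁻ z in C.B 1 a, f (C.pt γ a z) * ENNReal.ofReal (cHess (C.ρ a) z).det.re
  sum_le : ∀ μ, C.Vol μ → ∀ (a) (f : E → ℝ≥0∞), Measurable f →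
    ∑' γ, ∫⁻ z in C.B 4 a, f (C.pt γ a z) * ENNReal.ofReal (cHess (C.ρ a) z).det.re ≤
      ∫⁻ y, f y ∂μ
  mD_pt : ∀ (X : Fin n → C.Fm) γ a, ∀ z ∈ C.B 4 a, (∀ i, C.FmAt (X i) (C.pt γ a z)) →
    C.mD X (C.pt γ a z) = MD (fun i => X i γ a z) / (cHess (C.ρ a) z).det
  mD_cont : ∀ (X : Fin n → C.Fm) (Ω : Set E), IsOpen Ω → (∀ i, ∀ y ∈ Ω, C.FmAt (X i) y) →
    (∀ i γ a, ContinuousOn (X i γ a) {z ∈ C.B 4 a | C.pt γ a z ∈ Ω}) → ContinuousOn (C.mD X) Ω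
  cf_om : ∀ (A : ℝ) (g : E → ℝ) (Ω : Set E), IsOpen Ω → (∀ y ∈ Ω, C.SmAt g y) →
    C.CFOn (C.om A g) Ω
  cf_pbs : ∀ (q : ℕ) (s : E → Cm q) (Ω : Set E), IsOpen Ω → C.HolOn s Ω → C.CFOn (C.pbs s) Ω
  fm_dc : ∀ (u ψ : E → ℂ) (y : E), C.SmAt u y → C.SmAt ψ y →
    C.FmAt (C.dc u ψ) y ∧ C.FmAt (C.hc u) y
  fm_gg : ∀ (h f : E → ℝ) (y : E), C.SmAt h y → C.SmAt f y → C.FmAt (C.gg h f) y
  /-- integration by parts, complex form -/
  ibpc : ∀ μ, C.Vol μ → ∀ (Ω K : Set E) (X : Fin n → C.Fm) (k : Fin n) (u ψ : E → ℂ), IsOpen Ω →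
    IsCompact K → K ⊆ Ω → (∀ i, i ≠ k → C.CFOn (X i) Ω) → (∀ y ∈ Ω, C.SmAt u y ∧ C.SmAt ψ y) →
    (∀ y ∉ K, ψ y = 0) →
    Integrable (fun y => ψ y * C.mD (update X k (C.hc u)) y) μ ∧
    Integrable (C.mD (update X k (C.dc u ψ))) μ ∧ Integrable (C.mD (update X k (C.dc ψ u))) μ ∧
    ∫ y, ψ y * C.mD (update X k (C.hc u)) y ∂μ = -∫ y, C.mD (update X k (C.dc u ψ)) y ∂μ ∧
    ∫ y, ψ y * C.mD (update X k (C.hc u)) y ∂μ = -∫ y, C.mD (update X k (C.dc ψ u)) y ∂μ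
  /-- integration by parts, real form -/
  ibp : ∀ μ, C.Vol μ → ∀ (Ω K : Set E) (X : Fin n → C.Fm) (k : Fin n) (f h : E → ℝ), IsOpen Ω →
    IsCompact K → K ⊆ Ω → (∀ i, i ≠ k → C.CFOn (X i) Ω) → (∀ y ∈ Ω, C.SmAt f y ∧ C.SmAt h y) →
    (∀ y ∉ K, h y = 0) →
    Integrable (fun y => h y * (C.mD (update X k (C.om 0 f)) y).re) μ ∧
    Integrable (fun y => (C.mD (update X k (C.gg h f)) y).re) μ ∧
    ∫ y, h y * (C.mD (update X k (C.om 0 f)) y).re ∂μ =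
      -∫ y, (C.mD (update X k (C.gg h f)) y).re ∂μ
  /-- an invariant partition of unity -/
  pu : ∃ ψ : C.I → E → ℝ, (∀ a y, C.SmAt (ψ a) y) ∧ (∀ a y, 0 ≤ ψ a y) ∧
    (∀ a y, ψ a y ≠ 0 ↔ y ∈ C.pt 1 a '' C.B 1 a) ∧
    ∀ y, ∃ S : Finset Γ, ∀ᶠ y' in 𝓝 y, (∀ γ ∉ S, ∀ a, ψ a (γ⁻¹ • y') = 0) ∧
      ∑ γ ∈ S, ∑ a, ψ a (γ⁻¹ • y') = 1

/-- **M0, C0, C1, C2**: bounds for the masses -/
structure JM (C : Cov n Γ E) : Prop where
  M0 : ∀ A : ℝ, 0 ≤ A → ∃ M < (⊤ : ℝ≥0∞), ∀ g : Fin n → E → ℝ, (∀ i, C.SmPsh A (g i)) → ∀ a,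
    ∫⁻ z in C.B 3 a, ENNReal.ofReal (md fun i => C.om A (g i) 1 a z) ≤ M
  C0 : ∀ A L : ℝ, 0 < A → ∃ M < (⊤ : ℝ≥0∞), ∀ g a F, C.SmPsh A g → C.Near A L g a F →
    C.mass A a F (C.B (3 / 2) a) ≤ M
  C1 : ∀ A L : ℝ, 0 < A → ∃ K : ℝ, ∀ g a F (m T : ℝ), C.SmPsh A g → C.Near A L g a F → 1 ≤ m →
    2 * m ≤ T →
    C.mass A a F {z ∈ C.B (3 / 2) a | g (C.pt 1 a z) ∈ Icc (-T) (-(2 * m))} ≤
      ENNReal.ofReal K * (C.mass (2 * A) a (fun z => g (C.pt 1 a z))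
        {z ∈ C.B 2 a | g (C.pt 1 a z) ∈ Icc (-(2 * T)) (-m)} + ENNReal.ofReal (1 / √m))
  C2 : ∀ A L : ℝ, 0 < A → ∀ (a) (h : Cm n → ℂ), AnalyticOnNhd ℂ h (C.B 2 a) →
    (∃ z ∈ C.B 2 a, h z ≠ 0) → ∀ ε > (0 : ℝ≥0∞), ∃ η > (0 : ℝ), ∀ F, C.Near A L (fun _ => 0) a F →
      C.mass A a F {z ∈ C.B (3 / 2) a | ‖h z‖ < η} ≤ ε

/-- **J** -/
def StJ : Prop := JA ∧ JB ∧ JMV ∧
  ∀ (n : ℕ) (Γ E : Type) [Group Γ] [Countable Γ] [TopologicalSpace E] [T2Space E] [MulAction Γ E]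
    (C : Cov n Γ E), JM C ∧ ∀ [MeasurableSpace E] [BorelSpace E], JG C

end Vale.Agent.P284Z
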