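import Vale.Agent.P284Z.J.Cap
import Vale.Agent.P284Z.J.JB
import Mathlib.Analysis.SpecialFunctions.Sigmoid
import Mathlib.Analysis.SpecialFunctions.SmoothTransition

/-!
# P284Z, block J: cut-off functions and windows
-/

set_option linter.all false

open scoped ContDiff Topology ComplexOrder ComplexConjugate ENNReal
open Filter Set Function Matrix MeasureTheory

noncomputable section

namespace Vale.Agent.P284Z.J

open Vale.Agent.P272.K Vale.Agent.P284.H650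

variable {n q : ℕ} {U K : Set (Cm n)} {z : Cm n}

/-- the hermitian form of a matrix at a vector -/
def qd (ξ : Cm n) : Mx n →ₗ[ℝ] ℝ where
  toFun M := (quad M ξ).re
  map_add' M N := by simp [quad, add_mul, Finset.sum_add_distrib]
  map_smul' c M := by simp [quad, Finset.mul_sum, mul_assoc, mul_sub]

theorem pf_qd (ξ : Cm n) : Pf (qd ξ) := ⟨fun _ h => quad_nonneg h ξ, fun M => by
  change (quad _ _).re = (quad _ _).re
  rw [← Complex.conj_re, quad, quad, Finset.sum_comm]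
  simp [mul_comm (ξ _)]⟩

theorem psd_of_pf {M : Mx n} (hM : M.IsHermitian) (h : ∀ ℓ, Pf ℓ → 0 ≤ ℓ M) : M.PosSemidef :=
  posSemidef_of_quad hM fun ξ => h _ (pf_qd ξ)

theorem herm_smul {M : Mx n} (hM : M.IsHermitian) (c : ℝ) : ((c : ℂ) • M).IsHermitian :=
  hM.smul (Complex.conj_ofReal c)

theorem exists_dom (hK : IsCompact K) {P N : Cm n → Mx n} (hP : SmM K P) (hN : SmM K N)
    (hp : ∀ z ∈ K, (P z).PosDef) (hn : ∀ z ∈ K, (N z).IsHermitian) :
    ∃ c ≥ (0 : ℝ), ∀ z ∈ K, ∀ ℓ, Pf ℓ → ℓ (N z) ≤ c * ℓ (P z) := by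
  obtain ⟨c, hc, h⟩ := exists_quad_lower hK P N
    (fun i j z hz => (hP z hz i j).continuousAt.continuousWithinAt)
    (fun i j z hz => (hN z hz i j).continuousAt.continuousWithinAt) hp
  refine ⟨c, hc.le, fun z hz ℓ hℓ => ?_⟩
  rw [← lin_csmul]
  refine hℓ.mono (posSemidef_of_quad ((herm_smul (hp z hz).1 c).sub (hn z hz)) fun ξ => ?_)
  change 0 ≤ qd ξ _
  rw [map_sub, lin_csmul, sub_nonneg]
  exact h z hz ξ

theorem exists_dm (hK : IsCompact K) {P : Cm n → Mx n} {χ : Cm n → ℝ} (hP : SmM K P)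
    (hχ : Sm K χ) (hp : ∀ z ∈ K, (P z).PosDef) :
    ∃ c ≥ (0 : ℝ), ∀ z ∈ K, Dm χ z ((c : ℂ) • P z) := by
  obtain ⟨a, a0, ha⟩ := exists_dom hK hP (hχ.cf.sm.smul hχ) hp
    fun z hz => herm_smul (hχ.cf.herm z hz) _
  obtain ⟨b, b0, hb⟩ := exists_dom hK hP (hχ.cf.sm.smul ((Sm.const (-1)).mul hχ)) hp
    fun z hz => herm_smul (hχ.cf.herm z hz) _
  obtain ⟨c, c0, hc⟩ := exists_dom hK hP (hχ.gg hχ) hp fun z _ => (gg_psd χ z).1
  refine ⟨a + b + c, by positivity, fun z hz ℓ hℓ => ?_⟩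
  have h1 := ha z hz ℓ hℓ
  have h2 := hb z hz ℓ hℓ
  have h3 := hc z hz ℓ hℓ
  have h4 := hℓ.pos _ (hp z hz).posSemidef
  rw [lin_csmul] at h1 h2 ⊢
  rw [abs_le]
  refine ⟨⟨?_, ?_⟩, ?_⟩ <;> nlinarith [mul_nonneg a0 h4, mul_nonneg b0 h4, mul_nonneg c0 h4]

theorem lin_comp {f : Cm n → ℝ} {φ : ℝ → ℝ} (hφ : ContDiffAt ℝ 2 φ (f z))
    (hf : ContDiffAt ℝ 2 f z) (ℓ : Mx n →ₗ[ℝ] ℝ) : ℓ (cHess (fun y => φ (f y)) z) =
      deriv φ (f z) * ℓ (cHess f z) + deriv (deriv φ) (f z) * ℓ (gg f f z) := by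
  rw [cHess_comp' hφ hf, map_add, lin_csmul, lin_csmul]

theorem lin_gg_comp {f : Cm n → ℝ} {φ : ℝ → ℝ} (hφ : DifferentiableAt ℝ φ (f z))
    (hf : DifferentiableAt ℝ f z) (ℓ : Mx n →ₗ[ℝ] ℝ) :
    ℓ (gg (fun y => φ (f y)) (fun y => φ (f y)) z) = deriv φ (f z) ^ 2 * ℓ (gg f f z) := by
  rw [gg_comp_left hφ hf, gg_comp_right hφ hf, lin_csmul, lin_csmul, sq, mul_assoc]

theorem nsq_nonneg (x : Cm q) : 0 ≤ nsq x := Finset.sum_nonneg fun _ _ => sq_nonneg _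

theorem psd_rad (x : Cm q) : ((nsq x : ℂ) • (1 : Mx q) - rk1 (star x) x).PosSemidef := by
  refine posSemidef_of_quad ((herm_smul isHermitian_one _).sub ?_) fun ξ => ?_
  · ext i j
    simp [rk1, mul_comm]
  have h1 : quad (rk1 (star x) x) ξ = (‖∑ i, conj (x i) * ξ i‖ ^ 2 : ℝ) := by
    rw [Complex.ofReal_pow, ← Complex.mul_conj', map_sum, Finset.sum_mul_sum, quad]
    refine Finset.sum_congr rfl fun i _ => Finset.sum_congr rfl fun j _ => ?_
    simp only [rk1, Matrix.of_apply, Pi.star_apply, RCLike.star_def, map_mul, Complex.conj_conj]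
    ring
  have h2 : quad 1 ξ = (nsq ξ : ℝ) := by
    simp [quad, Matrix.one_apply, nsq, Complex.mul_conj']
  change 0 ≤ qd ξ _
  rw [map_sub, lin_csmul, sub_nonneg]
  change (quad _ _).re ≤ _ * (quad _ _).re
  rw [h1, h2, Complex.ofReal_re, Complex.ofReal_re]
  refine (pow_le_pow_left₀ (norm_nonneg _) (norm_sum_le _ _) 2).trans ?_
  simpa only [norm_mul, Complex.norm_conj, nsq] using
    Finset.sum_mul_sq_le_sq_mul_sq Finset.univ (fun i => ‖x i‖) fun i => ‖ξ i‖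

theorem sm_rad {s : Cm n → Cm q} (hs : AnalyticAt ℂ s z) (t₀ : Cm q) :
    ContDiffAt ℝ ∞ (fun w => nsq (s w - t₀)) z :=
  (sm_nsq t₀).contDiffAt.comp z ((hs.contDiffAt (n := ∞)).restrict_scalars ℝ)

theorem hess_rad {s : Cm n → Cm q} (hs : AnalyticAt ℂ s z) (t₀ : Cm q) :
    cHess (fun w => nsq (s w - t₀)) z = pb (jm s z) 1 := by
  rw [hess_comp (u := fun w => nsq (w - t₀)) hs ((sm_nsq t₀).contDiffAt.of_le two_le), hess_nsq]

/-- the gradient of the distance to a point -/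
theorem gg_rad {s : Cm n → Cm q} (hs : AnalyticAt ℂ s z) (t₀ : Cm q) {ℓ : Mx n →ₗ[ℝ] ℝ}
    (hℓ : Pf ℓ) : ℓ (gg (fun w => nsq (s w - t₀)) (fun w => nsq (s w - t₀)) z) ≤
      nsq (s z - t₀) * ℓ (cHess (fun w => nsq (s w - t₀)) z) := by
  have d := ((sm_nsq t₀).differentiable (by simp)) (s z)
  rw [hess_rad hs, gg_comp (u := fun w => nsq (w - t₀)) (v := fun w => nsq (w - t₀))
    hs.differentiableAt d d, gg_nsq, ← lin_csmul]
  refine hℓ.mono ?_
  convert pb_psd (jm s z) (psd_rad (s z - t₀)) using 1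
  simp only [pb, Matrix.mul_sub, Matrix.sub_mul, Matrix.mul_smul, Matrix.smul_mul]

theorem psd_log {τ : Cm n → ℝ} {e : ℝ} (hτ : ContDiffAt ℝ 2 τ z) (h0 : 0 ≤ τ z) (he : 0 < e)
    (h1 : (cHess τ z).PosSemidef) (h2 : ∀ ℓ, Pf ℓ → ℓ (gg τ τ z) ≤ τ z * ℓ (cHess τ z)) :
    (cHess (fun w => Real.log (τ w + e)) z).PosSemidef := by
  have h3 : 0 < τ z + e := by linarith
  have h4 : ContDiffAt ℝ 2 (fun w => τ w + e) z := hτ.add contDiffAt_const
  refine psd_of_pf (cHess_isHermitian (h4.log h3.ne')) fun ℓ hℓ => ?_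
  have d := hτ.differentiableAt two_ne_zero
  rw [lin_comp (f := fun w => τ w + e) (Real.contDiffAt_log.2 h3.ne') h4,
    cHess_add hτ contDiffAt_const, C2.cHess_const, add_zero,
    gg_add_left d (differentiableAt_const _), gg_const_left, add_zero, hℓ.symm,
    gg_add_left d (differentiableAt_const _), gg_const_left, add_zero, Real.deriv_log',
    deriv_inv]
  have h5 := h2 ℓ hℓ
  have h6 := mul_nonneg he.le (hℓ.pos _ h1)
  have h7 : (τ z + e)⁻¹ = ((τ z + e) ^ 2)⁻¹ * (τ z + e) := by field_simp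
  rw [h7, mul_assoc, neg_mul, ← sub_eq_add_neg, ← mul_sub]
  exact mul_nonneg (by positivity) (by linarith)

theorem psd_exp {ψ : Cm n → ℝ} {κ : ℝ} (hψ : ContDiffAt ℝ 2 ψ z) (hκ : 0 ≤ κ)
    (h1 : (cHess ψ z).PosSemidef) : (cHess (fun w => Real.exp (κ * ψ w)) z).PosSemidef := by
  have h4 : ContDiffAt ℝ 2 (fun w => κ * ψ w) z := contDiffAt_const.mul hψ
  rw [cHess_comp' (f := fun w => κ * ψ w) Real.contDiff_exp.contDiffAt h4, Real.deriv_exp,
    Real.deriv_exp, cHess_const_mul κ hψ]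
  exact (psd_smul (psd_smul h1 hκ) (Real.exp_pos _).le).add
    (psd_smul (gg_psd _ _) (Real.exp_pos _).le)

theorem win0 : ∃ (p S : ℝ → ℝ) (C : ℝ), 0 ≤ C ∧ ContDiff ℝ ∞ p ∧ ContDiff ℝ ∞ S ∧
    (∀ x, 0 ≤ p x ∧ p x ≤ 1) ∧ (∀ x, -1 ≤ x → p x = 0) ∧ (∀ x, x ≤ -2 → p x = 1) ∧
    ∀ x, 0 ≤ deriv S x ∧ deriv S x ≤ 1 / 2 ∧ 0 ≤ deriv (deriv S) x ∧ |deriv p x| ≤ C ∧
      |deriv (deriv p) x| ≤ C * deriv (deriv S) x ∧ deriv p x ^ 2 ≤ C * deriv (deriv S) x := by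
  obtain ⟨p, hp⟩ : ∃ p : ℝ → ℝ, p = fun x => Real.smoothTransition (-x - 1) := ⟨_, rfl⟩
  have p0 : ContDiff ℝ ∞ p := hp ▸ Real.smoothTransition.contDiff.comp (by fun_prop)
  have p1 : ∀ x, -1 ≤ x → p x = 0 := fun x hx =>
    hp ▸ Real.smoothTransition.zero_of_nonpos (by linarith)
  have p2 : ∀ x, x ≤ -2 → p x = 1 := fun x hx =>
    hp ▸ Real.smoothTransition.one_of_one_le (by linarith)
  have p3 := (contDiff_infty_iff_deriv.1 p0).2
  have p4 := (contDiff_infty_iff_deriv.1 p3).2.continuous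
  have s1 : deriv (fun x => Real.log (1 + Real.exp x) / 2) = fun x => Real.sigmoid x / 2 := by
    funext x
    rw [((((Real.hasDerivAt_exp x).const_add 1).log (by positivity)).div_const 2).deriv,
      Real.sigmoid_def, Real.exp_neg]
    field_simp
    ring
  have s2 : deriv (fun x => Real.sigmoid x / 2) =
      fun x => Real.sigmoid x * (1 - Real.sigmoid x) / 2 :=
    funext fun x => ((Real.hasDerivAt_sigmoid x).div_const 2).deriv
  have s3 : ∀ x, 0 < Real.sigmoid x * (1 - Real.sigmoid x) / 2 := fun x =>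
    half_pos (mul_pos (Real.sigmoid_pos x) (sub_pos.2 (Real.sigmoid_lt_one x)))
  obtain ⟨C, hC⟩ := (isCompact_Icc (a := (-2 : ℝ)) (b := -1)).exists_bound_of_continuousOn
    (f := fun x => |deriv p x| + (|deriv (deriv p) x| + deriv p x ^ 2) /
      (Real.sigmoid x * (1 - Real.sigmoid x) / 2))
    (p3.continuous.abs.add ((p4.abs.add (p3.continuous.pow 2)).div (by fun_prop)
      fun x => (s3 x).ne')).continuousOn
  have C0 := (norm_nonneg _).trans (hC (-1) (by norm_num))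
  refine ⟨p, fun x => Real.log (1 + Real.exp x) / 2, C, C0, p0,
    ((contDiff_const.add Real.contDiff_exp).log fun x => by positivity).div_const 2,
    fun x => hp ▸ ⟨Real.smoothTransition.nonneg _, Real.smoothTransition.le_one _⟩, p1, p2,
    fun x => ?_⟩
  rw [s1, s2]
  refine ⟨(half_pos (Real.sigmoid_pos x)).le, by linarith [Real.sigmoid_le_one x], (s3 x).le, ?_⟩
  by_cases hx : x ∈ Icc (-2 : ℝ) (-1)
  · have h1 := (le_abs_self _).trans (hC x hx)
    have h2 := div_nonneg (add_nonneg (abs_nonneg (deriv (deriv p) x)) (sq_nonneg (deriv p x)))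
      (s3 x).le
    have h3 := (div_le_iff₀ (s3 x)).1 ((le_add_of_nonneg_left (abs_nonneg _)).trans h1)
    exact ⟨by linarith, by linarith [sq_nonneg (deriv p x)],
      by linarith [abs_nonneg (deriv (deriv p) x)]⟩
  · obtain ⟨c, hc⟩ : ∃ c, p =ᶠ[𝓝 x] fun _ => c := by
      rcases not_and_or.1 hx with h | h
      · exact ⟨1, (gt_mem_nhds (not_le.1 h)).mono fun y hy => p2 y hy.le⟩
      · exact ⟨0, (lt_mem_nhds (not_le.1 h)).mono fun y hy => p1 y hy.le⟩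
    rw [hc.deriv.deriv_eq, hc.deriv_eq]
    simpa using ⟨C0, mul_nonneg C0 (s3 x).le⟩

/-- the window -/
theorem win : ∃ C ≥ (0 : ℝ), ∀ m T : ℝ, 0 < m → 2 * m ≤ T → ∃ θ S : ℝ → ℝ, ContDiff ℝ ∞ θ ∧
    ContDiff ℝ ∞ S ∧ (∀ t ∈ Icc (-T) (-(2 * m)), θ t = 1) ∧
    (∀ t, θ t ≠ 0 → t ∈ Icc (-(2 * T)) (-m)) ∧ ∀ t, |θ t| ≤ 1 ∧ 0 ≤ deriv S t ∧ deriv S t ≤ 1 ∧
      0 ≤ deriv (deriv S) t ∧ |deriv θ t| ≤ C / m ∧
      |deriv (deriv θ) t| ≤ C / m * deriv (deriv S) t ∧ deriv θ t ^ 2 ≤ C / m * deriv (deriv S) t := by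
  obtain ⟨p, S, C, C0, p0, S0, p1, p2, p3, h⟩ := win0
  refine ⟨2 * C, by positivity, fun m T hm hT => ?_⟩
  have T0 : 0 < T := by linarith
  have d : ∀ {f : ℝ → ℝ}, ContDiff ℝ ∞ f → ∀ l t : ℝ,
      HasDerivAt (fun t => f (t / l)) (deriv f (t / l) / l) t := fun hf l t => by
    simpa [div_eq_mul_inv, Function.comp_def] using (hf.differentiable (by simp) (t / l)).hasDerivAt.comp t
      ((hasDerivAt_id t).div_const l)
  have p4 := (contDiff_infty_iff_deriv.1 p0).2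
  have S4 := (contDiff_infty_iff_deriv.1 S0).2
  have e1 : deriv (fun t => p (t / m) - p (t / T)) =
      fun t => deriv p (t / m) / m - deriv p (t / T) / T :=
    funext fun t => ((d p0 m t).sub (d p0 T t)).deriv
  have e2 : deriv (fun t => m * S (t / m) + T * S (t / T)) =
      fun t => deriv S (t / m) + deriv S (t / T) := funext fun t => by
    rw [(((d S0 m t).const_mul m).fun_add ((d S0 T t).const_mul T)).deriv]
    field_simp
  refine ⟨fun t => p (t / m) - p (t / T), fun t => m * S (t / m) + T * S (t / T), by fun_prop,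
    by fun_prop, fun t ht => ?_, fun t ht => ?_, fun t => ?_⟩
  · show p _ - p _ = 1
    rw [p3 _ ((div_le_iff₀ hm).2 (by linarith [ht.2])),
      p2 _ ((le_div_iff₀ T0).2 (by linarith [ht.1])), sub_zero]
  · refine ⟨le_of_not_gt fun h1 => ht ?_, le_of_not_gt fun h1 => ht ?_⟩
    · show p _ - p _ = 0
      rw [p3 _ ((div_le_iff₀ hm).2 (by linarith)), p3 _ ((div_le_iff₀ T0).2 (by linarith)), sub_self]
    · show p _ - p _ = 0
      rw [p2 _ ((le_div_iff₀ hm).2 (by linarith)), p2 _ ((le_div_iff₀ T0).2 (by linarith)), sub_self]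
  rw [e1, e2, (((d p4 m t).div_const m).fun_sub ((d p4 T t).div_const T)).deriv,
    ((d S4 m t).fun_add (d S4 T t)).deriv]
  beta_reduce
  obtain ⟨a1, a2, a0, a3, a4, a5⟩ := h (t / m)
  obtain ⟨b1, b2, b0, b3, b4, b5⟩ := h (t / T)
  obtain ⟨x, hx⟩ : ∃ x, x = m⁻¹ := ⟨_, rfl⟩
  obtain ⟨y, hy⟩ : ∃ y, y = T⁻¹ := ⟨_, rfl⟩
  have y0 : 0 < y := hy ▸ inv_pos.2 T0
  have xy : y ≤ x := hx ▸ hy ▸ inv_anti₀ hm (by linarith)
  have x0 := y0.trans_le xy
  simp only [div_eq_mul_inv (_ : ℝ) m, div_eq_mul_inv (_ : ℝ) T, ← hx, ← hy] at *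
  have c1 := (abs_nonneg _).trans a4
  have c2 := (abs_nonneg _).trans b4
  have c3 := mul_le_mul_of_nonneg_right xy (mul_nonneg y0.le c2)
  have c4 := mul_nonneg x0.le (mul_nonneg y0.le c2)
  have c5 := mul_nonneg x0.le (mul_nonneg x0.le c1)
  refine ⟨abs_le.2 ⟨by linarith [p1 (t * x), p1 (t * y)], by linarith [p1 (t * x), p1 (t * y)]⟩,
    by linarith, by linarith, by positivity, (abs_sub _ _).trans ?_, (abs_sub _ _).trans ?_, ?_⟩
  · rw [abs_mul, abs_mul, abs_of_pos x0, abs_of_pos y0]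
    nlinarith [mul_le_mul_of_nonneg_right a3 x0.le, mul_le_mul_of_nonneg_right b3 y0.le,
      mul_le_mul_of_nonneg_left xy C0]
  · simp only [abs_mul, abs_of_pos x0, abs_of_pos y0]
    linarith [mul_le_mul_of_nonneg_right a4 (mul_pos x0 x0).le,
      mul_le_mul_of_nonneg_right b4 (mul_pos y0 y0).le]
  · linarith [mul_le_mul_of_nonneg_right a5 (mul_pos x0 x0).le,
      mul_le_mul_of_nonneg_right b5 (mul_pos y0 y0).le,
      sq_nonneg (deriv p (t * x) * x + deriv p (t * y) * y)]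

theorem lint_le_int {S : Set (Cm n)} {f D : Cm n → ℝ} (hU : MeasurableSet U)
    (hf : IntegrableOn f U) (h0 : ∀ z ∈ U, 0 ≤ f z) (hS : S ⊆ U) (h : ∀ z ∈ S, D z ≤ f z) :
    ∫⁻ z in S, ENNReal.ofReal (D z) ≤ ENNReal.ofReal (∫ z in U, f z) := by
  rw [ofReal_integral_eq_lintegral_ofReal hf ((ae_restrict_iff' hU).2 (ae_of_all _ h0))]
  exact (setLIntegral_mono_ae (hf.mono_set hS).aemeasurable.ennreal_ofReal
    (ae_of_all _ fun z hz => ENNReal.ofReal_le_ofReal (h z hz))).trans (lintegral_mono_set hS)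

theorem int_le_lint {S : Set (Cm n)} {f D : Cm n → ℝ} (hU : MeasurableSet U)
    (hf : IntegrableOn f U) (h0 : ∀ z ∈ U, 0 ≤ f z) (hS : ∀ z ∈ U, f z ≠ 0 → z ∈ S)
    (h : ∀ z ∈ U, f z ≤ D z) :
    ENNReal.ofReal (∫ z in U, f z) ≤ ∫⁻ z in S, ENNReal.ofReal (D z) := by
  rw [ofReal_integral_eq_lintegral_ofReal hf ((ae_restrict_iff' hU).2 (ae_of_all _ h0)),
    ← lintegral_indicator hU, ← setLIntegral_eq_of_support_subset (s := S) fun z hz => ?_]
  · exact lintegral_mono fun z => indicator_le (fun z hz => ENNReal.ofReal_le_ofReal (h z hz)) z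
  · rw [support_indicator] at hz
    exact hS z hz.1 fun h1 => hz.2 (by simp [h1])

end Vale.Agent.P284Z.J
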