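import Vale.Agent.P284Z.J.Win
import Vale.Agent.P284Z.F0.Cov

/-!
# P284Z, block J: the bounds C0, C1, C2 for the masses
-/

set_option linter.all false

open scoped ContDiff Topology ComplexOrder ComplexConjugate ENNReal
open Filter Set Function Metric MeasureTheory

noncomputable section

namespace Vale.Agent.P284Z.J

open Vale.Agent.P272.K Vale.Agent.P284.H650

variable {n : ℕ} {Γ E : Type} [Group Γ] [TopologicalSpace E] [MulAction Γ E] {C : Cov n Γ E}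
  {A L : ℝ} {g : E → ℝ} {a : C.I} {z : Cm n}

theorem sm_ρ (a : C.I) : Sm (C.B 4 a) (C.ρ a) := C.ρ_sm a

theorem om_eq {γ : Γ} (hz : z ∈ C.B 4 a) (hg : C.SmAt g (C.pt γ a z)) (A : ℝ) :
    C.om A g γ a z = (A : ℂ) • cHess (C.ρ a) z + cHess (fun w => g (C.pt γ a w)) z := by
  rw [← cHess_const_mul A ((sm_ρ a).two hz)]
  exact cHess_add (contDiffAt_const.mul ((sm_ρ a).two hz)) ((hg γ a z hz rfl).of_le two_le)

theorem lin_om {γ : Γ} (hz : z ∈ C.B 4 a) (hg : C.SmAt g (C.pt γ a z)) (A : ℝ)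
    (ℓ : Mx n →ₗ[ℝ] ℝ) : ℓ (C.om A g γ a z) =
      A * ℓ (cHess (C.ρ a) z) + ℓ (cHess (fun w => g (C.pt γ a w)) z) := by
  rw [om_eq hz hg, map_add, lin_csmul]

theorem sm_pot (h : ∀ y, C.SmAt g y) (A : ℝ) (γ : Γ) (a : C.I) :
    Sm (C.B 4 a) fun w => A * C.ρ a w + g (C.pt γ a w) :=
  ((Sm.const A).mul (sm_ρ a)).add fun z hz => h _ γ a z hz rfl

theorem smPsh_of (h1 : ∀ (γ : Γ) y, g (γ • y) = g y) (h2 : ∀ y, C.SmAt g y)
    (h3 : ∀ a, ∀ z ∈ C.B 4 a, ∀ ℓ, Pf ℓ → 0 ≤ ℓ (C.om A g 1 a z)) : C.SmPsh A g :=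
  ⟨h1, h2, fun a z hz => psd_of_pf ((sm_pot h2 A 1 a).cf.herm z hz) (h3 a z hz)⟩

theorem smPsh_two (h : C.SmPsh A g) (hA : 0 ≤ A) : C.SmPsh (2 * A) g :=
  smPsh_of h.inv h.sm fun a z hz ℓ hℓ => by
    have h1 := hℓ.pos _ (h.psd a z hz)
    rw [lin_om hz (h.sm _)] at h1 ⊢
    linarith [mul_nonneg hA (hℓ.pos _ (C.ρ_pos a z hz).posSemidef)]

theorem B74 (hz : z ∈ C.B (7 / 4) a) : z ∈ C.B 4 a := C.B_mono (by norm_num) a hz

/-- the data of the capacity estimate in the charts -/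
theorem exists_capD (C : Cov n Γ E) (hA : 0 < A) (L : ℝ) : ∃ c ≥ (0 : ℝ), ∀ a, ∃ χ : Cm n → ℝ,
    (∀ z ∈ C.B (3 / 2) a, χ z = 1) ∧ ∀ g F, C.SmPsh A g → C.Near A L g a F →
      CapD (C.B (7 / 4) a) (C.cB (13 / 8) a) χ (fun w => A * C.ρ a w + F w)
        (fun w => 2 * A * C.ρ a w + g (C.pt 1 a w)) |L| c := by
  let χ : ∀ a, ContDiffBump (C.c a) := fun a =>
    ⟨3 / 2 * C.r a, 13 / 8 * C.r a, by linarith [C.r_pos a], by linarith [C.r_pos a]⟩
  have h1 := fun a => exists_dm (C.isCompact_cB 2 a)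
    ((sm_ρ a).mono (C.cB_sub_B (by norm_num) a)).cf.sm (fun z _ => (χ a).contDiffAt)
    fun z hz => C.ρ_pos a z (C.cB_sub_B (by norm_num) a hz)
  choose c c0 hc using h1
  refine ⟨(∑ a, c a) / A, div_nonneg (Finset.sum_nonneg fun a _ => c0 a) hA.le, fun a =>
    ⟨χ a, fun z hz => (χ a).one_of_mem_closedBall (ball_subset_closedBall hz), fun g F hg hF => ?_⟩⟩
  have s1 : Sm (C.B (7 / 4) a) fun w => A * C.ρ a w :=
    (Sm.const A).mul ((sm_ρ a).mono fun _ => B74)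
  refine ⟨C.isOpen_B _ _, C.isCompact_cB _ _, C.cB_sub_B (by norm_num) a,
    fun z _ => (χ a).contDiffAt, fun z hz => ev_zero (by rwa [(χ a).tsupport_eq]),
    fun z _ => pow_le_one₀ (χ a).nonneg (χ a).le_one, s1.add fun z hz => (hF z hz).1,
    (sm_pot hg.sm _ 1 a).mono fun _ => B74, fun z hz => ?_,
    fun z hz => (smPsh_two hg hA.le).psd a z (B74 hz), fun z hz => ?_, fun z hz => ?_⟩
  · rw [cHess_add (s1.two hz) ((hF z hz).1.of_le two_le),
      cHess_const_mul A ((sm_ρ a).two (B74 hz))]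
    exact (psd_smul (C.ρ_pos a z (B74 hz)).posSemidef hA.le).add (hF z hz).2.1
  · refine le_trans (le_of_eq ?_) ((hF z hz).2.2.trans (le_abs_self L))
    congr 1
    ring
  · refine (hc a z (C.B_sub_cB _ a (C.B_mono (by norm_num) a hz))).mono fun ℓ hℓ => ?_
    have h1 := hℓ.pos _ (hg.psd a z (B74 hz))
    have h2 := hℓ.pos _ (C.ρ_pos a z (B74 hz)).posSemidef
    have h3 := Finset.single_le_sum (fun a _ => c0 a) (Finset.mem_univ a)
    rw [lin_csmul, lin_csmul]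
    change _ ≤ _ * ℓ (C.om (2 * A) g 1 a z)
    rw [lin_om (B74 hz) (hg.sm _)] at h1 ⊢
    rw [div_mul_eq_mul_div, le_div_iff₀ hA, mul_assoc]
    exact mul_le_mul h3 (by linarith) (mul_nonneg h2 hA.le) ((c0 a).trans h3)

theorem det_le_md {M : Mx n} (h : M.PosSemidef) : M.det.re ≤ md fun _ => M := by
  have h1 : (1 : ℝ) ≤ n.factorial := by exact_mod_cast n.factorial_pos
  have h2 := md_nonneg (X := fun _ => M) fun _ => h
  rw [md_const] at h2 ⊢
  exact le_mul_of_one_le_left (nonneg_of_mul_nonneg_right h2 (by linarith)) h1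

theorem CapD.mass {U K S : Set (Cm n)} {χ F G w : Cm n → ℝ} {c r : ℝ} (h : CapD U K χ F G L c)
    (hw : Sm U w) (hS : ∀ z ∈ S, z ∈ U ∧ χ z = 1 ∧ 1 ≤ r * w z ^ 2) (hr : 0 ≤ r) :
    ∫⁻ z in S, ENNReal.ofReal (cHess F z).det.re ≤
      ENNReal.ofReal (r * ∫ z in U, (χ z ^ (n + 1) * w z) ^ 2 * md fun _ => cHess F z) := by
  rw [← integral_const_mul]
  refine lint_le_int h.hU.measurableSet ((h.int hw (sm_md fun _ => h.F_sm.cf.sm) n).const_mul r)
    (fun z hz => mul_nonneg hr (mul_nonneg (sq_nonneg _) (md_nonneg fun _ => h.F_psd z hz)))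
    (fun z hz => (hS z hz).1) fun z hz => (det_le_md (h.F_psd z (hS z hz).1)).trans ?_
  rw [(hS z hz).2.1, one_pow, one_mul, ← mul_assoc]
  exact le_mul_of_one_le_left (md_nonneg fun _ => h.F_psd z (hS z hz).1) (hS z hz).2.2

/-- the statement M0 -/
def M0 (C : Cov n Γ E) : Prop :=
  ∀ A : ℝ, 0 ≤ A → ∃ M < (⊤ : ℝ≥0∞), ∀ g : Fin n → E → ℝ, (∀ i, C.SmPsh A (g i)) → ∀ a,
    ∫⁻ z in C.B 3 a, ENNReal.ofReal (md fun i => C.om A (g i) 1 a z) ≤ M

theorem M0.real (h : M0 C) (hA : 0 ≤ A) : ∃ M ≥ (0 : ℝ), ∀ g : Fin n → E → ℝ,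
    (∀ i, C.SmPsh A (g i)) → ∀ a K χ F G L c, CapD (C.B (7 / 4) a) K χ F G L c →
      ∫ z in C.B (7 / 4) a, χ z ^ 2 * md (fun i => C.om A (g i) 1 a z) ≤ M := by
  obtain ⟨M, hM, h⟩ := h A hA
  refine ⟨M.toReal, M.toReal_nonneg, fun g hg a K χ F G L c hD => ?_⟩
  have p : ∀ z ∈ C.B (7 / 4) a, 0 ≤ md fun i => C.om A (g i) 1 a z := fun z hz =>
    md_nonneg fun i => (hg i).psd a z (B74 hz)
  refine (ENNReal.ofReal_le_iff_le_toReal hM.ne).1 ((int_le_lint hD.hU.measurableSet ?_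
    (fun z hz => mul_nonneg (sq_nonneg _) (p z hz)) (fun z hz _ => C.B_mono (by norm_num) a hz)
    fun z hz => mul_le_of_le_one_left (p z hz) (hD.χ_le z hz)).trans (h g hg a))
  simpa [Cov.om] using hD.int (.const 1)
    (sm_md fun i => ((sm_pot (hg i).sm A 1 a).mono fun _ => B74).cf.sm) 0

theorem c0 (h : M0 C) (A L : ℝ) (hA : 0 < A) : ∃ M < (⊤ : ℝ≥0∞), ∀ g a F, C.SmPsh A g →
    C.Near A L g a F → C.mass A a F (C.B (3 / 2) a) ≤ M := by
  obtain ⟨c, c0, hc⟩ := exists_capD C hA L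
  obtain ⟨K, K0, hK⟩ := cap n (abs_nonneg L) c0
  obtain ⟨M, -, hM⟩ := h.real (A := 2 * A) (by linarith)
  refine ⟨ENNReal.ofReal (K * M), ENNReal.ofReal_lt_top, fun g a F hg hF => ?_⟩
  obtain ⟨χ, χ1, hD⟩ := hc a
  replace hD := hD g F hg hF
  refine (hD.mass (.const 1) (r := 1) (fun z hz => ⟨C.B_mono (by norm_num) a hz, χ1 z hz, by simp⟩)
    zero_le_one).trans (ENNReal.ofReal_le_ofReal ?_)
  rw [one_mul]
  refine (hK _ _ _ _ _ hD (fun _ => 1) (fun _ => 0) 0 (.const 1)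
    (by simpa only [← funext fun z => C2.cHess_const (z := z) 0] using (Sm.const 0).cf)
    (fun _ _ => .zero) (fun z _ => dm_ev EventuallyEq.rfl .zero) le_rfl (by simp)).trans
    (mul_le_mul_of_nonneg_left ?_ K0)
  simpa only [mul_one, add_zero, Cov.om] using
    hM (fun _ => g) (fun _ => smPsh_two hg hA.le) a _ _ _ _ _ _ hD

theorem c1 (h : M0 C) (A L : ℝ) (hA : 0 < A) : ∃ K : ℝ, ∀ g a F (m T : ℝ), C.SmPsh A g →
    C.Near A L g a F → 1 ≤ m → 2 * m ≤ T →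
    C.mass A a F {z ∈ C.B (3 / 2) a | g (C.pt 1 a z) ∈ Icc (-T) (-(2 * m))} ≤
      ENNReal.ofReal K * (C.mass (2 * A) a (fun z => g (C.pt 1 a z))
        {z ∈ C.B 2 a | g (C.pt 1 a z) ∈ Icc (-(2 * T)) (-m)} + ENNReal.ofReal (1 / √m)) := by
  obtain ⟨c, c0, hc⟩ := exists_capD C hA L
  obtain ⟨K, K0, hK⟩ := cap n (abs_nonneg L) c0
  obtain ⟨M, M0, hM⟩ := h.real (A := 2 * A) (by linarith)
  obtain ⟨W, W0, hW⟩ := win
  refine ⟨K * (n.factorial + 2 * W * M), fun g a F m T hg hF hm hT => ?_⟩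
  obtain ⟨χ, χ1, hD⟩ := hc a
  replace hD := hD g F hg hF
  have m0 : 0 < m := by linarith
  obtain ⟨θ, S, θ0, S0, θ1, θ2, hθ⟩ := hW m T m0 hT
  have s1 : Sm (C.B 4 a) fun w => g (C.pt 1 a w) := fun z hz => hg.sm _ 1 a z hz rfl
  have s2 := (s1.comp θ0).mono fun z => B74 (z := z)
  have s3 : ∀ y, C.SmAt (fun y => 2⁻¹ * (g y + S (g y))) y := fun y γ a z hz e =>
    contDiffAt_const.mul ((hg.sm y γ a z hz e).add (S0.contDiffAt.comp z (hg.sm y γ a z hz e)))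
  have key : ∀ a, ∀ z ∈ C.B 4 a, ∀ ℓ, Pf ℓ →
      |ℓ (cHess (fun w => g (C.pt 1 a w)) z)| + deriv (deriv S) (g (C.pt 1 a z)) *
        ℓ (gg (fun w => g (C.pt 1 a w)) (fun w => g (C.pt 1 a w)) z) ≤
      2 * ℓ (C.om (2 * A) (fun y => 2⁻¹ * (g y + S (g y))) 1 a z) := fun a z hz ℓ hℓ => by
    have h1 := hℓ.pos _ (hg.psd a z hz)
    have h2 := mul_nonneg hA.le (hℓ.pos _ (C.ρ_pos a z hz).posSemidef)
    have h3 := (hg.sm _ 1 a z hz rfl).of_le two_le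
    have h4 : ContDiffAt ℝ 2 (fun w => S (g (C.pt 1 a w))) z :=
      (S0.contDiffAt.of_le two_le).comp z h3
    rw [lin_om hz (hg.sm _)] at h1
    rw [lin_om hz (s3 _), cHess_const_mul _ (h3.add h4), cHess_add h3 h4, lin_csmul, map_add,
      lin_comp (S0.contDiffAt.of_le two_le) h3]
    obtain ⟨-, a1, a2, -⟩ := hθ (g (C.pt 1 a z))
    have h5 := mul_nonneg a1 h1
    have h6 := mul_le_mul_of_nonneg_right a2 h2
    cases abs_cases (ℓ (cHess (fun w => g (C.pt 1 a w)) z)) <;> linarith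
  have Wm : 0 ≤ W / m := div_nonneg W0 m0.le
  have cv : ∀ a z ℓ, Pf ℓ → 0 ≤ deriv (deriv S) (g (C.pt 1 a z)) *
      ℓ (gg (fun w => g (C.pt 1 a w)) (fun w => g (C.pt 1 a w)) z) := fun a z ℓ hℓ =>
    mul_nonneg (hθ _).2.2.2.1 (hℓ.gg_nonneg _ _)
  have s4 : C.SmPsh (2 * A) fun y => 2⁻¹ * (g y + S (g y)) :=
    smPsh_of (fun γ y => by rw [hg.inv]) s3 fun a z hz ℓ hℓ => by
      linarith [key a z hz ℓ hℓ, cv a z ℓ hℓ, abs_nonneg (ℓ (cHess (fun w => g (C.pt 1 a w)) z))]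
  have s5 := (sm_pot s3 (2 * A) 1 a).mono fun z => B74 (z := z)
  have h1 := hK _ _ _ _ _ hD _ _ (2 * (W / m) * M) s2 ((Sm.const (2 * (W / m))).mul s5).cf
    (fun z hz => by
      rw [cHess_const_mul _ (s5.two hz)]
      exact psd_smul (s4.psd a z (B74 hz)) (by positivity))
    (fun z hz ℓ hℓ => by
      have a0 := mul_le_mul_of_nonneg_left (key a z (B74 hz) ℓ hℓ) Wm
      obtain ⟨a1, -, -, -, a2, a3, a4⟩ := hθ (g (C.pt 1 a z))
      have a5 := hℓ.gg_nonneg (fun w => g (C.pt 1 a w)) z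
      have a6 := mul_nonneg Wm (abs_nonneg (ℓ (cHess (fun w => g (C.pt 1 a w)) z)))
      rw [cHess_const_mul _ (s5.two hz), lin_csmul, lin_comp (θ0.contDiffAt.of_le two_le)
        (s1.two (B74 hz)), lin_gg_comp (θ0.differentiable (by simp) _) (s1.diff (B74 hz)), abs_mul]
      refine ⟨(mul_le_of_le_one_left (abs_nonneg _) a1).trans ((abs_add_le _ _).trans ?_), ?_⟩
      · rw [abs_mul, abs_mul, abs_of_nonneg a5]
        simp only [Cov.om] at a0
        linarith [mul_le_mul_of_nonneg_right a3 a5, mul_le_mul_of_nonneg_right a2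
          (abs_nonneg (ℓ (cHess (fun w => g (C.pt 1 a w)) z)))]
      · simp only [Cov.om] at a0
        linarith [mul_le_mul_of_nonneg_right a4 a5])
    (by positivity) fun k => by
      refine le_trans (le_of_eq ?_) (mul_le_mul_of_nonneg_left (hM (update (fun _ => g) k
        fun y => 2⁻¹ * (g y + S (g y))) (forall_update_iff _ (fun _ g => C.SmPsh (2 * A) g) |>.2
          ⟨s4, fun _ _ => smPsh_two hg hA.le⟩) a _ _ _ _ _ _ hD)
        (by positivity))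
      rw [← integral_const_mul]
      refine setIntegral_congr_fun hD.hU.measurableSet fun z hz => ?_
      simp only [cHess_const_mul _ (s5.two hz), lin_csmul, sl_apply]
      rw [mul_left_comm, apply_update (fun _ g => C.om (2 * A) g 1 a z) (fun _ => g) k _ |> funext]
      rfl
  have p : ∀ z ∈ C.B (7 / 4) a, _ := fun z hz => md_nonneg (n := n) fun _ => hD.G_psd z hz
  have h2 := int_le_lint (S := {z ∈ C.B 2 a | g (C.pt 1 a z) ∈ Icc (-(2 * T)) (-m)})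
    hD.hU.measurableSet (hD.int s2 (sm_md fun _ => hD.G_sm.cf.sm) 0)
    (fun z hz => mul_nonneg (sq_nonneg _) (p z hz))
    (fun z hz h => ⟨C.B_mono (by norm_num) a hz, θ2 _ fun h0 => h (by simp [h0])⟩)
    fun z hz => mul_le_of_le_one_left (p z hz) (by
      rw [zero_add, pow_one, mul_pow]
      exact mul_le_one₀ (hD.χ_le z hz) (sq_nonneg _) ((sq_le_one_iff_abs_le_one _).2 (hθ _).1))
  simp only [md_const, ENNReal.ofReal_mul n.factorial.cast_nonneg, zero_add, pow_one] at h2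
  rw [lintegral_const_mul' _ _ ENNReal.ofReal_ne_top] at h2
  refine (hD.mass s2 (r := 1) (fun z hz => ⟨C.B_mono (by norm_num) a hz.1, χ1 z hz.1, by
    simp [θ1 _ hz.2]⟩) zero_le_one).trans ((ENNReal.ofReal_le_ofReal ((one_mul _).trans_le
      h1)).trans ?_)
  rw [ENNReal.ofReal_mul K0, ENNReal.ofReal_mul K0, mul_assoc (ENNReal.ofReal K), mul_add]
  refine mul_le_mul_right (ENNReal.ofReal_add_le.trans (add_le_add ?_ ?_)) _
  · simp only [md_const]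
    exact h2.trans (mul_le_mul_left (ENNReal.ofReal_le_ofReal
      (le_add_of_nonneg_right (by positivity))) _)
  · rw [← ENNReal.ofReal_mul (by positivity)]
    refine ENNReal.ofReal_le_ofReal ?_
    have h3 : 1 / m ≤ 1 / √m := one_div_le_one_div_of_le (Real.sqrt_pos.2 m0)
      (Real.sqrt_le_iff.2 ⟨m0.le, by nlinarith⟩)
    calc 2 * (W / m) * M = 2 * W * M * (1 / m) := by ring
      _ ≤ _ := mul_le_mul (le_add_of_nonneg_left (by positivity)) h3 (by positivity) (by positivity)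

theorem c2 (C : Cov n Γ E) (A L : ℝ) (hA : 0 < A) (a : C.I) (h : Cm n → ℂ)
    (hh : AnalyticOnNhd ℂ h (C.B 2 a)) (h0 : ∃ z ∈ C.B 2 a, h z ≠ 0) (ε : ℝ≥0∞) (hε : 0 < ε) :
    ∃ η > (0 : ℝ), ∀ F, C.Near A L (fun _ => 0) a F →
      C.mass A a F {z ∈ C.B (3 / 2) a | ‖h z‖ < η} ≤ ε := by
  obtain ⟨c, c0, hc⟩ := exists_capD C hA L
  obtain ⟨K, K0, hK⟩ := cap n (abs_nonneg L) c0
  obtain ⟨χ, χ1, hD⟩ := hc a
  have hg : C.SmPsh A fun _ => 0 := smPsh_of (fun _ _ => rfl) (fun _ _ _ _ _ _ => contDiffAt_const)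
    fun a z hz ℓ hℓ => by
      rw [lin_om hz fun _ _ _ _ _ => contDiffAt_const, C2.cHess_const, map_zero, add_zero]
      exact mul_nonneg hA.le (hℓ.pos _ (C.ρ_pos a z hz).posSemidef)
  by_cases hF : ¬ ∃ F, C.Near A L (fun _ => 0) a F
  · exact ⟨1, one_pos, fun F h => absurd ⟨F, h⟩ hF⟩
  obtain ⟨F₀, hF₀⟩ := not_not.1 hF
  have D := hD _ F₀ hg hF₀
  replace hD := fun F => hD _ F hg
  obtain ⟨G, hG⟩ : ∃ G, G = fun w => 2 * A * C.ρ a w + 0 := ⟨_, rfl⟩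
  rw [← hG] at D hD
  have u1 : C.B (7 / 4) a ⊆ C.B 2 a := C.B_mono (by norm_num) a
  have hs : ∀ z ∈ C.B 2 a, AnalyticAt ℂ (fun w (_ : Fin 1) => h w) z := fun z hz =>
    analyticAt_pi_iff.2 fun _ => hh z hz
  obtain ⟨τ, hτ⟩ : ∃ τ, τ = fun w => nsq ((fun _ : Fin 1 => h w) - 0) := ⟨_, rfl⟩
  have τ1 : ∀ z, τ z = ‖h z‖ ^ 2 := fun z => by simp [hτ, nsq]
  have τ0 : ∀ z, 0 ≤ τ z := fun z => τ1 z ▸ sq_nonneg _
  have τ2 : Sm (C.B 2 a) τ := fun z hz => hτ ▸ sm_rad (hs z hz) 0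
  obtain ⟨N, hN⟩ := (C.isCompact_cB (7 / 4) a).exists_bound_of_continuousOn
    (τ2.cont.mono (C.cB_sub_B (by norm_num) a))
  have N0 := (norm_nonneg _).trans (hN _ (C.B_sub_cB _ a (C.c_mem (by norm_num) a)))
  obtain ⟨e, he⟩ : ∃ e : ℕ → ℝ, ∀ j, e j = 2⁻¹ * 2⁻¹ ^ (j + 1) := ⟨_, fun _ => rfl⟩
  have e0 : ∀ j, 0 < e j := fun j => he j ▸ by positivity
  have e1 : ∀ j, e j ≤ 1 := fun j => he j ▸ mul_le_one₀ (by norm_num) (by positivity)
    (pow_le_one₀ (by norm_num) (by norm_num))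
  obtain ⟨ψ, hψ⟩ : ∃ ψ : ℕ → Cm n → ℝ, ∀ j, ψ j = fun z => Real.log (τ z + e j) - Real.log (N + 1) :=
    ⟨_, fun _ => rfl⟩
  have ψ1 : ∀ j, Sm (C.B (7 / 4) a) (ψ j) := fun j z hz => hψ j ▸
    (((τ2 z (u1 hz)).add contDiffAt_const).log (by linarith [τ0 z, e0 j])).sub contDiffAt_const
  have ψ2 : ∀ j, ∀ z ∈ C.B (7 / 4) a, (cHess (ψ j) z).PosSemidef := fun j z hz => by
    rw [hψ, cHess_sub (((τ2.two (u1 hz)).add contDiffAt_const).log (by linarith [τ0 z, e0 j]))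
      contDiffAt_const, C2.cHess_const, sub_zero]
    refine psd_log (τ2.two (u1 hz)) (τ0 z) (e0 j) ?_ fun ℓ hℓ => hτ ▸ gg_rad (hs z (u1 hz)) 0 hℓ
    rw [hτ, hess_rad (hs z (u1 hz))]
    exact pb_psd _ .one
  obtain ⟨v, hv⟩ : ∃ v : ℕ → Cm n → ℝ, ∀ j, v j = fun z => Real.exp ((j + 1 : ℝ)⁻¹ * ψ j z) :=
    ⟨_, fun _ => rfl⟩
  have v1 : ∀ j, Sm (C.B (7 / 4) a) (v j) := fun j =>
    hv j ▸ ((Sm.const _).mul (ψ1 j)).comp Real.contDiff_exp
  have v2 : ∀ j, ∀ z ∈ C.B (7 / 4) a, 0 ≤ v j z ∧ v j z ≤ 1 := fun j z hz => by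
    rw [hv, hψ]
    refine ⟨(Real.exp_pos _).le, Real.exp_le_one_iff.2 (mul_nonpos_of_nonneg_of_nonpos
      (by positivity) (sub_nonpos.2 (Real.log_le_log (by linarith [τ0 z, e0 j]) ?_)))⟩
    linarith [(le_abs_self _).trans (hN z (C.B_sub_cB _ a hz)), e1 j]
  have v3 : ∀ j, ∀ z ∈ C.B (7 / 4) a, (cHess (v j) z).PosSemidef ∧
      (cHess (fun w => v j w ^ 2) z).PosSemidef := fun j z hz => by
    simp only [hv, ← Real.exp_nat_mul, ← mul_assoc]
    exact ⟨psd_exp ((ψ1 j).two hz) (by positivity) (ψ2 j z hz),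
      psd_exp ((ψ1 j).two hz) (by positivity) (ψ2 j z hz)⟩
  have s1 : ∀ k, Sm (C.B (7 / 4) a)
      fun z => sl (fun _ => cHess G z) k (cHess (fun w => χ w ^ 2) z) := fun k =>
    sm_sl (X := fun _ => cHess G) (fun _ _ => D.G_sm.cf.sm) (D.χ_sm.pow 2).cf.sm
  have s2 : ∀ z ∉ C.cB (13 / 8) a, (fun w => χ w ^ 2) =ᶠ[𝓝 z] fun _ => 0 := fun z hz =>
    (D.χ_out z hz).mono fun y hy => by simp [hy]
  obtain ⟨P, hP⟩ : ∃ P : Cm n → ℝ, P = fun z => χ z ^ 2 * md (fun _ => cHess G z) +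
    3 * ∑ k, |sl (fun _ => cHess G z) k (cHess (fun w => χ w ^ 2) z)| := ⟨_, rfl⟩
  have P0 : ContinuousOn P (C.B (7 / 4) a) := hP ▸
    ((D.χ_sm.pow 2).mul (sm_md fun _ => D.G_sm.cf.sm)).cont.add
      (continuousOn_const.mul (continuousOn_finsetSum _ fun k _ => (s1 k).cont.abs))
  have P1 : ∀ z ∈ C.B (7 / 4) a, z ∉ C.cB (13 / 8) a → P z = 0 := fun z _ hz => by
    simp [hP, cHess_congr (s2 z hz), C2.cHess_const, (D.χ_out z hz).eq_of_nhds]
  have p : ∀ z ∈ C.B (7 / 4) a, _ := fun z hz =>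
    mul_nonneg (sq_nonneg (χ z)) (md_nonneg (n := n) fun _ => D.G_psd z hz)
  have p' := fun z => Finset.sum_nonneg fun k (_ : k ∈ Finset.univ) =>
    abs_nonneg (sl (fun _ => cHess G z) k (cHess (fun w => χ w ^ 2) z))
  have P2 : ∀ z ∈ C.B (7 / 4) a, 0 ≤ P z := fun z hz => by
    simp only [hP]
    linarith [p z hz, p' z]
  have P3 := fun j => intOn D.hU D.hK D.hKU (((Sm.const 1).sub (v1 j)).cont.mul P0)
    fun z h1 h2 => by simp [P1 z h1 h2]
  have lim : Tendsto (fun j => ∫ z in C.B (7 / 4) a, (1 - v j z) * P z) atTop (𝓝 0) := by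
    rw [← integral_zero (Cm n) ℝ (μ := volume.restrict (C.B (7 / 4) a))]
    refine tendsto_integral_of_dominated_convergence P (fun j => (P3 j).1)
      (intOn D.hU D.hK D.hKU P0 P1) (fun j => (ae_restrict_iff' D.hU.measurableSet).2
        (ae_of_all _ fun z hz => ?_)) ((ae_restrict_iff' D.hU.measurableSet).2 ?_)
    · rw [Real.norm_of_nonneg (mul_nonneg (sub_nonneg.2 (v2 j z hz).2) (P2 z hz))]
      exact mul_le_of_le_one_left (P2 z hz) (sub_le_self _ (v2 j z hz).1)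
    filter_upwards [ae_ne_zero volume (C.isOpen_B 2 a) (C.preconn_B 2 a) hh h0] with z h1 hz
    have h2 : Tendsto e atTop (𝓝 0) := by
      simpa [funext he] using ((tendsto_pow_atTop_nhds_zero_of_lt_one (r := (2⁻¹ : ℝ))
        (by norm_num) (by norm_num)).comp (tendsto_add_atTop_nat 1)).const_mul 2⁻¹
    have h3 := (((tendsto_one_div_add_atTop_nhds_zero_nat (𝕜 := ℝ)).mul
      (((h2.const_add (τ z)).log (by simpa [τ1] using h1 (u1 hz))).sub_const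
        (Real.log (N + 1)))).rexp.const_sub 1).mul_const (P z)
    simpa [hv, hψ] using h3
  obtain ⟨j, hj⟩ := (ENNReal.tendsto_nhds_zero.1 ((ENNReal.tendsto_ofReal
    (((lim.add lim).const_mul K).const_mul 4)).trans_eq (by simp)) ε hε).exists
  refine ⟨√(e j), Real.sqrt_pos.2 (e0 j), fun F hF => ?_⟩
  have s3 := (Sm.const 1).sub (v1 j)
  have s4 := ((v1 j).add ((v1 j).pow 2)).sub (.const 2)
  have e2 : ∀ z ∈ C.B (7 / 4) a, cHess (fun w => v j w + v j w ^ 2 - 2) z =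
      cHess (v j) z + cHess (fun w => v j w ^ 2) z := fun z hz => by
    rw [cHess_sub (((v1 j).add ((v1 j).pow 2)).two hz) contDiffAt_const,
      cHess_add ((v1 j).two hz) (((v1 j).pow 2).two hz), C2.cHess_const, sub_zero]
  refine ((hD F hF).mass s3 (r := 4) (fun z hz => ⟨C.B_mono (by norm_num) a hz.1, χ1 z hz.1, ?_⟩)
    (by norm_num)).trans (le_trans (ENNReal.ofReal_le_ofReal ?_) hj)
  · have h1 : τ z + e j ≤ 2⁻¹ ^ (j + 1) := by
      have := (Real.lt_sqrt (norm_nonneg _)).1 hz.2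
      rw [← τ1] at this
      linarith [he j]
    have h2 := Real.log_le_log (by linarith [τ0 z, e0 j]) h1
    have h3 : v j z ≤ 2⁻¹ := by
      rw [Real.log_pow] at h2
      rw [hv, hψ, ← Real.le_log_iff_exp_le (by norm_num), inv_mul_le_iff₀ (by positivity)]
      push_cast at h2
      linarith [Real.log_nonneg (le_add_of_nonneg_left N0)]
    nlinarith
  refine mul_le_mul_of_nonneg_left ((hK _ _ _ _ _ (hD F hF) _ _
    (∫ z in C.B (7 / 4) a, (1 - v j z) * P z) s3 s4.cf (fun z hz => ?_) (fun z hz ℓ hℓ => ?_)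
    (setIntegral_nonneg D.hU.measurableSet fun z hz =>
      mul_nonneg (sub_nonneg.2 (v2 j z hz).2) (P2 z hz)) fun k => ?_).trans ?_) (by norm_num)
  · rw [e2 z hz]
    exact (v3 j z hz).1.add (v3 j z hz).2
  · have a1 := hℓ.pos _ (v3 j z hz).1
    have a2 := cHess_sq ((v1 j).two hz) ℓ
    have a3 := hℓ.gg_nonneg (v j) z
    rw [e2 z hz, map_add, lin_comp (φ := fun t => 1 - t) (by fun_prop) ((v1 j).two hz),
      lin_gg_comp (φ := fun t => 1 - t) (by fun_prop) ((v1 j).diff hz),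
      show deriv (fun t : ℝ => 1 - t) = fun _ => -1 by ext; simp, deriv_const, abs_le]
    refine ⟨⟨?_, ?_⟩, ?_⟩ <;> nlinarith [mul_nonneg (v2 j z hz).1 a1, (v2 j z hz).2]
  · rw [green (X := fun _ => cHess G) D.hU (fun _ _ => D.G_sm.cf) s4 (D.χ_sm.pow 2) D.hK D.hKU
      fun z hz => .inl (s2 z hz)]
    refine setIntegral_mono_on (ibp (X := fun _ => cHess G) D.hU (fun _ _ => D.G_sm.cf)
      (D.χ_sm.pow 2) s4 D.hK D.hKU fun z hz => .inr (s2 z hz)).1 (P3 j) D.hU.measurableSet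
      fun z hz => (le_abs_self _).trans ?_
    have a1 := Finset.single_le_sum (fun k _ =>
      abs_nonneg (sl (fun _ => cHess G z) k (cHess (fun w => χ w ^ 2) z))) (Finset.mem_univ k)
    have a2 := v2 j z hz
    rw [abs_mul, abs_of_nonpos (by nlinarith), hP]
    calc _ ≤ (1 - v j z) * 3 * _ := mul_le_mul_of_nonneg_right (by nlinarith) (abs_nonneg _)
      _ ≤ _ := by
        rw [mul_assoc]
        exact mul_le_mul_of_nonneg_left (by linarith [p z hz]) (sub_nonneg.2 a2.2)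
  · refine mul_le_mul_of_nonneg_left (add_le_add_left (setIntegral_mono_on
      (by simpa using D.int s3 (sm_md fun _ => D.G_sm.cf.sm) 0) (P3 j) D.hU.measurableSet
      fun z hz => ?_) _) K0
    have a2 := v2 j z hz
    rw [mul_pow, mul_right_comm, mul_comm, hP]
    exact mul_le_mul (by nlinarith) (by linarith [p' z]) (p z hz) (sub_nonneg.2 a2.2)

/-- **JM** from M0 -/
theorem jm_of (h : M0 C) : JM C := ⟨h, c0 h, c1 h, c2 C⟩

end Vale.Agent.P284Z.J
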