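import Vale.Agent.P284Z.J.JG
import Vale.Agent.P284Z.J.Mass

/-!
# P284Z, block J: the uniform bound M0 for the mixed masses
-/

set_option linter.all false

open scoped ContDiff Topology ComplexOrder ComplexConjugate ENNReal
open Filter Set Function Metric MeasureTheory

noncomputable section

namespace Vale.Agent.P284Z.J

open Vale.Agent.P272.K Vale.Agent.P284.H650 A JGx

variable {n : ℕ} {Γ E : Type} [Group Γ] [TopologicalSpace E] [MulAction Γ E] {C : Cov n Γ E}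
  {X : Fin n → C.Fm} {k : Fin n} {y : E} {γ : Γ} {u ψ : E → ℂ} {A : ℝ}

theorem mD_smul (hX : ∀ i, C.FmAt (X i) (γ • y)) :
    C.mD X (γ • y) = C.mD (fun i g => X i (γ * g)) y := by
  obtain ⟨h1, h2⟩ := ch₀_spec (C := C) y
  have h3 : C.pt (γ * (C.ch₀ y).1) (C.ch₀ y).2.1 (C.ch₀ y).2.2 = γ • y := by rw [pt_mul, h2]
  have h4 := mD_pt jb X _ _ _ h1 (h3.symm ▸ hX)
  rwa [h3] at h4

theorem TT_smul (hX : ∀ i, i ≠ k → C.CFOn (X i) univ) (iX : ∀ i g, X i (γ * g) = X i g)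
    (hu : ∀ y, C.SmAt u y) (iu : ∀ y, u (γ • y) = u y) (hψ : C.SmAt ψ (γ • y)) :
    TT X k u ψ (γ • y) = TT X k u (fun y => ψ (γ • y)) y := by
  have h1 : ∀ H : C.Fm, C.FmAt H (γ • y) → C.mD (update X k H) (γ • y) =
      C.mD (update X k fun g => H (γ * g)) y := fun H hH => by
    rw [mD_smul (all_upd (P := fun H => C.FmAt H (γ • y)) (fun i hi => (hX i hi).1 _ trivial) hH)]
    congr 1
    funext i
    rw [apply_update (fun _ (F : C.Fm) g => F (γ * g)) X k H i]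
    simp only [iX]
  rw [TT, TT, h1 _ (fm_hc jb (hu _)), h1 _ (fm_dc jb hψ (hu _))]
  unfold Cov.hc Cov.dc
  simp only [pt_mul, iu]

theorem TT_one (h : ψ =ᶠ[𝓝 y] fun _ => 1) :
    TT X k u ψ y = C.mD (update X k (C.hc u)) y := by
  obtain ⟨h1, h2⟩ := ch₀_spec (C := C) y
  have h3 : C.dc ψ u (C.ch₀ y).1 (C.ch₀ y).2.1 (C.ch₀ y).2.2 = 0 := by
    ext j l
    simp [Cov.dc, dc, INT.dz_congr (ev_pt (P := fun y => ψ y = 1) h1 (h2.symm ▸ h))]
  rw [TT_eq, h3, h.eq_of_nhds, one_smul, add_zero, Cov.mD, upd]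

theorem om_inv {g : E → ℝ} (h : ∀ (γ : Γ) y, g (γ • y) = g y) (γ δ : Γ) :
    C.om A g (γ * δ) = C.om A g δ := by
  unfold Cov.om
  simp only [pt_mul, h]

theorem mD_cont' {g : Fin n → E → ℝ} (h : ∀ i y, C.SmAt (g i) y) :
    Continuous (C.mD fun i => C.om A (g i)) :=
  continuousOn_univ.1 (mD_cont jb _ _ isOpen_univ (fun i y _ => fm_om jb A (h i y)) fun i γ a =>
    continuousOn_pi.2 fun j => continuousOn_pi.2 fun l z hz =>
      ((sm_pot (h i) A γ a).cf.sm z hz.1 j l).continuousAt.continuousWithinAt)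

variable {Ψ : E → ℝ} {K L : Set E} (hK : IsCompact K) (h1 : ∀ y, C.SmAt Ψ y)
  (h2 : ∀ y, Ψ y ≠ 0 → K ∈ 𝓝 y)
  (h3 : ∀ (S : Finset Γ) y, (∀ γ ∉ S, Ψ (γ⁻¹ • y) = 0) → ∑ γ ∈ S, Ψ (γ⁻¹ • y) = 1)

include C hK h2 h3 in
theorem sum_one (hL : IsCompact L) : ∃ S : Finset Γ, ∀ y ∈ L,
    ∑ γ ∈ S, Ψ (γ⁻¹ • y) = 1 ∧ ∑ γ ∈ S, Ψ (γ • y) = 1 := by
  have h := C.proper _ (hK.union hL)
  refine ⟨h.toFinset, fun y hy => ⟨h3 _ y fun γ hγ => by_contra fun h' => hγ (h.mem_toFinset.2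
    ⟨_, .inl (mem_of_mem_nhds (h2 _ h')), by rw [smul_inv_smul]; exact .inr hy⟩), ?_⟩⟩
  rw [← h3 (h.toFinset.map (Equiv.inv Γ).toEmbedding) y fun γ hγ => by_contra fun h' => hγ
    (Finset.mem_map_equiv.2 (h.mem_toFinset.2 ⟨y, .inr hy, .inl (mem_of_mem_nhds (h2 _ h'))⟩)),
    Finset.sum_map]
  simp

variable [Countable Γ] [T2Space E] [MeasurableSpace E] [BorelSpace E] {μ : Measure E}
  (hμ : C.Vol μ)
include hK h1 h2 h3 hμ

theorem exact₀ (hX : ∀ i, i ≠ k → C.CFOn (X i) univ) (iX : ∀ γ i g, X i (γ * g) = X i g)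
    (hu : ∀ y, C.SmAt u y) (iu : ∀ (γ : Γ) y, u (γ • y) = u y) :
    ∫ y, Ψ y * C.mD (update X k (C.hc u)) y ∂μ = 0 := by
  obtain ⟨S, hS⟩ := sum_one (C := C) hK h2 h3 hK
  have h0 : ∀ y ∉ K, (Ψ y : ℂ) = 0 := fun y hy => by
    rw [by_contra fun h => hy (mem_of_mem_nhds (h2 y h)), Complex.ofReal_zero]
  have hψ : ∀ y, C.SmAt (fun y => (Ψ y : ℂ)) y := fun y => sm_ofReal (h1 y)
  let e : Γ → E ≃ᵐ E := fun γ =>
    ⟨MulAction.toPerm γ, (C.cont γ).measurable, (C.cont γ⁻¹).measurable⟩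
  have mp : ∀ γ, MeasurePreserving (e γ) μ μ := fun γ => ⟨(e γ).measurable,
    Measure.ext_of_lintegral _ fun f _ => (lintegral_map_equiv f (e γ)).trans (inv hμ γ f)⟩
  obtain ⟨F, hF⟩ : ∃ F : Γ → E → ℂ, ∀ γ y, F γ y = Ψ (γ⁻¹ • y) * TT X k u (fun y => Ψ y) y :=
    ⟨_, fun _ _ => rfl⟩
  have i1 : ∀ γ, Integrable (F γ) μ := fun γ => by
    rw [funext (hF γ)]
    exact ((int_TT jb hμ isOpen_univ hK (subset_univ _) hX (fun y _ => hu y) (fun y _ => hψ y)
      h0).integrableOn.continuousOn_mul (fun y _ => (sm_cont (sm_smul (hψ _))).continuousWithinAt)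
      hK).integrable_of_forall_notMem_eq_zero fun y hy => by rw [TT_zero hK h0 hy, mul_zero]
  calc _ = ∫ y, ∑ γ ∈ S, F γ (e γ y) ∂μ := integral_congr_ae (Eventually.of_forall fun y => ?_)
    _ = ∫ y, ∑ γ ∈ S, F γ y ∂μ := by
      rw [integral_finsetSum (f := fun γ y => F γ (e γ y)) _ fun γ _ =>
        (mp γ).integrable_comp_of_integrable (i1 γ), integral_finsetSum _ fun γ _ => i1 γ]
      exact Finset.sum_congr rfl fun γ _ => (mp γ).integral_comp' _
    _ = ∫ y, TT X k u (fun y => Ψ y) y ∂μ := integral_congr_ae (Eventually.of_forall fun y => ?_)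
    _ = 0 := stokes jb hμ isOpen_univ hK (subset_univ _) hX (fun y _ => hu y) (fun y _ => hψ y) h0
  · show _ = ∑ γ ∈ S, F γ (γ • y)
    simp only [hF, inv_smul_smul, ← Finset.mul_sum, TT_smul hX (iX _) hu (iu _) (hψ _)]
    by_cases h : Ψ y = 0
    · rw [h, Complex.ofReal_zero, zero_mul, zero_mul]
    rw [← TT_sum _ fun γ _ => sm_smul (hψ _), TT_one (mem_of_superset (h2 y h) fun y hy => ?_)]
    exact (Complex.ofReal_sum ..).symm.trans (congrArg _ (hS y hy).2)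
  · simp only [hF, ← Finset.sum_mul, ← Complex.ofReal_sum]
    by_cases h : y ∈ K
    · rw [(hS y h).1, Complex.ofReal_one, one_mul]
    · rw [TT_zero hK h0 h, mul_zero]

omit h3 in
theorem int_om {g : Fin n → E → ℝ} (h : ∀ i y, C.SmAt (g i) y) :
    Integrable (fun y => Ψ y * C.mD (fun i => C.om A (g i)) y) μ :=
  integ hμ hK (fun y _ => ((sm_cont (sm_ofReal (h1 y))).mul
    (mD_cont' h).continuousAt).continuousWithinAt) fun y hy => by
      rw [by_contra fun h => hy (mem_of_mem_nhds (h2 y h)), Complex.ofReal_zero, zero_mul]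

theorem step {g : Fin n → E → ℝ} (h : ∀ i y, C.SmAt (g i) y)
    (ig : ∀ i (γ : Γ) y, g i (γ • y) = g i y) (k : Fin n) :
    ∫ y, Ψ y * C.mD (fun i => C.om A (g i)) y ∂μ =
      ∫ y, Ψ y * C.mD (fun i => C.om A (update g k (fun _ => 0) i)) y ∂μ := by
  have h0 : ∀ y, C.SmAt (fun _ => (0 : ℝ)) y := fun _ _ _ _ _ _ => contDiffAt_const
  rw [← sub_eq_zero, ← integral_sub (int_om hK h1 h2 hμ h) (int_om hK h1 h2 hμ
    (forall_update_iff _ (fun _ g => ∀ y, C.SmAt g y) |>.2 ⟨h0, fun i _ => h i⟩)),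
    ← exact₀ hK h1 h2 h3 hμ (k := k) (fun i _ => cf_om jb A (g i) _ fun y _ => h i y)
      (fun γ i => om_inv (ig i) γ) (fun y => sm_ofReal (h k y)) fun γ y => by rw [ig]]
  refine integral_congr_ae (Eventually.of_forall fun y => ?_)
  obtain ⟨k1, k2⟩ := ch₀_spec (C := C) y
  rw [funext (apply_update (fun _ g => C.om A g) g k _)]
  simp only [Cov.mD, upd, ← mul_sub, ← sub_div]
  rw [← update_eq_self k fun i => C.om A (g i) _ _ _, update_idem, update_idem,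
    om_eq k1 (h k _), om_eq k1 (h0 _), C2.cHess_const, add_zero, MD_update_add, add_sub_cancel_left]
  rfl

theorem steps {g : Fin n → E → ℝ} (h : ∀ i y, C.SmAt (g i) y)
    (ig : ∀ i (γ : Γ) y, g i (γ • y) = g i y) :
    ∫ y, Ψ y * C.mD (fun i => C.om A (g i)) y ∂μ =
      ∫ y, Ψ y * C.mD (fun _ => C.om A fun _ => 0) y ∂μ := by
  have k : ∀ s : Finset (Fin n), ∫ y, Ψ y * C.mD (fun i => C.om A (g i)) y ∂μ =
      ∫ y, Ψ y * C.mD (fun i => C.om A (s.piecewise (fun _ _ => 0) g i)) y ∂μ := fun s => by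
    induction s using Finset.induction_on with
    | empty => rw [Finset.piecewise_empty]
    | insert k s _ ih =>
      rw [ih, Finset.piecewise_insert]
      exact step hK h1 h2 h3 hμ (fun i => s.piecewise_cases (fun _ _ => 0) g
        (fun g => ∀ y, C.SmAt g y) (fun _ _ _ _ _ _ => contDiffAt_const) (h i))
        (fun i => s.piecewise_cases (fun _ _ => 0) g
          (fun g => ∀ (γ : Γ) y, g (γ • y) = g y) (fun _ _ => rfl) (ig i)) k
  rw [k Finset.univ, Finset.piecewise_univ]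

omit hK h1 h2 h3 hμ [MeasurableSpace E] [BorelSpace E] in
/-- **M0** -/
theorem m0 (C : Cov n Γ E) : M0 C := by
  borelize E
  intro A _
  obtain ⟨μ, hμ⟩ := vol jb C
  obtain ⟨χ, p1, p2, p3, p4⟩ := pu C
  have hK := isCompact_iUnion fun a => cp_compact (C := C) 1 a
  have h1 : ∀ y, C.SmAt (fun y => ∑ a, χ a y) y := fun y γ b z hz e =>
    ContDiffAt.sum fun a _ => p1 a y γ b z hz e
  have h2 : ∀ y, ∑ a, χ a y ≠ 0 → (⋃ a, cp C 1 a) ∈ 𝓝 y := fun y hy => by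
    obtain ⟨a, -, h⟩ := Finset.exists_ne_zero_of_sum_ne_zero hy
    exact mem_of_superset (((ch C 1 a).isOpen_image_symm_of_subset_target isOpen_ball
      (B14 a)).mem_nhds ((p3 a y).1 h))
      ((image_mono ball_subset_closedBall).trans (subset_iUnion (cp C 1) a))
  have h3 : ∀ (S : Finset Γ) y, (∀ γ ∉ S, ∑ a, χ a (γ⁻¹ • y) = 0) →
      ∑ γ ∈ S, ∑ a, χ a (γ⁻¹ • y) = 1 := fun S y h => by
    obtain ⟨S', hS'⟩ := p4 y
    rw [← hS'.self_of_nhds.2, ← finsum_eq_sum_of_support_subset, finsum_eq_sum_of_support_subset]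
    · exact fun γ hγ => by_contra fun h =>
        hγ (Finset.sum_eq_zero fun a _ => hS'.self_of_nhds.1 γ h a)
    · exact fun γ hγ => by_contra fun h' => hγ (h γ h')
  have h4 : ∀ y, 0 ≤ ∑ a, χ a y := fun y => Finset.sum_nonneg fun a _ => p2 a y
  obtain ⟨Ψ, hΨ⟩ : ∃ Ψ : E → ℝ, ∀ y, ∑ a, χ a y = Ψ y := ⟨_, fun _ => rfl⟩
  simp only [hΨ] at h1 h2 h3 h4
  obtain ⟨S, hS⟩ := sum_one (C := C) hK h2 h3 (isCompact_iUnion fun a =>
    (C.isCompact_cB 3 a).image_of_continuousOn fun z hz =>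
      (pt_cont 1 (C.cB_sub_B (k' := 4) (by norm_num) a hz)).continuousWithinAt)
  refine ⟨∑ _γ ∈ S, ENNReal.ofReal (∫ y, Ψ y * C.mD (fun _ => C.om A fun _ => 0) y ∂μ).re,
    ENNReal.sum_lt_top.2 fun _ _ => ENNReal.ofReal_lt_top, fun g hg a => ?_⟩
  have s1 := fun i => (hg i).sm
  have s2 : Continuous fun y => (C.mD (fun i => C.om A (g i)) y).re :=
    Complex.continuous_re.comp (mD_cont' s1)
  have s3 := (int_om (A := A) hK h1 h2 hμ s1)
  have s4 : ∀ y, 0 ≤ Ψ y * (C.mD (fun i => C.om A (g i)) y).re := fun y => by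
    obtain ⟨k1, -⟩ := ch₀_spec (C := C) y
    rw [Cov.mD, ← (det_re k1).2, Complex.div_ofReal_re]
    refine mul_nonneg (h4 y) (div_nonneg (md_nonneg fun i => ?_) (det_re k1).1.le)
    rw [← mul_one (C.ch₀ y).1, om_inv (hg i).inv]
    exact (hg i).psd _ _ k1
  have s5 : C.B 3 a ⊆ C.B 4 a := C.B_mono (by norm_num) a
  rw [← steps hK h1 h2 h3 hμ s1 fun i => (hg i).inv, ← RCLike.re_to_complex, ← integral_re s3]
  simp only [RCLike.re_to_complex, Complex.re_ofReal_mul]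
  rw [ofReal_integral_eq_lintegral_ofReal (by simpa using s3.re) (Eventually.of_forall s4)]
  calc _ = ∫⁻ y in C.pt 1 a '' C.B 3 a, ENNReal.ofReal (C.mD (fun i => C.om A (g i)) y).re ∂μ := by
        rw [set_vol hμ (C.isOpen_B 3 a).measurableSet s5 1 s2.measurable.ennreal_ofReal]
        refine setLIntegral_congr_fun (C.isOpen_B 3 a).measurableSet fun z hz => ?_
        simp only [mD_pt jb _ 1 a z (s5 hz) fun i => fm_om jb A (s1 i _)]
        rw [← ENNReal.ofReal_mul' (det_re (s5 hz)).1.le, ← (det_re (s5 hz)).2,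
          Complex.div_ofReal_re, Complex.ofReal_re, div_mul_cancel₀ _ (det_re (s5 hz)).1.ne', md]
    _ = ∫⁻ y in C.pt 1 a '' C.B 3 a, ∑ γ ∈ S,
        ENNReal.ofReal (Ψ (γ • y) * (C.mD (fun i => C.om A (g i)) (γ • y)).re) ∂μ := by
        refine setLIntegral_congr_fun (img_meas (C.isOpen_B 3 a).measurableSet s5 1) fun y hy => ?_
        simp only [← ENNReal.ofReal_sum_of_nonneg fun γ _ => s4 (γ • y)]
        simp only [mD_smul fun i => fm_om jb A (s1 i _), om_inv (hg _).inv, ← Finset.sum_mul,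
          (hS y (mem_iUnion.2 ⟨a, image_mono (C.B_sub_cB 3 a) hy⟩)).2, one_mul]
    _ ≤ _ := by
        refine (setLIntegral_le_lintegral _ _).trans_eq ((lintegral_finset_sum _ fun γ _ =>
          (((continuous_iff_continuousAt.2 fun y => sm_cont (h1 y)).mul s2).comp
            (C.cont γ)).measurable.ennreal_ofReal).trans ?_)
        exact Finset.sum_congr rfl fun γ _ => inv hμ γ
          fun y => ENNReal.ofReal (Ψ y * (C.mD (fun i => C.om A (g i)) y).re)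

end Vale.Agent.P284Z.J
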