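import Vale.Agent.P284Z.J.Win
import Vale.Agent.P284Z.J.G1
import Mathlib.Analysis.Matrix.Order
import Mathlib.LinearAlgebra.Complex.FiniteDimensional

/-!
# P284Z, block J: the mean value inequality on graphs
-/

set_option linter.all false

open scoped ContDiff Topology ComplexOrder ComplexConjugate ENNReal
open Filter Set Function Matrix Metric MeasureTheory

noncomputable section

namespace Vale.Agent.P284Z.J

open Vale.Agent.P272.K Vale.Agent.P284.H650

variable {n q : ℕ} {U K : Set (Cm n)} {z : Cm n}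

/-- integration by parts, with a condition in `U` only -/
theorem ibp' {X : Fin n → Cm n → Mx n} {k : Fin n} {f h : Cm n → ℝ} (hU : IsOpen U)
    (hX : ∀ i, i ≠ k → CF U (X i)) (hf : Sm U f) (hh : Sm U h) (hK : IsCompact K) (hKU : K ⊆ U)
    (hout : ∀ z ∈ U, z ∉ K → (h =ᶠ[𝓝 z] fun _ => 0) ∨ (f =ᶠ[𝓝 z] fun _ => 0)) :
    IntegrableOn (fun z => h z * sl (fun i => X i z) k (cHess f z)) U ∧
    ∫ z in U, h z * sl (fun i => X i z) k (cHess f z) =
      -∫ z in U, sl (fun i => X i z) k (gg h f z) := by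
  obtain ⟨K', k1, k2, k3⟩ := exists_compact_between hK hU hKU
  obtain ⟨β, β0, β1, -⟩ := exists_contMDiffMap_zero_one_nhds_of_isClosed (n := ⊤)
    (modelWithCornersSelf ℝ (Cm n)) isOpen_interior.isClosed_compl hK.isClosed (disjoint_compl_left_iff_subset.2 k2)
  obtain ⟨i1, -, i3⟩ := ibp (h := fun z => β z * h z) hU hX hf
    (fun z hz => β.contMDiff.contDiff.contDiffAt.mul (hh z hz)) k1 k3 fun z hz => .inl
      ((β0.filter_mono (nhds_le_nhdsSet (mem_compl fun h => hz (interior_subset h)))).mono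
        fun y hy => by simp [hy])
  have e : ∀ z ∈ U, ((fun z => β z * h z) =ᶠ[𝓝 z] h) ∨ f =ᶠ[𝓝 z] fun _ => 0 := fun z hz => by
    by_cases h1 : z ∈ K
    · exact .inl ((β1.filter_mono (nhds_le_nhdsSet h1)).mono fun y hy => by simp [hy])
    · exact (hout z hz h1).imp_left fun h2 => h2.mono fun y hy => by simp [hy]
  have e1 : EqOn (fun z => β z * h z * sl (fun i => X i z) k (cHess f z))
      (fun z => h z * sl (fun i => X i z) k (cHess f z)) U := fun z hz => by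
    rcases e z hz with h1 | h1
    · exact congrArg (· * _) h1.eq_of_nhds
    · simp only [cHess_congr h1, C2.cHess_const, map_zero, mul_zero]
  refine ⟨i1.congr_fun e1 hU.measurableSet, ?_⟩
  rw [← setIntegral_congr_fun hU.measurableSet e1, i3]
  refine congrArg _ (setIntegral_congr_fun hU.measurableSet fun z hz => ?_)
  rcases e z hz with h1 | h1
  · simp only [gg_congr_left h1]
  · simp only [sl_gg_symm (fun i hi => (hX i hi).herm z hz) _ f, gg_congr_left h1, gg_const_left]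

theorem green' {X : Fin n → Cm n → Mx n} {k : Fin n} {f h : Cm n → ℝ} (hU : IsOpen U)
    (hX : ∀ i, i ≠ k → CF U (X i)) (hf : Sm U f) (hh : Sm U h) (hK : IsCompact K) (hKU : K ⊆ U)
    (hout : ∀ z ∈ U, z ∉ K → (h =ᶠ[𝓝 z] fun _ => 0) ∨ (f =ᶠ[𝓝 z] fun _ => 0)) :
    ∫ z in U, h z * sl (fun i => X i z) k (cHess f z) =
      ∫ z in U, f z * sl (fun i => X i z) k (cHess h z) := by
  rw [(ibp' hU hX hf hh hK hKU hout).2,
    (ibp' hU hX hh hf hK hKU fun z h hz => (hout z h hz).symm).2]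
  exact congrArg _ (setIntegral_congr_fun hU.measurableSet fun z hz =>
    sl_gg_symm (fun i hi => (hX i hi).herm z hz) h f z)

theorem md_rk1 (Θ : Mx n) (a b : Cm n) (t : ℝ) (s : Finset (Fin n)) :
    (∀ k ∉ s, sl (s.piecewise (fun _ => Θ - (t : ℂ) • rk1 a b) fun _ => Θ) k (rk1 a b) =
      sl (fun _ => Θ) k (rk1 a b)) ∧
    md (s.piecewise (fun _ => Θ - (t : ℂ) • rk1 a b) fun _ => Θ) =
      md (fun _ => Θ) - t * ∑ k ∈ s, sl (fun _ => Θ) k (rk1 a b) := by
  induction s using Finset.induction_on with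
  | empty => simp
  | insert l s hl ih =>
    obtain ⟨Y, hY⟩ : ∃ Y, Y = s.piecewise (fun _ => Θ - (t : ℂ) • rk1 a b) fun _ => Θ := ⟨_, rfl⟩
    have h1 : Y l = Θ := hY ▸ s.piecewise_eq_of_notMem _ _ hl
    rw [s.piecewise_insert, Finset.sum_insert hl, ← sl_apply, map_sub, lin_csmul, ih.1 l hl, ← hY]
    rw [← hY] at ih
    refine ⟨fun k hk => ?_, by rw [← h1, sl_self, ih.2, h1]; ring⟩
    rw [Finset.mem_insert, not_or] at hk
    have h2 : MD (update (update Y k (rk1 a b)) l (rk1 a b)) = 0 :=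
      self_eq_neg.1 (MD_rk1_swap Y hk.1 a a b b)
    rw [sl_apply, update_comm (Ne.symm hk.1), ← sl_apply, map_sub, lin_csmul, sl_apply _ l (rk1 a b),
      md, h2, Complex.zero_re, mul_zero, sub_zero, ← ih.1 k hk.2, sl_apply, sl_apply,
      update_comm hk.1, ← h1, update_eq_self]

theorem sum_gg_le {Θ : Mx n} {f : Cm n → ℝ} {r : ℝ} (hΘ : Θ.PosSemidef) (hr : 0 ≤ r)
    (h : ∀ ℓ, Pf ℓ → ℓ (gg f f z) ≤ r * ℓ Θ) :
    ∑ k, sl (fun _ => Θ) k (gg f f z) ≤ r * md fun _ => Θ := by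
  rcases hr.eq_or_lt with rfl | hr
  · rw [zero_mul]
    exact Finset.sum_nonpos fun k _ => (h _ (pf_sl fun _ _ => hΘ)).trans_eq (zero_mul _)
  have h1 := (md_rk1 Θ (dzv f z) (dzbv f z) r⁻¹ Finset.univ).2
  rw [Finset.piecewise_univ] at h1
  rw [← inv_mul_le_iff₀ hr, ← sub_nonneg]
  refine (md_nonneg fun _ => psd_of_pf (hΘ.1.sub (herm_smul (gg_psd f z).1 _)) fun ℓ hℓ => ?_).trans_eq
    h1
  rw [map_sub, lin_csmul, sub_nonneg, inv_mul_le_iff₀ hr]
  exact h ℓ hℓ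

/-- the radial test function -/
theorem exists_rad (n : ℕ) : ∃ C > (0 : ℝ), ∀ R ε : ℝ, 0 < ε → 2 * ε < R → ∃ φ : ℝ → ℝ,
    (∀ t, 3 / 4 * R < t → φ t = 0) ∧ ∀ t, 0 ≤ t → ContDiffAt ℝ ∞ φ t ∧ 0 ≤ φ t ∧
      0 ≤ deriv (deriv φ) t ∧ ∃ a b, n * deriv φ t + t * deriv (deriv φ) t = b - a ∧ 0 ≤ a ∧
        (t ≤ ε → n * ε / (2 * ε) ^ (n + 1) ≤ a ∧ b = 0) ∧ b ≤ C / R ^ n ∧ (R < t → b = 0) := by
  obtain ⟨ζ, hζ⟩ : ∃ ζ : ℝ → ℝ, ζ = fun x => Real.smoothTransition (3 - 4 * x) := ⟨_, rfl⟩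
  have ζ0 : ContDiff ℝ ∞ ζ := hζ ▸ Real.smoothTransition.contDiff.comp (by fun_prop)
  have ζ1 : ∀ x, 3 / 4 ≤ x → ζ x = 0 := fun x hx =>
    hζ ▸ Real.smoothTransition.zero_of_nonpos (by linarith)
  have ζ2 : ∀ x, x ≤ 1 / 2 → ζ x = 1 := fun x hx =>
    hζ ▸ Real.smoothTransition.one_of_one_le (by linarith)
  have ζ3 : ∀ x, 0 ≤ ζ x := fun x => hζ ▸ Real.smoothTransition.nonneg _
  have ζ4 : ∀ x, deriv ζ x ≤ 0 := fun x => Antitone.deriv_nonpos
    (hζ ▸ fun a b h => Real.smoothTransition.monotone (by linarith))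
  have ζ5 : ∀ x, x ∉ Icc (1 / 2 : ℝ) (3 / 4) → deriv ζ x = 0 := fun x hx => by
    rcases not_and_or.1 hx with h | h
    · exact (EventuallyEq.deriv_eq ((gt_mem_nhds (not_le.1 h)).mono fun y hy => ζ2 y hy.le)).trans
        (deriv_const _ _)
    · exact (EventuallyEq.deriv_eq ((lt_mem_nhds (not_le.1 h)).mono fun y hy => ζ1 y hy.le)).trans
        (deriv_const _ _)
  obtain ⟨C, hC⟩ := (isCompact_Icc (a := (1 / 2 : ℝ)) (b := 3 / 4)).exists_bound_of_continuousOn
    (contDiff_infty_iff_deriv.1 ζ0).2.continuous.continuousOn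
  have C0 := (norm_nonneg _).trans (hC (1 / 2) (by norm_num))
  refine ⟨2 ^ n * (C + 1), by positivity, fun R ε hε hR => ?_⟩
  have R0 : 0 < R := by linarith
  obtain ⟨μ, hμ⟩ : ∃ μ : ℝ → ℝ, μ = fun t => ((t + ε) ^ n)⁻¹ * ζ (t / R) := ⟨_, rfl⟩
  have μ0 : ContDiffOn ℝ ∞ μ (Ioi (-ε)) := hμ ▸ (ContDiffOn.inv (by fun_prop) fun t ht =>
    (pow_pos (neg_lt_iff_pos_add.1 ht) n).ne').mul (ζ0.comp (by fun_prop)).contDiffOn
  have d1 : ∀ t ∈ Ioi (-ε), HasDerivAt (fun t => ∫ x in t..R, μ x) (-μ t) t := fun t ht =>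
    intervalIntegral.integral_hasDerivAt_left ((μ0.continuousOn.mono (ordConnected_Ioi.uIcc_subset
      ht (show -ε < R by linarith))).intervalIntegrable)
      (μ0.continuousOn.stronglyMeasurableAtFilter isOpen_Ioi t ht)
      (μ0.continuousOn.continuousAt (Ioi_mem_nhds ht))
  refine ⟨fun t => ∫ x in t..R, μ x, fun t ht => ?_, fun t ht => ?_⟩
  · refine (intervalIntegral.integral_congr (g := fun _ => 0) fun x hx => ?_).trans (by simp)
    have : 3 / 4 * R ≤ x := le_trans (le_min ht.le (by linarith)) hx.1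
    simp only [hμ, ζ1 _ ((le_div_iff₀ R0).2 this), mul_zero]
  have t0 : 0 < t + ε := by linarith
  have t1 : Ioi (-ε) ∈ 𝓝 t := Ioi_mem_nhds (by linarith)
  have d2 : HasDerivAt μ (-(n * (t + ε) ^ (n - 1)) / ((t + ε) ^ n) ^ 2 * ζ (t / R) +
      ((t + ε) ^ n)⁻¹ * (deriv ζ (t / R) / R)) t := by
    simpa [hμ, div_eq_mul_inv, Function.comp_def] using
      ((((hasDerivAt_id t).add_const ε).fun_pow n).fun_inv (pow_pos t0 n).ne').fun_mul
      ((ζ0.differentiable (by simp) (t / R)).hasDerivAt.comp t ((hasDerivAt_id t).div_const R))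
  have d3 : -(n * (t + ε) ^ (n - 1)) / ((t + ε) ^ n) ^ 2 = -(n / (t + ε) ^ (n + 1)) := by
    cases n with
    | zero => simp
    | succ n => rw [Nat.add_sub_cancel]; field_simp; ring
  rw [d3] at d2
  rw [((EventuallyEq.deriv_eq (mem_of_superset t1 fun x hx => (d1 x hx).deriv))).trans
    d2.fun_neg.deriv, (d1 t (mem_of_mem_nhds t1)).deriv]
  have a1 := mul_nonneg (inv_pos.2 (pow_pos t0 n)).le (div_nonneg (neg_nonneg.2 (ζ4 (t / R))) R0.le)
  have a2 : 0 ≤ n / (t + ε) ^ (n + 1) * ζ (t / R) := mul_nonneg (by positivity) (ζ3 _)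
  refine ⟨((contDiffOn_infty_iff_deriv_of_isOpen isOpen_Ioi).2 ⟨fun x hx =>
    (d1 x hx).differentiableAt.differentiableWithinAt, μ0.neg.congr fun x hx =>
      (d1 x hx).deriv⟩).contDiffAt t1, ?_, by rw [neg_div] at a1; linarith,
    ε * (n / (t + ε) ^ (n + 1) * ζ (t / R)), t * (((t + ε) ^ n)⁻¹ * (-deriv ζ (t / R) / R)),
    by rw [hμ]; field_simp; ring, mul_nonneg hε.le a2, fun h => ⟨?_, ?_⟩, ?_, fun h => ?_⟩
  · rcases le_total t R with h | h
    · exact intervalIntegral.integral_nonneg h fun x hx => hμ ▸ mul_nonneg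
        (inv_nonneg.2 (pow_nonneg (by linarith [hx.1]) n)) (ζ3 _)
    · refine (intervalIntegral.integral_congr (g := fun _ => 0) fun x hx => ?_).ge.trans' (by simp)
      have : 3 / 4 * R ≤ x := le_trans (le_min (by linarith) (by linarith)) hx.1
      simp only [hμ, ζ1 _ ((le_div_iff₀ R0).2 this), mul_zero]
  · rw [ζ2 _ ((div_le_iff₀ R0).2 (by linarith)), mul_one, ← mul_div_assoc, mul_comm ε]
    gcongr
    linarith
  · rw [ζ5 _ fun h1 => by linarith [(le_div_iff₀ R0).1 h1.1]]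
    simp
  · by_cases h : t / R ∈ Icc (1 / 2 : ℝ) (3 / 4)
    · have h1 := (le_div_iff₀ R0).1 h.1
      have h2 : -deriv ζ (t / R) ≤ C + 1 := by linarith [(neg_le_abs _).trans (hC _ h)]
      calc _ = t / R * (((t + ε) ^ n)⁻¹ * -deriv ζ (t / R)) := by ring
        _ ≤ 1 * (((R / 2) ^ n)⁻¹ * (C + 1)) := by
          gcongr
          · exact mul_nonneg (by positivity) (neg_nonneg.2 (ζ4 _))
          · linarith [h.2]
          · exact neg_nonneg.2 (ζ4 _)
          · linarith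
        _ = _ := by rw [div_pow]; field_simp
    · rw [ζ5 _ h]
      simp only [neg_zero, zero_div, mul_zero]
      positivity
  · rw [ζ5 _ fun h1 => by linarith [(div_le_iff₀ R0).1 h1.2]]
    simp

theorem mv_core (n : ℕ) : ∃ C > (0 : ℝ), ∀ (U K A : Set (Cm n)) (u ρ : Cm n → ℝ) (R ε D : ℝ),
    IsOpen U → IsCompact K → K ⊆ U → Sm U u → Sm U ρ →
    (∀ z ∈ U, 0 ≤ u z ∧ (cHess u z).PosSemidef) → (∀ z ∈ U, 0 ≤ ρ z ∧ (cHess ρ z).PosSemidef ∧
      ∀ ℓ, Pf ℓ → ℓ (gg ρ ρ z) ≤ ρ z * ℓ (cHess ρ z)) →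
    (∀ z ∈ U, u z ≠ 0 → ρ z ≤ R → z ∈ K) → 0 < ε → 2 * ε < R → 0 ≤ D →
    (∀ z ∈ A, z ∈ U ∧ ρ z ≤ ε ∧ D ≤ u z * (cHess ρ z).det.re) →
    ENNReal.ofReal (n * ε / (2 * ε) ^ (n + 1) * D) * volume A ≤ ENNReal.ofReal (C / R ^ n) *
      ∫⁻ z in {z ∈ U | ρ z ≤ R}, ENNReal.ofReal (u z * (cHess ρ z).det.re) := by
  obtain ⟨C, C0, hC⟩ := exists_rad n
  refine ⟨C * n.factorial, by positivity, fun U K A u ρ R ε D hU hK hKU hu hρ pu pρ hs hε hR hD hA => ?_⟩
  obtain ⟨φ, φ0, hφ⟩ := hC R ε hε hR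
  have R0 : 0 < R := by linarith
  have s1 : Sm U fun z => φ (ρ z) := fun z hz => (hφ _ (pρ z hz).1).1.comp z (hρ z hz)
  have out : ∀ z ∈ U, z ∉ K → (∀ᶠ y in 𝓝 z, 3 / 4 * R < ρ y) ∨ u =ᶠ[𝓝 z] fun _ => 0 :=
    fun z hz h => by
      rcases lt_or_ge (3 / 4 * R) (ρ z) with h1 | h1
      · exact .inl ((hρ z hz).continuousAt.eventually_const_lt h1)
      · refine .inr ?_
        filter_upwards [hU.mem_nhds hz, hK.isClosed.isOpen_compl.mem_nhds h,
          (hρ z hz).continuousAt.eventually_le_const (show ρ z < R by linarith)] with y a1 a2 a3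
        exact by_contra fun a4 => a2 (hs y a1 a4 a3)
  have out' := fun z hz h => (out z hz h).imp_left fun h1 => h1.mono fun y hy => φ0 _ hy
  have cf : ∀ {k : Fin n} i, i ≠ k → CF U ((fun _ => cHess ρ) i) := fun _ _ => hρ.cf
  have i1 := fun k => (ibp' (k := k) hU cf s1 hu hK hKU fun z a b => (out' z a b).symm).1
  have h1 : 0 ≤ ∫ z in U, ∑ k, u z * sl (fun _ => cHess ρ z) k (cHess (fun z => φ (ρ z)) z) := by
    rw [integral_finsetSum _ fun k _ => i1 k]
    refine Finset.sum_nonneg fun k _ => ?_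
    rw [← green' hU cf hu s1 hK hKU out']
    exact setIntegral_nonneg hU.measurableSet fun z hz => mul_nonneg (hφ _ (pρ z hz).1).2.1
      (sl_nonneg (fun _ _ => (pρ z hz).2.1) (pu z hz).2)
  have i2 := integrable_finsetSum Finset.univ fun k _ => i1 k
  rw [integral_eq_lintegral_pos_part_sub_lintegral_neg_part i2, sub_nonneg] at h1
  replace h1 := (ENNReal.toReal_le_toReal i2.neg.lintegral_lt_top.ne i2.lintegral_lt_top.ne).1 h1
  have n1 : (1 : ℝ) ≤ n.factorial := by exact_mod_cast n.factorial_pos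
  have p : ∀ z ∈ U, 0 ≤ u z * (cHess ρ z).det.re := fun z hz =>
    mul_nonneg (pu z hz).1 (Complex.le_def.1 (pρ z hz).2.1.det_nonneg).1
  have h2 : ∀ z ∈ U, ∑ k, u z * sl (fun _ => cHess ρ z) k (cHess (fun z => φ (ρ z)) z) ≤
      (n * deriv φ (ρ z) + ρ z * deriv (deriv φ) (ρ z)) *
        (n.factorial * (u z * (cHess ρ z).det.re)) := fun z hz => by
    obtain ⟨a1, -, a2, -⟩ := hφ _ (pρ z hz).1
    have a3 := mul_le_mul_of_nonneg_left (sum_gg_le (pρ z hz).2.1 (pρ z hz).1 (pρ z hz).2.2)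
      (mul_nonneg (pu z hz).1 a2)
    have a4 := fun k => sl_self (fun _ => cHess ρ z) k
    simp only [lin_comp (a1.of_le two_le) (hρ.two hz), a4, ← Finset.mul_sum, Finset.sum_add_distrib,
      Finset.sum_const, Finset.card_univ, Fintype.card_fin, nsmul_eq_mul, md_const] at a3 ⊢
    linarith
  rw [← setLIntegral_const, ← lintegral_const_mul' _ _ ENNReal.ofReal_ne_top]
  refine ((setLIntegral_mono_ae (IntegrableOn.mono_set i2.neg
    fun z hz => (hA z hz).1).aemeasurable.ennreal_ofReal (ae_of_all _ fun z hz =>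
      ENNReal.ofReal_le_ofReal ?_)).trans (lintegral_mono_set fun z hz => (hA z hz).1)).trans
    (h1.trans ?_)
  · obtain ⟨-, -, -, a, b, a1, a2, a3, -⟩ := hφ _ (pρ z (hA z hz).1).1
    refine le_trans ?_ (neg_le_neg (h2 z (hA z hz).1))
    rw [a1, (a3 (hA z hz).2.1).2, zero_sub, neg_mul, neg_neg]
    exact mul_le_mul (a3 (hA z hz).2.1).1 ((hA z hz).2.2.trans
      (le_mul_of_one_le_left (p z (hA z hz).1) n1)) hD a2
  rw [← lintegral_indicator hU.measurableSet,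
    ← setLIntegral_eq_of_support_subset (s := {z ∈ U | ρ z ≤ R}) fun z hz => ?_]
  · refine lintegral_mono fun z => indicator_apply_le' (fun hz => ?_) fun _ => zero_le
    obtain ⟨-, -, -, a, b, a1, a2, -, a3, -⟩ := hφ _ (pρ z hz).1
    rw [← ENNReal.ofReal_mul (by positivity), mul_div_right_comm, mul_assoc]
    exact ENNReal.ofReal_le_ofReal ((h2 z hz).trans (mul_le_mul_of_nonneg_right (by linarith)
      (mul_nonneg (by linarith) (p z hz))))
  · rw [support_indicator] at hz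
    obtain ⟨-, -, -, a, b, a1, a2, -, -, a3⟩ := hφ _ (pρ z hz.1).1
    exact ⟨hz.1, le_of_not_gt fun h => hz.2 (ENNReal.ofReal_eq_zero.2 ((h2 z hz.1).trans
      (mul_nonpos_of_nonpos_of_nonneg (by linarith [a3 h])
        (mul_nonneg (by linarith) (p z hz.1)))))⟩

theorem nsq_le (x : Cm q) : nsq x ≤ q * ‖x‖ ^ 2 := by
  simpa [nsq] using Finset.sum_le_card_nsmul Finset.univ (fun b => ‖x b‖ ^ 2) _
    fun b _ => pow_le_pow_left₀ (norm_nonneg _) (norm_le_pi_norm x b) 2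

theorem nsq_add (x y : Cm q) : nsq (x + y) ≤ 2 * nsq x + 2 * nsq y := by
  simp only [nsq, Finset.mul_sum, ← Finset.sum_add_distrib]
  exact Finset.sum_le_sum fun b _ => (pow_le_pow_left₀ (norm_nonneg _) (norm_add_le _ _) 2).trans
    (by nlinarith [sq_nonneg (‖x b‖ - ‖y b‖)])

theorem nsq_mulVec (S : Matrix (Fin q) (Fin n) ℂ) (v : Cm n) :
    nsq (S.mulVec v) = qd v (pb S 1) := by
  change _ = (quad _ _).re
  rw [← Complex.ofReal_re (nsq _)]
  congr 1
  simp only [nsq, quad, pb, Matrix.mul_one, Matrix.mul_apply, Matrix.mulVec, dotProduct,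
    Complex.ofReal_sum, Complex.ofReal_pow, ← Complex.mul_conj', map_sum, Finset.sum_mul_sum,
    Finset.sum_mul, Finset.mul_sum, Matrix.transpose_apply, Matrix.map_apply, map_mul]
  rw [Finset.sum_comm, Finset.sum_comm (f := fun i j => ∑ b, S b i * _ * _)]
  refine Finset.sum_congr rfl fun i _ => ?_
  rw [Finset.sum_comm]
  exact Finset.sum_congr rfl fun j _ => Finset.sum_congr rfl fun b _ => by ring

open scoped MatrixOrder in
theorem exists_pb {Θ : Mx n} (h : Θ.PosDef) : ∃ T : Mx n, pb T Θ = 1 := by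
  obtain ⟨B, rfl⟩ := CStarAlgebra.nonneg_iff_eq_star_mul_self.mp h.posSemidef.nonneg
  have h1 : IsUnit B.det := by
    have := h.det_pos.ne'
    rw [det_mul] at this
    exact (right_ne_zero_of_mul this).isUnit
  refine ⟨B⁻¹.map (starRingEnd ℂ), ?_⟩
  have h2 : (B⁻¹.map (starRingEnd ℂ)).map (starRingEnd ℂ) = B⁻¹ := by ext; simp
  rw [pb, h2, show (B⁻¹.map (starRingEnd ℂ))ᵀ = star B⁻¹ from rfl, ← mul_assoc, ← star_mul,
    mul_assoc, Matrix.mul_nonsing_inv _ h1, star_one, mul_one]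

theorem mv_pos (hn : 0 < n) : ∃ c > (0 : ℝ), ∀ (q : ℕ) (U K : Set (Cm n)) (G : Cm n → Cm q)
    (u : Cm n → ℝ) (z₀ : Cm n) (R : ℝ), IsOpen U → AnalyticOnNhd ℂ G U → Sm U u →
    (∀ z ∈ U, 0 ≤ u z ∧ (cHess u z).PosSemidef) → z₀ ∈ U → (pb (jm G z₀) 1).PosDef → 0 < R →
    IsCompact K → K ⊆ U → (∀ z ∈ U, u z ≠ 0 → nsq (G z - G z₀) ≤ R → z ∈ K) →
    ENNReal.ofReal (c * R ^ n * u z₀) ≤ ∫⁻ z in {z ∈ U | nsq (G z - G z₀) ≤ R},
      ENNReal.ofReal (u z * (cHess (fun w => nsq (G w - G z₀)) z).det.re) := by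
  obtain ⟨C, C0, hC⟩ := mv_core n
  have v0 : 0 < (volume (closedBall (0 : Cm n) 1)).toReal := ENNReal.toReal_pos
    (measure_closedBall_pos _ _ one_pos).ne' measure_closedBall_lt_top.ne
  refine ⟨n / (4 * (8 * n) ^ n) * (volume (closedBall (0 : Cm n) 1)).toReal / C, by positivity,
    fun q U K G u z₀ R hU hG hu pu h0 hp hR hK hKU hs => ?_⟩
  rcases (pu z₀ h0).1.eq_or_lt with u0 | u0
  · simp [← u0]
  obtain ⟨T, hT⟩ := exists_pb hp
  have d0 : 0 < (pb (jm G z₀) 1).det.re := (Complex.lt_def.1 hp.det_pos).1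
  have d1 : ‖T.det‖ ^ 2 * (pb (jm G z₀) 1).det.re = 1 := by
    rw [← Complex.re_ofReal_mul, ← JGx.det_pb, hT, det_one, Complex.one_re]
  have s1 : Sm U fun w => nsq (G w - G z₀) := fun z hz => sm_rad (hG z hz) _
  obtain ⟨L, hL⟩ : ∃ L : Cm n →L[ℂ] Cm n, ∀ v, L v = T.mulVec v :=
    ⟨T.mulVecLin.toContinuousLinearMap, fun _ => rfl⟩
  have a1 : ∀ w, HasFDerivAt (fun w => z₀ + L w) L w := fun w => L.hasFDerivAt.const_add _
  have a2 : Tendsto (fun w => z₀ + L w) (𝓝 0) (𝓝 z₀) := by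
    simpa using (a1 0).continuousAt.tendsto
  have a3 : HasFDerivAt (fun w => G (z₀ + L w)) (fderiv ℂ G z₀ ∘L L) 0 :=
    HasFDerivAt.comp (g := G) 0 (by simpa using (hG z₀ h0).differentiableAt.hasFDerivAt) (a1 0)
  have a4 : ContinuousAt (fun z => u z * (cHess (fun w => nsq (G w - G z₀)) z).det.re) z₀ :=
    (hu z₀ h0).continuousAt.mul (Complex.continuous_re.continuousAt.comp
      (INT.contDiffAt_det (INT.smooth_cHess (s1 z₀ h0))).continuousAt)
  have a5 := a4.eventually_const_le (u := u z₀ * (pb (jm G z₀) 1).det.re / 2) (by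
    simp only [hess_rad (hG z₀ h0)]
    exact half_lt_self (mul_pos u0 d0))
  have a6 : ContinuousAt (fun r : ℝ => 2 * (4 * n * r ^ 2)) 0 := by fun_prop
  obtain ⟨r, ⟨r1, r2⟩, r0⟩ := (((eventually_closedBall_subset ((a2.eventually
    (a5.and (hU.mem_nhds h0))).and (a3.isLittleO.def (c := (q + 1 : ℝ)⁻¹) (by positivity)))).and
    (a6.eventually_lt_const (by simpa using hR))).filter_mono nhdsWithin_le_nhds).and
      (self_mem_nhdsWithin (s := Ioi 0)) |>.exists
  replace r0 : 0 < r := r0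
  have n1 : (1 : ℝ) ≤ n := by exact_mod_cast hn
  have h1 := hC U K ((fun w => z₀ + L w) '' closedBall 0 r) u _ R (4 * n * r ^ 2)
    (u z₀ * (pb (jm G z₀) 1).det.re / 2) hU hK hKU hu s1 pu (fun z hz => ⟨nsq_nonneg _,
      hess_rad (hG z hz) _ ▸ pb_psd _ .one, fun _ => gg_rad (hG z hz) _⟩) hs (by positivity) r2
    (by positivity) (by
      rintro _ ⟨w, hw, rfl⟩
      obtain ⟨⟨b1, b2⟩, b3⟩ := r1 hw
      refine ⟨b2, ?_, b1⟩
      rw [mem_closedBall_zero_iff] at hw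
      simp only [map_zero, add_zero, sub_zero, ContinuousLinearMap.comp_apply] at b3
      have b4 := nsq_add (fderiv ℂ G z₀ (L w)) (G (z₀ + L w) - G z₀ - fderiv ℂ G z₀ (L w))
      have b5 : nsq (fderiv ℂ G z₀ (L w)) = nsq w := by
        rw [← jm_mulVec, hL, mulVec_mulVec, nsq_mulVec, JGx.pb_mul, hT, ← one_mulVec w, nsq_mulVec,
          one_mulVec, pb, transpose_one, one_mul, one_mul, Matrix.map_one _ (map_zero _) (map_one _)]
      have b6 := pow_le_pow_left₀ (norm_nonneg _) hw 2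
      have b7 := (nsq_le _).trans (mul_le_mul_of_nonneg_left
        (pow_le_pow_left₀ (norm_nonneg _) b3 2) q.cast_nonneg)
      have b8 : q * ((q + 1 : ℝ)⁻¹ * ‖w‖) ^ 2 ≤ 1 * ‖w‖ ^ 2 := by
        rw [mul_pow, ← mul_assoc, inv_pow, ← div_eq_mul_inv]
        gcongr
        rw [div_le_one (by positivity)]
        nlinarith [q.cast_nonneg (α := ℝ)]
      rw [add_sub_cancel, b5] at b4
      nlinarith [nsq_le w])
  have e1 : ∀ w, jm (fun w => z₀ + L w) w = T := fun w => by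
    ext b j
    rw [jm_apply, (a1 w).fderiv, hL, mulVec_single_one]
    rfl
  have e2 : T.det ≠ 0 := fun h => by simp [h] at d1
  rw [← setLIntegral_one, cov measurableSet_closedBall (fun w _ => (a1 w).differentiableAt)
    (fun v _ w _ h => mulVec_injective_iff_isUnit.2 ((isUnit_iff_isUnit_det _).2 e2.isUnit)
      (by simpa only [add_right_inj, hL] using h))] at h1
  simp only [e1, mul_one, setLIntegral_const] at h1
  rw [Measure.addHaar_closedBall' _ _ r0.le, ← ENNReal.ofReal_toReal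
    (measure_closedBall_lt_top (x := (0 : Cm n)) (r := 1)).ne, ← ENNReal.ofReal_mul (by positivity),
    ← ENNReal.ofReal_mul (by positivity), ← ENNReal.ofReal_mul (by positivity)] at h1
  refine (ENNReal.mul_le_mul_iff_right (a := ENNReal.ofReal (C / R ^ n)) (by positivity)
    ENNReal.ofReal_ne_top).1 (le_trans (le_of_eq ?_) h1)
  rw [← ENNReal.ofReal_mul (by positivity), show Module.finrank ℝ (Cm n) = 2 * n by
    rw [Module.finrank_pi_fintype, Complex.finrank_real_complex]; simp [mul_comm]]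
  congr 1
  rw [show 2 * (4 * n * r ^ 2) = 8 * n * r ^ 2 by ring, pow_succ (8 * n * r ^ 2),
    mul_pow (8 * n : ℝ), ← pow_mul]
  field_simp
  linear_combination (-16 : ℝ) * d1

end J

open J Vale.Agent.P272.K

/-- **MV** -/
theorem jmv : JMV := fun n => by
  rcases n.eq_zero_or_pos with rfl | hn
  · refine ⟨1, one_pos, fun q U K s u z₀ R _ _ _ _ h0 _ _ _ _ => ?_⟩
    rw [show {z ∈ U | nsq (z - z₀) + nsq (s z - s z₀) ≤ R ^ 2} = univ from
      eq_univ_of_forall fun z => by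
        rw [Subsingleton.elim z z₀]
        exact ⟨h0, by simpa [nsq] using sq_nonneg R⟩]
    simp [volume_pi, Measure.pi_univ, fun z => congrArg u (Subsingleton.elim z z₀)]
  obtain ⟨c, c0, h⟩ := mv_pos hn
  refine ⟨c, c0, fun q U K s u z₀ R hU hs hu pu h0 hR hK hKU hS => ?_⟩
  have e1 : ∀ z, nsq (Fin.append z (s z) - Fin.append z₀ (s z₀)) =
      nsq (z - z₀) + nsq (s z - s z₀) := fun z => by simp [nsq, Fin.sum_univ_add]
  have hG : AnalyticOnNhd ℂ (fun z => Fin.append z (s z)) U := fun z hz =>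
    analyticAt_pi_iff.2 (Fin.addCases (fun i => by
      simpa using analyticAt_pi_iff.1 (analyticAt_id (z := z)) i)
      fun i => by simpa using analyticAt_pi_iff.1 (hs z hz) i)
  have e2 : ∀ z ∈ U, cHess (fun z => nsq (z - z₀) + nsq (s z - s z₀)) z = 1 + pb (jm s z) 1 :=
    fun z hz => by
      rw [cHess_add ((sm_nsq z₀).contDiffAt.of_le two_le) ((sm_rad (hs z hz) _).of_le two_le),
        hess_nsq, hess_rad (hs z hz)]
  have h1 := h _ U K _ u z₀ (R ^ 2) hU hG hu pu h0 (by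
    rw [← hess_rad (hG z₀ h0) (Fin.append z₀ (s z₀)), funext e1, e2 z₀ h0]
    exact PosDef.one.add_posSemidef (pb_psd _ .one)) (by positivity) hK hKU (by simpa only [e1])
  simp only [e1, ← pow_mul] at h1
  refine h1.trans_eq (setLIntegral_congr_fun ?_ fun z hz => by simp only [e2 z hz.1])
  exact (hU.measurableSet.diff ((Sm.cont fun z hz => sm_rad (hG z hz)
    (Fin.append z₀ (s z₀))).isOpen_inter_preimage hU (isOpen_Ioi (a := R ^ 2))).measurableSet).congr
    (Set.ext fun z => by simp +contextual [e1])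

end Vale.Agent.P284Z
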