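import Vale.Agent.P284Z.J.JA
import Vale.Agent.P284Z.J.M0
import Vale.Agent.P284Z.J.MV

/-!
# P284Z, block J
-/

namespace Vale.Agent.P284Z

/-- **J** -/
theorem stJ : StJ := ⟨ja, jb, jmv, fun _ _ _ _ _ _ _ _ C => ⟨J.jm_of (J.m0 C), jg C⟩⟩

end Vale.Agent.P284Z
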