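import Vale.Agent.P284Z.J.Spec
import Vale.Agent.P284Z.A.Tr
import Mathlib.Analysis.Calculus.BumpFunction.FiniteDimension

/-!
# P284Z, block JG: charts, smooth functions, the invariant partition of unity
-/

set_option linter.all false

open scoped ContDiff Topology
open Filter Set Function Metric

noncomputable section

namespace Vale.Agent.P284Z.JGx

open Vale.Agent.P272.K A

variable {n : ℕ} {Γ E : Type} [Group Γ] [TopologicalSpace E] [MulAction Γ E] {C : Cov n Γ E}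
  {γ g : Γ} {a b : C.I} {z : Cm n} {y : E} {K Ω : Set E}

variable (C) in
/-- the chart `a` of the sheet `γ` -/
def ch (γ : Γ) (a : C.I) : OpenPartialHomeomorph E (Cm n) where
  toFun := C.co γ a
  invFun := C.pt γ a
  source := {y | γ⁻¹ • y ∈ (C.e a).source}
  target := C.B 4 a
  map_source' _ h := of_tgt ((C.e a).map_source h)
  map_target' z h := by
    show γ⁻¹ • γ • (C.e a).symm z ∈ (C.e a).source
    rw [inv_smul_smul]
    exact (C.e a).map_target (tgt h)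
  left_inv' y h := by
    show γ • (C.e a).symm (C.e a (γ⁻¹ • y)) = y
    rw [(C.e a).left_inv h, smul_inv_smul]
  right_inv' z h := by
    show C.e a (γ⁻¹ • γ • (C.e a).symm z) = z
    rw [inv_smul_smul, (C.e a).right_inv (tgt h)]
  open_source := (C.e a).open_source.preimage (C.cont γ⁻¹)
  open_target := isOpen_ball
  continuousOn_toFun := (C.e a).continuousOn.comp (C.cont γ⁻¹).continuousOn fun _ h => h
  continuousOn_invFun := fun _ h => (pt_cont γ h).continuousWithinAt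

theorem img (γ : Γ) (a : C.I) : C.pt γ a '' C.B 4 a = (ch C γ a).source :=
  (ch C γ a).symm_image_target_eq_source

theorem inj_pt (γ : Γ) (a : C.I) : InjOn (C.pt γ a) (C.B 4 a) := (ch C γ a).symm.injOn

theorem B14 (a : C.I) : C.B 1 a ⊆ C.B 4 a := ball_subset_ball (by linarith [C.r_pos a])

theorem exists_pt (y : E) : ∃ γ a, ∃ z ∈ C.B 1 a, y = C.pt γ a z := by
  obtain ⟨γ, a, z, hz, h⟩ := C.cover y
  exact ⟨γ, a, z, by rwa [Cov.B, one_mul], h⟩

theorem ch₀_spec (y : E) : (C.ch₀ y).2.2 ∈ C.B 4 (C.ch₀ y).2.1 ∧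
    C.pt (C.ch₀ y).1 (C.ch₀ y).2.1 (C.ch₀ y).2.2 = y := by
  obtain ⟨h1, h2⟩ := (C.cover y).choose_spec.choose_spec.choose_spec
  exact ⟨B14 _ (by rwa [Cov.B, one_mul]), h2.symm⟩

theorem pt_tr (h : C.Ov g a b z) (γ : Γ) : C.pt γ b (C.tr g a b z) = C.pt (γ * g) a z := by
  rw [pt_mul, ← ov_symm h]; rfl

theorem pt_tr_ev (h : C.Ov g a b z) (γ : Γ) {V : Type} (u : E → V) :
    (fun w => u (C.pt (γ * g) a w)) =ᶠ[𝓝 z] fun w => u (C.pt γ b (C.tr g a b w)) :=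
  (ov_ev h).mono fun _ hw => congrArg u (pt_tr hw γ).symm

theorem contAt {V : Type} [TopologicalSpace V] {f : E → V} (hz : z ∈ C.B 4 a)
    (h : ContinuousAt (fun w => f (C.pt γ a w)) z) : ContinuousAt f (C.pt γ a z) := by
  have h1 := (ch C γ a).map_target hz
  refine ((ch C γ a).symm.continuousAt_iff_continuousAt_comp_right h1).2 ?_
  rw [show (ch C γ a).symm.symm ((ch C γ a).symm z) = z from (ch C γ a).right_inv hz]
  exact h

theorem open_pre (γ : Γ) (a : C.I) (hΩ : IsOpen Ω) : IsOpen {z ∈ C.B 4 a | C.pt γ a z ∈ Ω} :=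
  (ch C γ a).isOpen_inter_preimage_symm hΩ

variable (C) in
/-- the compact piece of a chart -/
def cp (γ : Γ) (a : C.I) : Set E := C.pt γ a '' closedBall (C.c a) (1 * C.r a)

theorem cb4 (a : C.I) : closedBall (C.c a) (1 * C.r a) ⊆ C.B 4 a :=
  closedBall_subset_ball (by linarith [C.r_pos a])

theorem cp_compact (γ : Γ) (a : C.I) : IsCompact (cp C γ a) :=
  (isCompact_closedBall _ _).image_of_continuousOn fun _ h => (pt_cont γ (cb4 a h)).continuousWithinAt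

theorem cp_cover (y : E) : ∃ γ a, y ∈ cp C γ a := by
  obtain ⟨γ, a, z, hz, h⟩ := exists_pt (C := C) y
  exact ⟨γ, a, z, ball_subset_closedBall hz, h.symm⟩

theorem mem_cp : γ⁻¹ • y ∈ cp C 1 a ↔ y ∈ cp C γ a :=
  exists_congr fun z => and_congr_right fun _ => by rw [eq_inv_smul_iff, ← pt_mul, mul_one]

variable (C) in
theorem fin_sheets (hK : IsCompact K) : ∃ S : Finset Γ, ∀ y ∈ K, ∀ γ ∉ S, ∀ a, y ∉ cp C γ a := by
  have h := C.proper (K ∪ ⋃ a, cp C 1 a) (hK.union (isCompact_iUnion fun a => cp_compact 1 a))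
  refine ⟨h.toFinset, fun y hy γ hγ a ha => hγ (h.mem_toFinset.2 ⟨γ⁻¹ • y, ?_, ?_⟩)⟩
  · exact Or.inr (mem_iUnion.2 ⟨a, mem_cp.2 ha⟩)
  · rw [smul_inv_smul]
    exact Or.inl hy

theorem exists_cpt (C : Cov n Γ E) (y : E) : ∃ K, IsCompact K ∧ K ∈ 𝓝 y := by
  obtain ⟨γ, a, z, hz, rfl⟩ := exists_pt (C := C) y
  refine ⟨_, cp_compact γ a, mem_of_superset ?_ (image_mono ball_subset_closedBall)⟩
  exact ((ch C γ a).isOpen_image_symm_of_subset_target isOpen_ball (B14 a)).mem_nhds ⟨z, hz, rfl⟩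

theorem sigmaCompact (C : Cov n Γ E) [Countable Γ] : SigmaCompactSpace E := by
  refine SigmaCompactSpace.of_countable (range fun i : Γ × C.I => cp C i.1 i.2) (countable_range _)
    (by rintro _ ⟨i, rfl⟩; exact cp_compact _ _) (eq_univ_of_forall fun y => ?_)
  obtain ⟨γ, a, h⟩ := cp_cover (C := C) y
  exact ⟨_, ⟨(γ, a), rfl⟩, h⟩

/-! ### smooth functions -/

section sm
variable {V : Type} [NormedAddCommGroup V] [NormedSpace ℝ V] {f f' : E → V}

theorem sm_cont (h : C.SmAt f y) : ContinuousAt f y := by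
  obtain ⟨h1, h2⟩ := ch₀_spec (C := C) y
  have := contAt h1 (h _ _ _ h1 h2).continuousAt
  rwa [h2] at this

theorem ev_pt (hz : z ∈ C.B 4 a) {P : E → Prop} (h : ∀ᶠ y in 𝓝 (C.pt γ a z), P y) :
    ∀ᶠ w in 𝓝 z, P (C.pt γ a w) := (pt_cont γ hz).eventually h

theorem sm_congr (h : C.SmAt f y) (e : f' =ᶠ[𝓝 y] f) : C.SmAt f' y := fun γ a z hz hy =>
  (h γ a z hz hy).congr_of_eventuallyEq (ev_pt (P := fun y => f' y = f y) hz (hy ▸ e))

theorem sm_smul (h : C.SmAt f (g • y)) : C.SmAt (fun y => f (g • y)) y := fun γ a z hz hy => by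
  simpa only [pt_mul] using h (g * γ) a z hz (by rw [pt_mul, hy])

theorem tr_sm (h : C.Ov g a b z) : ContDiffAt ℝ ∞ (C.tr g a b) z :=
  ((tr_an h).contDiffAt (n := ∞)).restrict_scalars ℝ

end sm

variable (C) in
theorem exists_bump [T2Space E] (a : C.I) : ∃ φ : E → ℝ, (∀ y, C.SmAt φ y) ∧ (∀ y, 0 ≤ φ y) ∧
    ∀ y, φ y ≠ 0 ↔ y ∈ C.pt 1 a '' C.B 1 a := by
  classical
  obtain ⟨β, h1, h2, h3⟩ := IsOpen.exists_contDiff_support_eq (n := ⊤) (s := C.B 1 a) isOpen_ball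
  have k : ∀ y, (if y ∈ (C.e a).source then β (C.e a y) else 0) ≠ 0 ↔
      y ∈ C.pt 1 a '' C.B 1 a := fun y => by
    constructor
    · intro h
      have hy : y ∈ (C.e a).source := by
        by_contra hy
        exact h (if_neg hy)
      rw [if_pos hy, ← mem_support, h1] at h
      exact ⟨_, h, by rw [pt_one, (C.e a).left_inv hy]⟩
    · rintro ⟨z, hz, rfl⟩
      rwa [pt_one, if_pos ((C.e a).map_target (tgt (B14 a hz))),
        (C.e a).right_inv (tgt (B14 a hz)), ← mem_support, h1]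
  refine ⟨fun y => if y ∈ (C.e a).source then β (C.e a y) else 0, ?_, fun y => ?_, k⟩
  · rintro _ γ b z hz rfl
    by_cases h : C.pt γ b z ∈ (C.e a).source
    · refine (h2.contDiffAt.comp z (tr_sm ⟨hz, h⟩)).congr_of_eventuallyEq ?_
      exact (ov_ev ⟨hz, h⟩).mono fun w hw => if_pos hw.2
    · refine (contDiffAt_const (c := 0)).congr_of_eventuallyEq (ev_pt (P := fun y =>
        (if y ∈ (C.e a).source then β (C.e a y) else 0) = 0) hz ?_)
      have : C.pt γ b z ∉ cp C 1 a := by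
        rintro ⟨w, hw, e⟩
        exact h (e ▸ pt_one a w ▸ (C.e a).map_target (tgt (cb4 a hw)))
      filter_upwards [(cp_compact 1 a).isClosed.isOpen_compl.mem_nhds this] with y hy
      by_contra h'
      exact hy (image_mono ball_subset_closedBall ((k y).1 h'))
  · beta_reduce
    split_ifs
    · exact (h3 ⟨_, rfl⟩).1
    · exact le_rfl

variable (C) in
/-- the invariant partition of unity -/
theorem pu [T2Space E] : ∃ ψ : C.I → E → ℝ, (∀ a y, C.SmAt (ψ a) y) ∧ (∀ a y, 0 ≤ ψ a y) ∧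
    (∀ a y, ψ a y ≠ 0 ↔ y ∈ C.pt 1 a '' C.B 1 a) ∧
    ∀ y, ∃ S : Finset Γ, ∀ᶠ y' in 𝓝 y, (∀ γ ∉ S, ∀ a, ψ a (γ⁻¹ • y') = 0) ∧
      ∑ γ ∈ S, ∑ a, ψ a (γ⁻¹ • y') = 1 := by
  choose φ h1 h2 h3 using exists_bump C
  obtain ⟨σ, hσ⟩ : ∃ σ : E → ℝ, ∀ y, σ y = ∑ᶠ γ : Γ, ∑ a, φ a (γ⁻¹ • y) := ⟨_, fun _ => rfl⟩
  have loc : ∀ y, ∃ S : Finset Γ, ∀ᶠ y' in 𝓝 y, (∀ γ ∉ S, ∀ a, φ a (γ⁻¹ • y') = 0) ∧
      σ y' = ∑ γ ∈ S, ∑ a, φ a (γ⁻¹ • y') := fun y => by
    obtain ⟨K, hK, hy⟩ := exists_cpt C y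
    obtain ⟨S, hS⟩ := fin_sheets C hK
    refine ⟨S, mem_of_superset hy fun y' hy' => ?_⟩
    have k : ∀ γ ∉ S, ∀ a, φ a (γ⁻¹ • y') = 0 := fun γ hγ a => by
      by_contra h
      exact hS y' hy' γ hγ a (mem_cp.1 (image_mono ball_subset_closedBall ((h3 a _).1 h)))
    refine ⟨k, (hσ y').trans (finsum_eq_sum_of_support_subset _ fun γ hγ => ?_)⟩
    by_contra h
    exact hγ (Finset.sum_eq_zero fun a _ => k γ h a)
  have inv : ∀ (g : Γ) y, σ (g⁻¹ • y) = σ y := fun g y => by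
    rw [hσ, hσ, ← finsum_comp_equiv (Equiv.mulLeft g)
      (f := fun γ : Γ => ∑ a, φ a (γ⁻¹ • y))]
    simp only [Equiv.coe_mulLeft, mul_inv_rev, mul_smul]
  have pos : ∀ y, 0 < σ y := fun y => by
    obtain ⟨S, hS⟩ := loc y
    obtain ⟨k1, k2⟩ := hS.self_of_nhds
    obtain ⟨γ, a, z, hz, e⟩ := exists_pt (C := C) y
    have k3 : φ a (γ⁻¹ • y) ≠ 0 :=
      (h3 a _).2 ⟨z, hz, by rw [e, ← pt_mul, inv_mul_cancel]⟩
    rw [k2]
    refine Finset.sum_pos' (fun γ _ => Finset.sum_nonneg fun a _ => h2 _ _) ⟨γ, ?_,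
      Finset.sum_pos' (fun a _ => h2 _ _) ⟨a, Finset.mem_univ a, (h2 _ _).lt_of_ne' k3⟩⟩
    by_contra h
    exact k3 (k1 γ h a)
  have sm : ∀ y, C.SmAt σ y := fun y => by
    obtain ⟨S, hS⟩ := loc y
    refine sm_congr (f := fun y' => ∑ γ ∈ S, ∑ a, φ a (γ⁻¹ • y')) (fun g b z hz e => ?_)
      (hS.mono fun _ h => h.2)
    exact ContDiffAt.sum fun γ _ => ContDiffAt.sum fun a _ => sm_smul (h1 a _) g b z hz e
  refine ⟨fun a y => φ a y / σ y, fun a y g b z hz e => (h1 a y g b z hz e).div (sm y g b z hz e)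
    (pos _).ne', fun a y => div_nonneg (h2 a y) (pos y).le, fun a y => ?_, fun y => ?_⟩
  · rw [← h3, div_ne_zero_iff, and_iff_left (pos y).ne']
  · obtain ⟨S, hS⟩ := loc y
    refine ⟨S, hS.mono fun y' h => ⟨fun γ hγ a => ?_, ?_⟩⟩
    · simp only [h.1 γ hγ a, zero_div]
    · simp only [inv, ← Finset.sum_div, ← h.2, div_self (pos y').ne']

end Vale.Agent.P284Z.JGx
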