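import Vale.Agent.P284Z.J.Spec
import Vale.Agent.P284Z.D.Alg
import Mathlib.Data.Matrix.ColumnRowPartitioned

/-!
# P284Z, block J: algebra of pull-backs
-/

set_option linter.all false

open scoped ComplexOrder ComplexConjugate
open Function Matrix

noncomputable section

namespace Vale.Agent.P284Z

open Vale.Agent.P272.K Vale.Agent.P284.H650 J

namespace JAx

variable {n m d q : ℕ} {α β : Type} [Fintype α] [DecidableEq α] [Fintype β] [DecidableEq β]

theorem eq_sum (M : Mx m) : M = ∑ l, rk1 (fun j => M j l) (Pi.single l 1) := by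
  ext j l
  simp [rk1, Matrix.sum_apply, Pi.single_apply]

theorem ml_ext (F G : MultilinearMap ℂ (fun _ : α => Mx m) ℂ)
    (h : ∀ u c : α → Cm m, F (fun i => rk1 (u i) (c i)) = G fun i => rk1 (u i) (c i))
    (X : α → Mx m) :
    F X = G X := by
  rw [show X = fun i => ∑ l, rk1 (fun j => X i j l) (Pi.single l 1) from
    funext fun i => eq_sum (X i), F.map_sum, G.map_sum]
  exact Finset.sum_congr rfl fun r _ => h _ _

/-- too many slots with the left factor `Sᵀ` -/
theorem van_left (S : Matrix (Fin q) (Fin n) ℂ) (X : Fin n → Mx n) (ι : Option (Fin q) → Fin n)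
    (hι : Injective ι) (h : ∀ o, ∃ Y, X (ι o) = Sᵀ * Y) : MD X = 0 := by
  choose Y hY using h
  rw [← mdL_apply, show X = fun i => ∑ l, rk1 (fun j => X i j l) (Pi.single l 1) from
    funext fun i => eq_sum (X i), (mdL n).map_sum]
  refine Finset.sum_eq_zero fun r _ => ?_
  rw [mdL_apply, MD_rk1, det_eq_zero_of_not_linearIndependent_rows fun h => ?_, zero_mul]
  have h1 : LinearIndependent ℂ (Sᵀ.mulVecLin ∘ fun o b => Y o b (r (ι o))) := by
    refine (congrArg (fun v : Option (Fin q) → Cm n => LinearIndependent ℂ v)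
      (funext fun o => funext fun j => ?_)).mp (h.comp ι hι)
    simp [hY, mul_apply, vecMul, dotProduct, mul_comm]
  simpa using h1.of_comp.fintype_card_le_finrank

theorem van_right (S : Matrix (Fin q) (Fin n) ℂ) (X : Fin n → Mx n) (ι : Option (Fin q) → Fin n)
    (hι : Injective ι) (h : ∀ o, ∃ Y, X (ι o) = Y * S) : MD X = 0 := by
  rw [← MD_transpose]
  exact van_left S _ ι hι fun o => (h o).elim fun Y hY => ⟨Yᵀ, by rw [hY, transpose_mul]⟩

theorem van {S : Matrix (Fin q) (Fin n) ℂ} {X : Fin n → Mx n} {ι : Fin q → Fin n} {k : Fin n}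
    (hι : Injective ι) (hk : ∀ b, ι b ≠ k) (h : ∀ b, ∃ H, X (ι b) = pb S H)
    (A : Matrix (Fin q) (Fin n) ℂ) (B : Matrix (Fin n) (Fin q) ℂ) :
    MD (update X k (Sᵀ * A)) = 0 ∧ MD (update X k (B * S.map (starRingEnd ℂ))) = 0 := by
  have h1 : Injective fun o : Option (Fin q) => o.elim k ι := by
    rintro (_ | a) (_ | b) e
    · rfl
    · exact absurd e.symm (hk b)
    · exact absurd e (hk a)
    · exact congrArg some (hι e)
  refine ⟨van_left S _ _ h1 ?_, van_right (S.map (starRingEnd ℂ)) _ _ h1 ?_⟩ <;> rintro (_ | b)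
  · exact ⟨A, update_self ..⟩
  · exact (h b).elim fun H hH => ⟨_, (update_of_ne (hk b) ..).trans (hH.trans (Matrix.mul_assoc ..))⟩
  · exact ⟨B, update_self ..⟩
  · exact (h b).elim fun H hH => ⟨_, (update_of_ne (hk b) ..).trans hH⟩

/-- two groups of slots -/
def Ψ (e : α ⊕ β ≃ Fin n) (A : α → Mx n) (B : β → Mx n) : ℂ := MD fun i => Sum.elim A B (e.symm i)

theorem Ψ_swap (e : α ⊕ β ≃ Fin n) (A : α → Mx n) (B : β → Mx n) :
    Ψ ((Equiv.sumComm β α).trans e) B A = Ψ e A B := by
  refine congrArg MD (funext fun i => ?_)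
  change Sum.elim B A (e.symm i).swap = _
  cases e.symm i <;> rfl

/-- multilinearity in the second group -/
def LB (e : α ⊕ β ≃ Fin n) (A : α → Mx n) : MultilinearMap ℂ (fun _ : β => Mx n) ℂ :=
  ((mdL n).domDomCongr e.symm).currySum A

theorem LB_apply (e : α ⊕ β ≃ Fin n) (A : α → Mx n) (B : β → Mx n) : LB e A B = Ψ e A B :=
  mdL_apply _

theorem Ψ_rk1 (e : α ⊕ β ≃ Fin n) (x y : α → Cm n) (x' y' : β → Cm n) :
    Ψ e (fun a => rk1 (x a) (y a)) (fun b => rk1 (x' b) (y' b)) =
      ((fromRows (of x) (of x')).submatrix e.symm id).det *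
        ((fromRows (of y) (of y')).submatrix e.symm id).det := by
  refine Eq.trans (congrArg MD (funext fun i => ?_))
    (MD_rk1 (fun i => Sum.elim x x' (e.symm i)) fun i => Sum.elim y y' (e.symm i))
  cases e.symm i <;> rfl

theorem det_rows (e : α ⊕ β ≃ Fin n) (x : Matrix α (Fin n) ℂ) (u : Matrix β β ℂ)
    (S : Matrix β (Fin n) ℂ) : ((fromRows x (u * S)).submatrix e.symm id).det =
      u.det * ((fromRows x S).submatrix e.symm id).det := by
  have h : fromRows x (u * S) = fromBlocks 1 0 0 u * fromRows x S := by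
    simp [fromBlocks_mul_fromRows]
  rw [h, ← submatrix_mul_equiv _ _ _ e.symm, det_mul, det_submatrix_equiv_self,
    det_fromBlocks_zero₂₁, det_one, one_mul]

/-- the pull-back as a linear map -/
def pbL (S : Matrix (Fin q) (Fin n) ℂ) : Mx q →ₗ[ℂ] Mx n where
  toFun := pb S
  map_add' H H' := by simp [pb, Matrix.mul_add, Matrix.add_mul]
  map_smul' c H := by simp [pb]

theorem pb_rk1 (S : Matrix (Fin q) (Fin n) ℂ) (u c : Cm q) :
    pb S (rk1 u c) = rk1 (u ᵥ* S) (c ᵥ* S.map (starRingEnd ℂ)) := by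
  ext j l
  simp only [pb, rk1, mul_apply, of_apply, transpose_apply, vecMul, dotProduct, Finset.sum_mul,
    Finset.mul_sum]
  exact Finset.sum_congr rfl fun _ _ => Finset.sum_congr rfl fun _ _ => by ring

/-- factorisation -/
theorem key (e : α ⊕ Fin q ≃ Fin n) (S : Matrix (Fin q) (Fin n) ℂ) (A : α → Mx n)
    (H : Fin q → Mx q) : Ψ e A (fun b => pb S (H b)) =
      Ψ e A (fun b => rk1 (S b) (S.map (starRingEnd ℂ) b)) * MD H := by
  rw [← LB_apply, ← mdL_apply H, ← smul_eq_mul]
  refine ml_ext ((LB e A).compLinearMap fun _ => pbL S) ((_ : ℂ) • mdL q) (fun u c => ?_) H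
  change LB e A (fun b => pb S (rk1 (u b) (c b))) = _ * mdL q _
  rw [LB_apply, mdL_apply, MD_rk1, ← Ψ_swap, ← Ψ_swap e, ← LB_apply, ← LB_apply, mul_comm,
    ← smul_eq_mul]
  refine ml_ext _ ((_ : ℂ) • LB _ _) (fun x y => ?_) A
  change _ = _ * LB _ _ _
  have h := Ψ_rk1 e x y S (S.map (starRingEnd ℂ))
  rw [LB_apply, LB_apply, Ψ_swap, Ψ_swap, h]
  simp only [pb_rk1]
  rw [Ψ_rk1, show (of fun b => u b ᵥ* S) = of u * S from rfl,
    show (of fun b => c b ᵥ* S.map (starRingEnd ℂ)) = of c * S.map (starRingEnd ℂ) from rfl,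
    det_rows, det_rows]
  exact mul_mul_mul_comm _ _ _ _

theorem key2 (e : Fin d ⊕ Fin q ≃ Fin n) (T : Matrix (Fin d) (Fin n) ℂ)
    (S : Matrix (Fin q) (Fin n) ℂ) (G : Fin d → Mx d) (H : Fin q → Mx q) :
    Ψ e (fun l => pb T (G l)) (fun b => pb S (H b)) =
      (‖(stk e T S).det‖ ^ 2 : ℝ) * MD G * MD H := by
  have h1 : (fromRows (of T) (of S)).submatrix e.symm id = stk e T S := by
    ext i j
    change Sum.elim T S (e.symm i) j = Sum.elim _ _ (e.symm i)
    cases e.symm i <;> rfl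
  have h2 : (fromRows (of (T.map (starRingEnd ℂ))) (of (S.map (starRingEnd ℂ)))).submatrix e.symm id
      = (starRingEnd ℂ).mapMatrix (stk e T S) := by
    ext i j
    change Sum.elim (T.map (starRingEnd ℂ)) (S.map (starRingEnd ℂ)) (e.symm i) j =
      conj (Sum.elim (fun l => T l j) (fun b => S b j) (e.symm i))
    cases e.symm i <;> rfl
  have h3 := Ψ_rk1 e T (T.map (starRingEnd ℂ)) S (S.map (starRingEnd ℂ))
  rw [h1, h2, ← RingHom.map_det, Complex.mul_conj'] at h3
  rw [key, ← Ψ_swap, key, Ψ_swap, h3]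
  push_cast
  rfl

theorem MD_one : MD (fun _ : Fin q => (1 : Mx q)) = q.factorial := by
  rw [MD_const, det_one, mul_one]

theorem MD_trace (b : Fin q) (H : Mx q) :
    (q : ℂ) * MD (update (fun _ => 1) b H) = H.trace * q.factorial := by
  have h1 : ∀ c : Fin q, MD (update (fun _ => 1) c H) =
      ∑ s : Equiv.Perm (Fin q), H (s.symm c) (s.symm c) := fun c => by
    refine Finset.sum_congr rfl fun s _ => ?_
    have : (of fun i j => update (fun _ => (1 : Mx q)) c H (s i) i j) =
        (1 : Mx q).updateRow (s.symm c) (∑ j, H (s.symm c) j • (1 : Mx q) j) := by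
      ext i j
      by_cases h : i = s.symm c
      · subst h
        simp [one_apply]
      · rw [updateRow_ne h, of_apply, update_of_ne fun e => h (by rw [← e]; simp)]
    rw [this, det_updateRow_sum, det_one, smul_eq_mul, mul_one]
  have h2 : ∀ c : Fin q, MD (update (fun _ => 1) b H) = MD (update (fun _ => 1) c H) := fun c => by
    rw [← MD_comp _ (Equiv.swap b c)]
    refine congrArg MD (funext fun i => ?_)
    by_cases h : i = c
    · subst h
      simp
    · rw [update_of_ne h, update_of_ne fun e => h (by simpa using congrArg (Equiv.swap b c) e)]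
  calc _ = ∑ c : Fin q, MD (update (fun _ => 1) c H) := by simp [← h2]
    _ = ∑ s : Equiv.Perm (Fin q), H.trace := by
      simp only [h1]
      rw [Finset.sum_comm]
      exact Finset.sum_congr rfl fun s _ => s.symm.sum_comp fun i => H i i
    _ = _ := by simp [Fintype.card_perm, mul_comm]

/-- the complement of the range -/
def eqv (ι : Fin q → Fin n) (h : Injective ι) : {i // i ∉ Set.range ι} ⊕ Fin q ≃ Fin n :=
  ((Equiv.sumComm _ _).trans ((Equiv.ofInjective ι h).sumCongr (Equiv.refl _))).trans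
    (Equiv.sumCompl _)

theorem MD_eq_Ψ (e : α ⊕ β ≃ Fin n) (X : Fin n → Mx n) :
    MD X = Ψ e (fun a => X (e (.inl a))) fun b => X (e (.inr b)) := by
  refine congrArg MD (funext fun i => ?_)
  obtain ⟨_ | _, rfl⟩ := e.surjective i <;> simp

theorem fac (S : Matrix (Fin q) (Fin n) ℂ) (X : Fin n → Mx n) {ι : Fin q → Fin n}
    (h : Injective ι) : ∃ κ : ℂ, ∀ (Y : Fin n → Mx n) (H : Fin q → Mx q),
      (∀ i, i ∉ Set.range ι → Y i = X i) → (∀ b, Y (ι b) = pb S (H b)) → MD Y = κ * MD H := by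
  refine ⟨_, fun Y H h1 h2 => (MD_eq_Ψ (eqv ι h) Y).trans (Eq.trans ?_
    (key (eqv ι h) S (fun a => X a) H))⟩
  exact congrArg₂ _ (funext fun a => h1 a a.2) (funext h2)

theorem pb_mul (S : Matrix (Fin q) (Fin n) ℂ) (G : Matrix (Fin m) (Fin q) ℂ) (H : Mx m) :
    pb (G * S) H = pb S (pb G H) := by
  simp only [pb, transpose_mul, Matrix.map_mul, Matrix.mul_assoc]

theorem det_pb (G : Mx q) : (pb G 1).det = (‖G.det‖ ^ 2 : ℝ) := by
  rw [pb, Matrix.mul_one, det_mul, det_transpose,
    show G.map (starRingEnd ℂ) = (starRingEnd ℂ).mapMatrix G from rfl, ← RingHom.map_det,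
    Complex.mul_conj']
  push_cast
  rfl

theorem pb_psd (S : Matrix (Fin q) (Fin n) ℂ) : (pb S 1).PosSemidef := by
  rw [pb, Matrix.mul_one]
  exact posSemidef_self_mul_conjTranspose Sᵀ

theorem stk_mul (e : Fin d ⊕ Fin q ≃ Fin n) (T : Matrix (Fin d) (Fin n) ℂ)
    (S : Matrix (Fin q) (Fin n) ℂ) (M : Mx n) : (stk e T S)ᵀ * M =
      Tᵀ * M.submatrix (fun l => e (.inl l)) id + Sᵀ * M.submatrix (fun b => e (.inr b)) id := by
  ext i j
  simp [mul_apply, ← e.sum_comp, stk]

theorem mul_stk (e : Fin d ⊕ Fin q ≃ Fin n) (T : Matrix (Fin d) (Fin n) ℂ)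
    (S : Matrix (Fin q) (Fin n) ℂ) (M : Matrix (Fin m) (Fin n) ℂ) :
    M * (stk e T S).map (starRingEnd ℂ) =
      M.submatrix id (fun l => e (.inl l)) * T.map (starRingEnd ℂ) +
        M.submatrix id (fun b => e (.inr b)) * S.map (starRingEnd ℂ) := by
  ext i j
  simp [mul_apply, ← e.sum_comp, stk]

theorem two (e : Fin d ⊕ Fin q ≃ Fin n) (T : Matrix (Fin d) (Fin n) ℂ)
    (S : Matrix (Fin q) (Fin n) ℂ) :
    md (blk e (pb T 1) (pb S 1)) = d.factorial * q.factorial * ‖(stk e T S).det‖ ^ 2 := by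
  have h := key2 e T S (fun _ => 1) fun _ => 1
  rw [MD_one, MD_one] at h
  refine (congrArg Complex.re h).trans ?_
  norm_cast
  push_cast
  ring

theorem block (e : Fin d ⊕ Fin q ≃ Fin n) (T : Matrix (Fin d) (Fin n) ℂ)
    (S : Matrix (Fin q) (Fin n) ℂ) (l₀ : Fin d) (H : Mx n) :
    MD (update (blk e (pb T 1) (pb S 1)) (e (.inl l₀)) (pb (stk e T S) H)) =
      ((d - 1).factorial * q.factorial * ‖(stk e T S).det‖ ^ 2 : ℝ) *
        ∑ l, H (e (.inl l)) (e (.inl l)) := by
  let H₁ : Mx d := H.submatrix (fun l => e (.inl l)) fun l => e (.inl l)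
  have h1 : pb (stk e T S) H = pb T H₁ +
      Tᵀ * H.submatrix (fun l => e (.inl l)) (fun b => e (.inr b)) * S.map (starRingEnd ℂ) +
      Sᵀ * (H.submatrix (fun b => e (.inr b)) id * (stk e T S).map (starRingEnd ℂ)) := by
    rw [pb, stk_mul, Matrix.add_mul, Matrix.mul_assoc, Matrix.mul_assoc, mul_stk, Matrix.mul_add,
      pb, Matrix.mul_assoc, Matrix.mul_assoc]
    rfl
  have h2 := van (S := S) (X := blk e (pb T 1) (pb S 1)) (ι := fun b => e (.inr b))
    (k := e (.inl l₀)) (e.injective.comp Sum.inr_injective) (by simp) fun b => ⟨1, by simp [blk]⟩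
  have h3 := key2 e T S (update (fun _ => 1) l₀ H₁) fun _ => 1
  have h4 := MD_trace l₀ H₁
  obtain ⟨d, rfl⟩ : ∃ d', d = d' + 1 := ⟨d - 1, by have := l₀.pos; omega⟩
  rw [Nat.factorial_succ, Nat.cast_mul, mul_left_comm] at h4
  rw [mul_left_cancel₀ (Nat.cast_ne_zero.2 d.succ_ne_zero) h4, MD_one] at h3
  rw [h1, MD_update_add, MD_update_add, (h2 _ 0).1, (h2 0 _).2, add_zero, add_zero, MD_eq_Ψ e]
  refine Eq.trans (congrArg₂ _ (funext fun l => ?_) (funext fun b => by simp [blk]))
    (h3.trans ?_)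
  · by_cases h : l = l₀
    · simp [h]
    · simp [h, blk]
  · push_cast
    change _ * ((∑ l, H (e (.inl l)) (e (.inl l))) * _) * _ = _
    ring

theorem minor_le (e : Fin d ⊕ Fin q ≃ Fin n) (S : Matrix (Fin q) (Fin n) ℂ) (f : Fin q → Fin n) :
    ‖(S.submatrix id f).det‖ ^ 2 ≤ md (blk e 1 (pb S 1)) := by
  have h0 : ∀ T : Matrix (Fin d) (Fin n) ℂ, ∀ i, (blk e (pb T 1) (pb S 1) i).PosSemidef :=
    fun T i => by obtain ⟨_ | _, rfl⟩ := e.surjective i <;> simp [blk, pb_psd]
  by_cases hf : Injective f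
  · obtain ⟨σ, hσ⟩ := Equiv.Perm.exists_extending_pair _ _ (e.injective.comp Sum.inr_injective) hf
    let T : Matrix (Fin d) (Fin n) ℂ := (1 : Mx n).submatrix (fun l => σ (e (.inl l))) id
    let T' : Matrix (Fin q) (Fin n) ℂ := (1 : Mx n).submatrix (fun b => σ (e (.inr b))) id
    have h1 : stk (e.trans σ) T T' = 1 := by
      ext i j
      obtain ⟨_ | _, rfl⟩ := (e.trans σ).surjective i <;>
        simp only [stk, of_apply, Equiv.symm_apply_apply] <;> rfl
    have h2 : 1 - pb T 1 = pb T' 1 := by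
      have := stk_mul (e.trans σ) T T' 1
      rw [h1, transpose_one, Matrix.mul_one] at this
      have h3 : T.map (starRingEnd ℂ) = T := by ext i j; simp [T, one_apply]
      have h4 : T'.map (starRingEnd ℂ) = T' := by ext i j; simp [T', one_apply]
      rw [pb, pb, h3, h4, Matrix.mul_one, Matrix.mul_one]
      exact sub_eq_of_eq_add' this
    have h5 : ((stk e T S).submatrix id σ).submatrix e e = fromBlocks 1 0
        (S.submatrix id fun l => σ (e (.inl l))) (S.submatrix id f) := by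
      ext (i | i) (j | j) <;> simp [stk, T, one_apply, ← hσ]
    have h6 := congrArg (fun M => ‖det M‖) h5
    have h7 : ‖((Equiv.Perm.sign σ : ℤ) : ℂ)‖ = 1 := by
      rcases Int.units_eq_one_or (Equiv.Perm.sign σ) with e | e <;> simp [e]
    simp only [det_submatrix_equiv_self, det_permute', det_fromBlocks_zero₁₂, det_one, one_mul,
      norm_mul, h7] at h6
    refine le_trans ?_ (md_mono (h0 T) fun i => ?_)
    · rw [two, h6]
      refine le_mul_of_one_le_left (sq_nonneg _) ?_
      exact_mod_cast Nat.mul_pos d.factorial_pos q.factorial_pos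
    · obtain ⟨_ | _, rfl⟩ := e.surjective i <;> simp [blk, h2, pb_psd, PosSemidef.zero]
  · obtain ⟨a, b, h1, h2⟩ := not_injective_iff.1 hf
    rw [det_zero_of_column_eq h2 fun k => by simp [h1], norm_zero, zero_pow two_ne_zero]
    exact md_nonneg fun i => by
      obtain ⟨_ | _, rfl⟩ := e.surjective i <;> simp [blk, pb_psd, PosSemidef.one]

theorem minor (e : Fin d ⊕ Fin q ≃ Fin n) (S : Matrix (Fin q) (Fin n) ℂ) (ξ : Fin q → Cm n)
    (hξ : ‖ξ‖ ≤ 1) : ‖(Matrix.of fun b k => S.mulVec (ξ k) b).det‖ ^ 2 ≤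
      ((n : ℝ) ^ q) ^ 2 * md (blk e 1 (pb S 1)) := by
  have h0 : 0 ≤ md (blk e 1 (pb S 1)) := md_nonneg fun i => by
    obtain ⟨_ | _, rfl⟩ := e.surjective i <;> simp [blk, pb_psd, PosSemidef.one]
  have h1 : (Matrix.of fun b k => S.mulVec (ξ k) b)ᵀ = of ξ * Sᵀ := by
    ext k b
    simp [mul_apply, mulVec, dotProduct, mul_comm]
  rw [← det_transpose, h1, Ang.det_mul_sum, ← Real.sq_sqrt h0, ← mul_pow]
  refine pow_le_pow_left₀ (norm_nonneg _) ((norm_sum_le _ _).trans
    ((Finset.sum_le_card_nsmul _ _ (√(md (blk e 1 (pb S 1)))) fun f _ => ?_).trans_eq (by simp))) 2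
  rw [norm_mul, norm_prod, ← transpose_submatrix, det_transpose]
  refine (mul_le_of_le_one_left (norm_nonneg _) (Finset.prod_le_one (fun _ _ => norm_nonneg _)
    fun k _ => ?_)).trans (Real.le_sqrt_of_sq_le (minor_le e S f))
  exact (norm_le_pi_norm (ξ k) _).trans ((norm_le_pi_norm ξ k).trans hξ)

theorem cs (X : Fin n → Mx n) (k : Fin n) (hX : ∀ i, i ≠ k → (X i).PosSemidef) (ξ η : Cm n) :
    ‖MD (update X k (rk1 ξ (star η)))‖ ^ 2 ≤
      sl X k (rk1 ξ (star ξ)) * sl X k (rk1 η (star η)) := by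
  let c : PreInnerProductSpace.Core ℂ (Cm n) :=
    { inner := fun x y => MD (update X k (rk1 y (star x)))
      conj_inner_symm := fun x y => by
        rw [← MD_conjTranspose]
        refine congrArg MD (funext fun i => ?_)
        by_cases hi : i = k
        · subst hi
          ext j l
          simp [rk1, mul_comm]
        · simp [update_of_ne hi, (hX i hi).isHermitian.eq]
      re_inner_nonneg := fun x => sl_nonneg hX (posSemidef_vecMulVec_self_star x)
      add_left := fun x y z => by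
        rw [← MD_update_add]
        congr 2
        ext j l
        simp [rk1, mul_add]
      smul_left := fun x y r => by
        rw [← MD_update_smul]
        congr 2
        ext j l
        simp [rk1, mul_left_comm] }
  have h := @InnerProductSpace.Core.inner_mul_inner_self_le ℂ _ _ _ _ c η ξ
  rw [@InnerProductSpace.Core.norm_inner_symm ℂ _ _ _ _ c ξ η, ← sq, mul_comm] at h
  exact h

end JAx

open JAx in
theorem ja : JA where
  vanish n q S X ι k hι hk h x η := by
    have := van hι hk h (vecMulVec x η) (vecMulVec η x)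
    refine ⟨Eq.trans (congrArg (fun M => MD (update X k M)) ?_) this.1,
      Eq.trans (congrArg (fun M => MD (update X k M)) ?_) this.2⟩ <;> ext j l <;>
      simp [rk1, mul_apply, vecMulVec_apply, mulVec, dotProduct, Finset.sum_mul, Finset.mul_sum,
        mul_assoc, mul_comm, mul_left_comm]
  trace n q S X ι hι h b H := by
    obtain ⟨κ, hκ⟩ := fac S X hι
    rw [hκ X (fun _ => 1) (fun _ _ => rfl) h, hκ _ (update (fun _ => 1) b H)
      (fun i hi => update_of_ne (fun e => hi ⟨b, e.symm⟩) ..) fun c => ?_, MD_one, mul_left_comm,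
      MD_trace, mul_left_comm]
    by_cases hc : c = b
    · simp [hc]
    · rw [update_of_ne (hι.ne hc), update_of_ne hc, h]
  scale n q S G X ι hι h := by
    obtain ⟨κ, hκ⟩ := fac S X hι
    rw [hκ X (fun _ => 1) (fun _ _ => rfl) h, hκ _ (fun _ => pb G 1) (fun i hi => if_neg hi)
      fun c => (if_pos ⟨c, rfl⟩).trans (pb_mul ..), MD_one, MD_const, det_pb]
    ring
  two n d q := two
  block n d q := block
  minor n d q e := ⟨_, minor e⟩
  cs n := cs

end Vale.Agent.P284Z
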