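import Vale.Agent.P284Z.J.Ibp

/-!
# P284Z, block J: the capacity estimate
-/

set_option linter.all false

open scoped ContDiff Topology ComplexOrder ComplexConjugate
open Filter Set Function Matrix MeasureTheory

noncomputable section

namespace Vale.Agent.P284Z.J

open Vale.Agent.P272.K Vale.Agent.P284.H650

variable {n : ℕ} {U K : Set (Cm n)} {ℓ : Mx n →ₗ[ℝ] ℝ} {z : Cm n}

/-- positive functionals on matrices -/
structure Pf (ℓ : Mx n →ₗ[ℝ] ℝ) : Prop where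
  pos : ∀ M, M.PosSemidef → 0 ≤ ℓ M
  ct : ∀ M, ℓ Mᴴ = ℓ M

theorem pf_sl {X : Fin n → Mx n} {k : Fin n} (hX : ∀ i, i ≠ k → (X i).PosSemidef) : Pf (sl X k) :=
  ⟨fun _ => sl_nonneg hX, sl_conjTranspose fun i hi => (hX i hi).1⟩

theorem lin_csmul (ℓ : Mx n →ₗ[ℝ] ℝ) (c : ℝ) (M : Mx n) : ℓ ((c : ℂ) • M) = c * ℓ M :=
  ℓ.map_smul c M

theorem Pf.mono (h : Pf ℓ) {M N : Mx n} (hM : (N - M).PosSemidef) : ℓ M ≤ ℓ N := by
  have := h.pos _ hM
  rwa [map_sub, sub_nonneg] at this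

theorem Pf.symm (h : Pf ℓ) (f g : Cm n → ℝ) (z : Cm n) : ℓ (gg f g z) = ℓ (gg g f z) := by
  rw [← gg_symm, h.ct]

theorem Pf.gg_nonneg (h : Pf ℓ) (f : Cm n → ℝ) (z : Cm n) : 0 ≤ ℓ (gg f f z) :=
  h.pos _ (gg_psd f z)

theorem Pf.cs (h : Pf ℓ) (f g : Cm n → ℝ) (z : Cm n) (a b : ℝ) :
    2 * (a * b) * ℓ (gg f g z) ≤ a ^ 2 * ℓ (gg f f z) + b ^ 2 * ℓ (gg g g z) := by
  have h1 := h.pos _ (gg_quad f g z a (-b))
  simp only [map_add, lin_csmul, h.symm g f] at h1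
  linarith

theorem gg_mul_left {f g : Cm n → ℝ} (hf : DifferentiableAt ℝ f z) (hg : DifferentiableAt ℝ g z)
    (h : Cm n → ℝ) :
    gg (fun y => f y * g y) h z = (f z : ℂ) • gg g h z + (g z : ℂ) • gg f h z := by
  ext i j
  simp only [gg, rk1, dzv, Matrix.of_apply, Matrix.add_apply, Matrix.smul_apply, smul_eq_mul,
    AMP.dz_real_mul hf hg]
  ring

theorem gg_add_left {f g : Cm n → ℝ} (hf : DifferentiableAt ℝ f z) (hg : DifferentiableAt ℝ g z)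
    (h : Cm n → ℝ) : gg (fun y => f y + g y) h z = gg f h z + gg g h z := by
  ext i j
  simp only [gg, rk1, dzv, Matrix.of_apply, Matrix.add_apply, AMP.dz_real_add hf hg]
  ring

theorem gg_const_left (c : ℝ) (h : Cm n → ℝ) : gg (fun _ => c) h z = 0 := by
  ext i j
  simp [gg, rk1, dzv, dz_const]

theorem gg_congr_left {f g : Cm n → ℝ} (hf : f =ᶠ[𝓝 z] g) (h : Cm n → ℝ) :
    gg f h z = gg g h z := by
  ext i j
  exact congrArg (· * _) (dz_congr (hf.fun_comp fun x : ℝ => (x : ℂ)))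

theorem cHess_sq {v : Cm n → ℝ} (hv : ContDiffAt ℝ 2 v z) (ℓ : Mx n →ₗ[ℝ] ℝ) :
    ℓ (cHess (fun y => v y ^ 2) z) = 2 * (v z * ℓ (cHess v z)) + 2 * ℓ (gg v v z) := by
  simp only [sq, cHess_mul' hv hv, map_add, lin_csmul]
  ring

/-- `γ` dominates `± w i∂∂̄w` and `i ∂w ∧ ∂̄w` at `z` -/
def Dm (w : Cm n → ℝ) (z : Cm n) (γ : Mx n) : Prop :=
  ∀ ℓ, Pf ℓ → |w z * ℓ (cHess w z)| ≤ ℓ γ ∧ ℓ (gg w w z) ≤ ℓ γ

theorem dm_of_psd {w : Cm n → ℝ} {γ : Mx n} (h1 : (γ - (w z : ℂ) • cHess w z).PosSemidef)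
    (h2 : (γ + (w z : ℂ) • cHess w z).PosSemidef) (h3 : (γ - gg w w z).PosSemidef) : Dm w z γ :=
  fun ℓ hℓ => ⟨by
    have a1 := hℓ.mono h1
    have a2 := hℓ.pos _ h2
    rw [map_add] at a2
    rw [lin_csmul] at a1 a2
    exact abs_le.2 ⟨by linarith, a1⟩, hℓ.mono h3⟩

theorem Dm.mono {w : Cm n → ℝ} {γ δ : Mx n} (h : Dm w z γ) (h1 : ∀ ℓ, Pf ℓ → ℓ γ ≤ ℓ δ) :
    Dm w z δ := fun ℓ hℓ => ⟨(h ℓ hℓ).1.trans (h1 ℓ hℓ), (h ℓ hℓ).2.trans (h1 ℓ hℓ)⟩

theorem Dm.nonneg {w : Cm n → ℝ} {γ : Mx n} (h : Dm w z γ) (hℓ : Pf ℓ) : 0 ≤ ℓ γ :=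
  (abs_nonneg _).trans (h ℓ hℓ).1

theorem dm_ev {w : Cm n → ℝ} {c : ℝ} (h : w =ᶠ[𝓝 z] fun _ => c) {γ : Mx n}
    (hγ : γ.PosSemidef) : Dm w z γ := fun ℓ hℓ => by
  rw [cHess_congr h, gg_congr_left h, C2.cHess_const, gg_const_left, map_zero, mul_zero, abs_zero]
  exact ⟨hℓ.pos _ hγ, hℓ.pos _ hγ⟩

theorem Dm.mul {f g : Cm n → ℝ} {γ δ : Mx n} (hf : ContDiffAt ℝ 2 f z) (hg : ContDiffAt ℝ 2 g z)
    (h1 : Dm f z γ) (h2 : Dm g z δ) : Dm (fun y => f y * g y) z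
      (((2 * g z ^ 2 : ℝ) : ℂ) • γ + ((2 * f z ^ 2 : ℝ) : ℂ) • δ) := fun ℓ hℓ => by
  have df := hf.differentiableAt two_ne_zero
  have dg := hg.differentiableAt two_ne_zero
  obtain ⟨a1, a2⟩ := h1 ℓ hℓ
  obtain ⟨b1, b2⟩ := h2 ℓ hℓ
  have c1 := hℓ.cs f g z (g z) (f z)
  have c2 := hℓ.cs f g z (g z) (-f z)
  have d1 := mul_le_mul_of_nonneg_left a2 (sq_nonneg (g z))
  have d2 := mul_le_mul_of_nonneg_left b2 (sq_nonneg (f z))
  rw [abs_le] at a1 b1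
  have e1 := mul_le_mul_of_nonneg_left a1.1 (sq_nonneg (g z))
  have e2 := mul_le_mul_of_nonneg_left a1.2 (sq_nonneg (g z))
  have e3 := mul_le_mul_of_nonneg_left b1.1 (sq_nonneg (f z))
  have e4 := mul_le_mul_of_nonneg_left b1.2 (sq_nonneg (f z))
  rw [gg_mul_left df dg, cHess_mul' hf hg]
  simp only [map_add, lin_csmul, hℓ.symm _ fun y => f y * g y, gg_mul_left df dg, hℓ.symm g f,
    abs_le]
  refine ⟨⟨?_, ?_⟩, ?_⟩ <;> linarith

/-- the data of the capacity estimate: a cut-off `χ`, two plurisubharmonic functions at bounded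
distance -/
structure CapD (U K : Set (Cm n)) (χ F G : Cm n → ℝ) (L c : ℝ) : Prop where
  hU : IsOpen U
  hK : IsCompact K
  hKU : K ⊆ U
  χ_sm : Sm U χ
  χ_out : ∀ z ∉ K, χ =ᶠ[𝓝 z] fun _ => 0
  χ_le : ∀ z ∈ U, χ z ^ 2 ≤ 1
  F_sm : Sm U F
  G_sm : Sm U G
  F_psd : ∀ z ∈ U, (cHess F z).PosSemidef
  G_psd : ∀ z ∈ U, (cHess G z).PosSemidef
  near : ∀ z ∈ U, |F z - G z| ≤ L
  dom : ∀ z ∈ U, Dm χ z ((c : ℂ) • cHess G z)

variable {χ F G : Cm n → ℝ} {L c : ℝ}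

theorem CapD.pow (h : CapD U K χ F G L c) (hc : 0 ≤ c) {w : Cm n → ℝ} (hw : Sm U w) {γ : Mx n}
    (hz : z ∈ U) (hγ : Dm w z γ) (j : ℕ) : Dm (fun y => χ y ^ (j + 1) * w y) z
      (((4 ^ (j + 1) * c * (χ z ^ j * w z) ^ 2 : ℝ) : ℂ) • cHess G z +
        ((4 ^ (j + 1) * (χ z ^ j) ^ 2 : ℝ) : ℂ) • γ) := by
  induction j with
  | zero =>
    simp only [zero_add, pow_one, pow_zero, one_mul, one_pow, mul_one]
    refine (Dm.mul (h.χ_sm.two hz) (hw.two hz) (h.dom z hz) hγ).mono fun ℓ hℓ => ?_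
    simp only [map_add, lin_csmul]
    have a1 := mul_le_mul_of_nonneg_right (h.χ_le z hz) (hγ.nonneg hℓ)
    have a2 := mul_nonneg (sq_nonneg (w z)) (mul_nonneg hc (hℓ.pos _ (h.G_psd z hz)))
    linarith [hγ.nonneg hℓ]
  | succ j ih =>
    simp only [pow_succ' (χ _) (j + 1), mul_assoc (χ _)]
    refine (Dm.mul (h.χ_sm.two hz) (((h.χ_sm.pow _).mul hw).two hz) (h.dom z hz) ih).mono
      fun ℓ hℓ => ?_
    simp only [map_add, lin_csmul]
    have a0 : (1 : ℝ) ≤ 4 ^ (j + 1) := one_le_pow₀ (by norm_num)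
    have a1 := mul_nonneg (sq_nonneg (χ z ^ (j + 1))) (hγ.nonneg hℓ)
    have a2 := mul_nonneg (sq_nonneg (χ z ^ (j + 1) * w z))
      (mul_nonneg hc (hℓ.pos _ (h.G_psd z hz)))
    have a3 := mul_le_mul_of_nonneg_right a0 a1
    have a4 := mul_le_mul_of_nonneg_right a0 a2
    rw [pow_succ (4 : ℝ) (j + 1)]
    rw [pow_succ' (χ z)] at a1 a2 a3 a4 ⊢
    linarith

theorem CapD.int (h : CapD U K χ F G L c) {v f : Cm n → ℝ} (hv : Sm U v) (hf : Sm U f) (j : ℕ) :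
    IntegrableOn (fun z => (χ z ^ (j + 1) * v z) ^ 2 * f z) U :=
  intOn h.hU h.hK h.hKU ((((h.χ_sm.pow _).mul hv).pow 2).mul hf).cont fun z _ hz => by
    rw [(h.χ_out z hz).eq_of_nhds]
    simp

/-- one integration by parts -/
theorem CapD.step (h : CapD U K χ F G L c) {Y : Fin n → Cm n → Mx n} {k : Fin n}
    (hY : ∀ i, i ≠ k → CF U (Y i)) {v t : Cm n → ℝ} (hv : Sm U v)
    (v0 : ∀ z ∉ K, v =ᶠ[𝓝 z] fun _ => 0) (ht : IntegrableOn t U)
    (hd : ∀ z ∈ U, |v z * sl (fun i => Y i z) k (cHess v z)| ≤ t z ∧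
      |sl (fun i => Y i z) k (gg v v z)| ≤ t z) :
    ∫ z in U, v z ^ 2 * sl (fun i => Y i z) k (cHess F z) ≤
      (∫ z in U, v z ^ 2 * sl (fun i => Y i z) k (cHess G z)) + 4 * L * ∫ z in U, t z := by
  have v1 : ∀ z ∉ K, (fun z => v z ^ 2) =ᶠ[𝓝 z] fun _ => 0 := fun z hz => by
    filter_upwards [v0 z hz] with y hy
    simp [hy]
  have i1 := fun f hf => (ibp (f := fun z => v z ^ 2) (h := f) h.hU hY (hv.pow 2) hf h.hK h.hKU
    fun z hz => .inr (v1 z hz)).1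
  rw [green h.hU hY h.F_sm (hv.pow 2) h.hK h.hKU fun z hz => .inl (v1 z hz),
    green h.hU hY h.G_sm (hv.pow 2) h.hK h.hKU fun z hz => .inl (v1 z hz), ← integral_const_mul,
    ← integral_add (i1 G h.G_sm) (ht.const_mul _)]
  refine setIntegral_mono_on (i1 F h.F_sm) ((i1 G h.G_sm).add (ht.const_mul _))
    h.hU.measurableSet fun z hz => ?_
  have a1 : |sl (fun i => Y i z) k (cHess (fun z => v z ^ 2) z)| ≤ 4 * t z := by
    rw [cHess_sq (hv.two hz)]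
    refine (abs_add_le _ _).trans ?_
    rw [abs_mul, abs_mul 2, abs_two]
    linarith [(hd z hz).1, (hd z hz).2]
  have a2 := (le_abs_self _).trans ((abs_mul _ _).trans_le
    (mul_le_mul (h.near z hz) a1 (abs_nonneg _) ((abs_nonneg _).trans (h.near z hz))))
  linarith

theorem cap_aux (n : ℕ) {L c : ℝ} (hL : 0 ≤ L) (hc : 0 ≤ c) (j : ℕ) :
    ∃ C ≥ (0 : ℝ), ∀ (U K : Set (Cm n)) (χ F G : Cm n → ℝ), CapD U K χ F G L c →
      ∀ s : Finset (Fin n), s.card = j → ∀ (X : Fin n → Cm n → Mx n) (w : Cm n → ℝ)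
        (γ : Cm n → Mx n) (E : ℝ), (∀ i, CF U (X i)) → (∀ i, ∀ z ∈ U, (X i z).PosSemidef) →
        (∀ i ∈ s, X i = cHess G) → Sm U w → CF U γ → (∀ z ∈ U, (γ z).PosSemidef) →
        (∀ z ∈ U, Dm w z (γ z)) → 0 ≤ E →
        (∀ k ∈ s, ∫ z in U, χ z ^ 2 * sl (fun i => X i z) k (γ z) ≤ E) →
        ∫ z in U, (χ z ^ (j + 1) * w z) ^ 2 * md (fun i => s.piecewise (fun _ => cHess F) X i z) ≤
          C * ((∫ z in U, (χ z * w z) ^ 2 * md fun i => X i z) + E) := by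
  induction j with
  | zero =>
    refine ⟨1, zero_le_one, fun U K χ F G h s hs X w γ E _ _ _ _ _ _ _ hE _ => ?_⟩
    rw [Finset.card_eq_zero.1 hs]
    simpa using hE
  | succ j ih =>
    obtain ⟨C, C0, ih⟩ := ih
    refine ⟨C * (1 + 4 * L * (4 ^ (j + 2) * (c + 1))), by positivity,
      fun U K χ F G h s hs X w γ E hX pX hG hw hγ pγ hd hE hb => ?_⟩
    obtain ⟨k, s, hk, rfl, hs'⟩ := Finset.card_eq_succ.1 hs
    obtain ⟨Y, hY⟩ : ∃ Y, Y = s.piecewise (fun _ => cHess F) X := ⟨_, rfl⟩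
    have cY : ∀ i, CF U (Y i) ∧ ∀ z ∈ U, (Y i z).PosSemidef := fun i => by
      rw [hY]
      by_cases hi : i ∈ s
      · rw [s.piecewise_eq_of_mem _ _ hi]
        exact ⟨h.F_sm.cf, h.F_psd⟩
      · rw [s.piecewise_eq_of_notMem _ _ hi]
        exact ⟨hX i, pX i⟩
    have pf : ∀ z ∈ U, Pf (sl (fun i => Y i z) k) := fun z hz =>
      pf_sl fun i _ => (cY i).2 z hz
    have sm : ∀ {Z}, SmM U Z → Sm U fun z => sl (fun i => Y i z) k (Z z) := fun hZ =>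
      sm_sl (fun i _ => (cY i).1.sm) hZ
    have e1 : ∀ (Y : Fin n → Cm n → Mx n) Z z,
        sl (fun i => Y i z) k (Z z) = md fun i => update Y k Z i z := fun Y Z z => by
      rw [sl_apply, apply_update (fun i (M : Cm n → Mx n) => M z) Y k Z |> funext]
    have i1 := ih U K χ F G h s hs' X w γ E hX pX (fun i hi => hG i (by simp [hi])) hw hγ pγ hd hE
      fun i hi => hb i (by simp [hi])
    have i2 := ih U K χ F G h s hs' (update X k γ) (fun _ => 1) (fun _ => 0) 0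
      (fun i => by by_cases hi : i = k <;> simp [hi, hγ, hX])
      (fun i z hz => by by_cases hi : i = k <;> simp [hi, pγ z hz, pX i z hz])
      (fun i hi => by rw [update_of_ne (ne_of_mem_of_not_mem hi hk), hG i (by simp [hi])])
      (.const 1) (by simpa only [← funext fun z => C2.cHess_const (z := z) 0] using (Sm.const 0).cf)
      (fun _ _ => .zero) (fun z _ => dm_ev EventuallyEq.rfl .zero) le_rfl (by simp)
    rw [← s.update_piecewise_of_notMem _ _ hk, ← hY] at i2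
    have e2 : Y = update Y k (cHess G) := by
      rw [← hG k (by simp), ← s.piecewise_eq_of_notMem (fun _ => cHess F) X hk, ← hY,
        update_eq_self]
    rw [← hY, e2] at i1
    rw [s.piecewise_insert, ← hY]
    simp only [← e1, add_zero] at i1 i2 ⊢
    have j1 := h.int hw (sm h.G_sm.cf.sm)
    have j2 := h.int (.const 1) (sm hγ.sm) j
    have i3 := h.step (fun i _ => (cY i).1) ((h.χ_sm.pow (j + 2)).mul hw) (fun z hz => by
      filter_upwards [h.χ_out z hz] with y hy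
      simp [hy]) (((j1 j).const_mul (4 ^ (j + 2) * c)).add (j2.const_mul (4 ^ (j + 2))))
      fun z hz => by
        have := h.pow hc hw hz (hd z hz) (j + 1) _ (pf z hz)
        rw [abs_of_nonneg ((pf z hz).gg_nonneg _ _)]
        simpa only [map_add, lin_csmul, Pi.add_apply, mul_one, mul_assoc] using this
    have i4 := setIntegral_mono_on (j1 (j + 1)) (j1 j) h.hU.measurableSet fun z hz => by
      refine mul_le_mul_of_nonneg_right ?_ ((pf z hz).pos _ (h.G_psd z hz))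
      rw [pow_succ' (χ z), mul_assoc, mul_pow]
      exact mul_le_of_le_one_left (sq_nonneg _) (h.χ_le z hz)
    have i5 : ∫ z in U, (χ z * 1) ^ 2 * sl (fun i => X i z) k (γ z) ≤ E := by
      simpa only [mul_one] using hb k (by simp)
    have i6 : 0 ≤ ∫ z in U, (χ z * w z) ^ 2 * md fun i => X i z :=
      setIntegral_nonneg h.hU.measurableSet fun z hz =>
        mul_nonneg (sq_nonneg _) (md_nonneg fun i => pX i z hz)
    simp only [Pi.add_apply] at i3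
    rw [integral_add ((j1 j).const_mul _) (j2.const_mul _), integral_const_mul,
      integral_const_mul] at i3
    have i7 := i2.trans (mul_le_mul_of_nonneg_left (i5.trans (le_add_of_nonneg_left i6)) C0)
    have b0 : 0 ≤ 4 * L * 4 ^ (j + 2) := by positivity
    have i8 := mul_le_mul_of_nonneg_left i7 b0
    have i9 := mul_le_mul_of_nonneg_left i1 (mul_nonneg b0 hc)
    linarith

/-- **The capacity estimate** -/
theorem cap (n : ℕ) {L c : ℝ} (hL : 0 ≤ L) (hc : 0 ≤ c) :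
    ∃ C ≥ (0 : ℝ), ∀ (U K : Set (Cm n)) (χ F G : Cm n → ℝ), CapD U K χ F G L c →
      ∀ (w : Cm n → ℝ) (γ : Cm n → Mx n) (E : ℝ), Sm U w → CF U γ →
        (∀ z ∈ U, (γ z).PosSemidef) → (∀ z ∈ U, Dm w z (γ z)) → 0 ≤ E →
        (∀ k, ∫ z in U, χ z ^ 2 * sl (fun _ => cHess G z) k (γ z) ≤ E) →
        ∫ z in U, (χ z ^ (n + 1) * w z) ^ 2 * md (fun _ => cHess F z) ≤
          C * ((∫ z in U, (χ z * w z) ^ 2 * md fun _ => cHess G z) + E) := by
  obtain ⟨C, C0, h⟩ := cap_aux n hL hc n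
  refine ⟨C, C0, fun U K χ F G hD w γ E hw hγ pγ hd hE hb => ?_⟩
  simpa using h U K χ F G hD Finset.univ (by simp) (fun _ => cHess G) w γ E (fun _ => hD.G_sm.cf)
    (fun _ => hD.G_psd) (fun _ _ => rfl) hw hγ pγ hd hE fun k _ => hb k

end Vale.Agent.P284Z.J
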