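import Vale.Agent.P284Z.Defs
import Vale.Agent.P284.H650.MixLoc
import Vale.Agent.P272.K.AMP.Calc
import Mathlib.Analysis.InnerProductSpace.Positive

/-!
# P284Z, block J: positivity of mixed discriminants
-/

set_option linter.all false

open scoped ContDiff Topology ComplexOrder ComplexConjugate
open Filter Set Function Matrix

noncomputable section

namespace Vale.Agent.P284Z.J

open Vale.Agent.P272.K Vale.Agent.P284.H650

variable {n : ℕ}

/-- square complex matrices -/
abbrev Mx (n : ℕ) : Type := Matrix (Fin n) (Fin n) ℂ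

/-- the real mixed discriminant: the wedge product of `n` real forms of type `(1,1)` -/
def md (X : Fin n → Mx n) : ℝ := (MD X).re

/-- the mixed discriminant as a function of the slot `k` -/
def sl (X : Fin n → Mx n) (k : Fin n) : Mx n →ₗ[ℝ] ℝ where
  toFun M := md (update X k M)
  map_add' M N := by rw [md, MD_update_add, Complex.add_re]; rfl
  map_smul' c M := by
    rw [md, show c • M = (c : ℂ) • M from rfl, MD_update_smul, Complex.re_ofReal_mul]
    rfl

theorem sl_apply (X : Fin n → Mx n) (k : Fin n) (M : Mx n) : sl X k M = md (update X k M) := rfl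

theorem sl_self (X : Fin n → Mx n) (k : Fin n) : sl X k (X k) = md X := by
  rw [sl_apply, update_eq_self]

theorem sl_update (X : Fin n → Mx n) (k : Fin n) (M : Mx n) : sl (update X k M) k = sl X k := by
  ext N
  rw [sl_apply, sl_apply, update_idem]

theorem sl_congr {X Y : Fin n → Mx n} {k : Fin n} (h : ∀ i, i ≠ k → X i = Y i) :
    sl X k = sl Y k := by
  ext N
  rw [sl_apply, sl_apply]
  congr 1
  funext i
  by_cases hi : i = k
  · subst hi; simp
  · simp [update_of_ne hi, h i hi]

theorem sl_csmul (X : Fin n → Mx n) (k : Fin n) (c : ℝ) (M : Mx n) :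
    sl X k ((c : ℂ) • M) = c * sl X k M := (sl X k).map_smul c M

theorem MD_rk1 (u c : Fin n → Fin n → ℂ) :
    MD (fun i => rk1 (u i) (c i)) = (Matrix.of u).det * (Matrix.of c).det := by
  rw [mul_comm, MD_sym, ← Matrix.det_transpose (Matrix.of c), ← Matrix.det_transpose (Matrix.of u),
    Matrix.det_apply', Matrix.det_apply', Finset.sum_mul_sum]
  refine Finset.sum_congr rfl fun r _ => Finset.sum_congr rfl fun p _ => ?_
  simp only [rk1, Matrix.of_apply, Matrix.transpose_apply, Finset.prod_mul_distrib]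
  ring

theorem md_nonneg {X : Fin n → Mx n} (hX : ∀ i, (X i).PosSemidef) : 0 ≤ md X := by
  choose m v hv using fun i => Matrix.posSemidef_iff_eq_sum_vecMulVec.1 (hX i)
  rw [md, funext hv, ← mdL_apply, (mdL n).map_sum, Complex.re_sum]
  refine Finset.sum_nonneg fun r _ => ?_
  have h1 := MD_rk1 (fun i => v i (r i)) fun i => star (v i (r i))
  have h2 : (Matrix.of fun i => star (v i (r i))).det =
      conj (Matrix.of fun i => v i (r i)).det := by
    rw [RingHom.map_det]
    rfl
  rw [h2, Complex.mul_conj] at h1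
  rw [mdL_apply]
  change 0 ≤ (MD fun i => rk1 (v i (r i)) (star (v i (r i)))).re
  rw [h1, Complex.ofReal_re]
  exact Complex.normSq_nonneg _

theorem psd_update {X : Fin n → Mx n} {k : Fin n} {M : Mx n}
    (hX : ∀ i, i ≠ k → (X i).PosSemidef) (hM : M.PosSemidef) (i : Fin n) :
    (update X k M i).PosSemidef := by
  by_cases hi : i = k
  · subst hi; simpa using hM
  · simpa [update_of_ne hi] using hX i hi

theorem sl_nonneg {X : Fin n → Mx n} {k : Fin n} {M : Mx n}
    (hX : ∀ i, i ≠ k → (X i).PosSemidef) (hM : M.PosSemidef) : 0 ≤ sl X k M :=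
  md_nonneg (psd_update hX hM)

theorem sl_mono {X : Fin n → Mx n} {k : Fin n} {M N : Mx n}
    (hX : ∀ i, i ≠ k → (X i).PosSemidef) (h : (N - M).PosSemidef) : sl X k M ≤ sl X k N := by
  have := sl_nonneg hX h
  rwa [map_sub, sub_nonneg] at this

theorem md_mono {X Y : Fin n → Mx n} (hX : ∀ i, (X i).PosSemidef)
    (h : ∀ i, (Y i - X i).PosSemidef) : md X ≤ md Y := by
  have hY : ∀ i, (Y i).PosSemidef := fun i => by simpa using (hX i).add (h i)
  have key : ∀ s : Finset (Fin n), md X ≤ md (s.piecewise Y X) := fun s => by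
    induction s using Finset.induction_on with
    | empty => simp
    | insert k s hk ih =>
      have hp : ∀ i, (s.piecewise Y X i).PosSemidef := fun i => by
        by_cases hi : i ∈ s
        · simpa [Finset.piecewise_eq_of_mem _ _ _ hi] using hY i
        · simpa [Finset.piecewise_eq_of_notMem _ _ _ hi] using hX i
      rw [Finset.piecewise_insert, ← sl_apply]
      refine ih.trans ?_
      rw [← sl_self _ k, Finset.piecewise_eq_of_notMem _ _ _ hk]
      exact sl_mono (fun i _ => hp i) (h k)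
  simpa using key Finset.univ

theorem md_const (M : Mx n) : md (fun _ => M) = n.factorial * M.det.re := by
  rw [md, MD_const, ← Complex.ofReal_natCast, Complex.re_ofReal_mul]

theorem md_perm (X : Fin n → Mx n) (t : Equiv.Perm (Fin n)) : md (fun i => X (t i)) = md X := by
  rw [md, MD_comp, md]

theorem md_smul (c : Fin n → ℝ) (X : Fin n → Mx n) :
    md (fun i => (c i : ℂ) • X i) = (∏ i, c i) * md X := by
  rw [md, ← mdL_apply, (mdL n).map_smul_univ, mdL_apply, smul_eq_mul, ← Complex.ofReal_prod,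
    Complex.re_ofReal_mul, md]

/-- change of coordinates -/
theorem md_change (X : Fin n → Mx n) (A : Mx n) :
    md (fun i => Aᵀ * X i * A.map (starRingEnd ℂ)) = ‖A.det‖ ^ 2 * md X := by
  have h2 : (A.map (starRingEnd ℂ)).det = conj A.det := by
    rw [RingHom.map_det]
    rfl
  rw [md, MD_congr, h2, Matrix.det_transpose, Complex.mul_conj, Complex.re_ofReal_mul,
    Complex.normSq_eq_norm_sq, md]

theorem sl_conjTranspose {X : Fin n → Mx n} {k : Fin n} (hX : ∀ i, i ≠ k → (X i).IsHermitian)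
    (M : Mx n) : sl X k Mᴴ = sl X k M := by
  have h1 : update X k Mᴴ = fun i => (update X k M i)ᴴ := by
    funext i
    by_cases hi : i = k
    · subst hi; simp
    · simp [update_of_ne hi, (hX i hi).eq]
  rw [sl_apply, sl_apply, h1, md, MD_conjTranspose, Complex.conj_re, md]

theorem gg_eq (f h : Cm n → ℝ) (z : Cm n) : gg f h z = AMP.gm f h z := rfl

theorem gg_symm (f h : Cm n → ℝ) (z : Cm n) : (gg f h z)ᴴ = gg h f z := AMP.gm_conjTranspose f h z

theorem gg_psd (f : Cm n → ℝ) (z : Cm n) : (gg f f z).PosSemidef := AMP.gm_self_posSemidef f z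

theorem sl_gg_symm {X : Fin n → Mx n} {k : Fin n} (hX : ∀ i, i ≠ k → (X i).IsHermitian)
    (f h : Cm n → ℝ) (z : Cm n) : sl X k (gg f h z) = sl X k (gg h f z) := by
  rw [← gg_symm, sl_conjTranspose hX]

theorem psd_smul {M : Mx n} (hM : M.PosSemidef) {c : ℝ} (hc : 0 ≤ c) :
    ((c : ℂ) • M).PosSemidef := hM.smul (Complex.zero_le_real.2 hc)

/-- the quadratic form of two gradients is nonnegative -/
theorem gg_quad (f h : Cm n → ℝ) (z : Cm n) (a b : ℝ) :
    (((a ^ 2 : ℝ) : ℂ) • gg f f z + ((a * b : ℝ) : ℂ) • (gg f h z + gg h f z) +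
      ((b ^ 2 : ℝ) : ℂ) • gg h h z).PosSemidef := by
  have h1 := Matrix.posSemidef_vecMulVec_self_star ((a : ℂ) • dzv f z + (b : ℂ) • dzv h z)
  convert h1 using 1
  ext i j
  simp [gg, rk1, dzv, dzbv, AMP.dzb_real_eq, Matrix.vecMulVec_apply]
  ring

/-- Cauchy-Schwarz inequality in a slot of rank one -/
theorem sl_cs {X : Fin n → Mx n} {k : Fin n} (hX : ∀ i, i ≠ k → (X i).PosSemidef)
    (f h : Cm n → ℝ) (z : Cm n) (a b : ℝ) :
    2 * (a * b) * sl X k (gg f h z) ≤ a ^ 2 * sl X k (gg f f z) + b ^ 2 * sl X k (gg h h z) := by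
  have h1 := sl_nonneg hX (gg_quad f h z a (-b))
  rw [map_add, map_add, sl_csmul, sl_csmul, sl_csmul, map_add,
    sl_gg_symm (fun i hi => (hX i hi).isHermitian) h f] at h1
  nlinarith

theorem cHess_mul' {f h : Cm n → ℝ} {z : Cm n} (hf : ContDiffAt ℝ 2 f z)
    (hh : ContDiffAt ℝ 2 h z) : cHess (fun y => f y * h y) z =
      (f z : ℂ) • cHess h z + (h z : ℂ) • cHess f z + gg f h z + gg h f z := AMP.cHess_mul hf hh

theorem cHess_comp' {f : Cm n → ℝ} {φ : ℝ → ℝ} {z : Cm n} (hφ : ContDiffAt ℝ 2 φ (f z))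
    (hf : ContDiffAt ℝ 2 f z) : cHess (fun y => φ (f y)) z =
      ((deriv φ (f z) : ℝ) : ℂ) • cHess f z + ((deriv (deriv φ) (f z) : ℝ) : ℂ) • gg f f z :=
  AMP.cHess_comp_real hφ hf

theorem gg_comp_left {f : Cm n → ℝ} {φ : ℝ → ℝ} {z : Cm n} (hφ : DifferentiableAt ℝ φ (f z))
    (hf : DifferentiableAt ℝ f z) (h : Cm n → ℝ) :
    gg (fun y => φ (f y)) h z = ((deriv φ (f z) : ℝ) : ℂ) • gg f h z := by
  ext i j
  simp only [gg, rk1, dzv, Matrix.of_apply, Matrix.smul_apply, smul_eq_mul,
    AMP.dz_real_comp hφ hf, mul_assoc]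

theorem gg_comp_right {f : Cm n → ℝ} {φ : ℝ → ℝ} {z : Cm n} (hφ : DifferentiableAt ℝ φ (f z))
    (hf : DifferentiableAt ℝ f z) (h : Cm n → ℝ) :
    gg h (fun y => φ (f y)) z = ((deriv φ (f z) : ℝ) : ℂ) • gg h f z := by
  ext i j
  simp only [gg, rk1, dzbv, Matrix.of_apply, Matrix.smul_apply, smul_eq_mul,
    AMP.dzb_real_comp hφ hf, mul_left_comm]

end Vale.Agent.P284Z.J
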