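import Vale.Agent.P284Z.J.G1
import Vale.Agent.P284.H286.K.Meas

/-!
# P284Z, block JG: the volume measure
-/

set_option linter.all false

open scoped ContDiff Topology ComplexOrder ComplexConjugate ENNReal
open Filter Set Function Metric MeasureTheory

noncomputable section

namespace Vale.Agent.P284Z.JGx

open Vale.Agent.P272.K Vale.Agent.P284.H650 Vale.Agent.P284.H286.K J A

variable {n : ℕ} {Γ E : Type} [Group Γ] [TopologicalSpace E] [MulAction Γ E] {C : Cov n Γ E}
  [MeasurableSpace E] [BorelSpace E] {μ ν : Measure E}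
  {γ g : Γ} {a b : C.I} {z : Cm n} {y : E} {K Ω : Set E}

theorem D_cont (a : C.I) : ContinuousOn (fun z => (cHess (C.ρ a) z).det.re) (C.B 4 a) :=
  fun _ hz => (Complex.continuous_re.continuousAt.comp (det_cont hz)).continuousWithinAt

theorem src_meas (γ : Γ) (a : C.I) : MeasurableSet (C.pt γ a '' C.B 4 a) :=
  (img γ a).symm ▸ (ch C γ a).open_source.measurableSet

theorem vol (hB : JB) (C : Cov n Γ E) [Countable Γ] [T2Space E] : ∃ μ : Measure E, C.Vol μ := by
  haveI := sigmaCompact C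
  have e : ∀ (i j : Γ × C.I), (fun z => ch C j.1 j.2 ((ch C i.1 i.2).symm z)) =
      C.tr (j.1⁻¹ * i.1) i.2 j.2 := fun i j => funext fun z => by
    rw [Cov.tr, pt_mul]
    rfl
  have o : ∀ (i j : Γ × C.I) z, z ∈ C.B 4 i.2 → C.pt i.1 i.2 z ∈ (ch C j.1 j.2).source →
      C.Ov (j.1⁻¹ * i.1) i.2 j.2 z := fun i j z h1 h2 => ⟨h1, by rw [pt_mul]; exact h2⟩
  obtain ⟨μ, hμ⟩ := measStmt n E (Γ × C.I) (fun i => ch C i.1 i.2)
    (fun i z => (cHess (C.ρ i.2) z).det.re)
    (fun y => by
      obtain ⟨γ, a, z, hz, rfl⟩ := exists_pt (C := C) y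
      exact ⟨(γ, a), (ch C γ a).map_target (B14 a hz)⟩)
    (fun i j z h1 h2 => e i j ▸ tr_an (o i j z h1 h2)) (fun i => D_cont i.2)
    (fun i z hz => (det_re hz).1)
    (fun i j x hi hj => by
      have h1 := (ch C i.1 i.2).left_inv hi
      have h2 := o i j _ ((ch C i.1 i.2).map_source hi) (h1.symm ▸ hj :)
      have h3 := congrFun (e i j) (ch C i.1 i.2 x)
      rw [h1] at h3
      rw [← det_jac _ _ x (e i j ▸ tr_an h2), e, rho_ch hB h2, det_pb, Complex.re_ofReal_mul, h3,
        ContinuousLinearMap.det, ← LinearMap.det_toMatrix']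
      rfl)
  refine ⟨μ, fun γ a f hf => ?_⟩
  rw [← lintegral_indicator (src_meas γ a), hμ (γ, a) _ (hf.indicator (src_meas γ a))
    fun x hx => indicator_of_notMem (img γ a ▸ hx) _]
  exact setLIntegral_congr_fun isOpen_ball.measurableSet fun z hz =>
    congrArg (· * _) (indicator_of_mem (mem_image_of_mem _ hz) f)

theorem vol_uniq [Countable Γ] (hμ : C.Vol μ) (hν : C.Vol ν) : μ = ν := by
  refine Measure.ext_of_iUnion_eq_univ (s := fun i : Γ × C.I => C.pt i.1 i.2 '' C.B 4 i.2)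
    (eq_univ_of_forall fun y => ?_) fun i => Measure.ext_of_lintegral _ fun f hf => ?_
  · obtain ⟨γ, a, z, hz, rfl⟩ := exists_pt (C := C) y
    exact mem_iUnion.2 ⟨(γ, a), z, B14 a hz, rfl⟩
  · rw [hμ _ _ f hf, hν _ _ f hf]

theorem inv [Countable Γ] (hμ : C.Vol μ) (γ : Γ) (f : E → ℝ≥0∞) :
    ∫⁻ y, f (γ • y) ∂μ = ∫⁻ y, f y ∂μ := by
  let e : E ≃ᵐ E := ⟨MulAction.toPerm γ, (C.cont γ).measurable, (C.cont γ⁻¹).measurable⟩
  have h : C.Vol (μ.map e) := fun g a f hf => by
    have h1 : e ⁻¹' (C.pt g a '' C.B 4 a) = C.pt (γ⁻¹ * g) a '' C.B 4 a :=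
      Set.ext fun y => exists_congr fun z => and_congr_right fun _ => by
        rw [pt_mul, inv_smul_eq_iff]
        rfl
    rw [setLIntegral_map (src_meas g a) hf e.measurable, h1]
    refine (hμ _ a _ (hf.comp e.measurable)).trans (lintegral_congr fun z => ?_)
    rw [pt_mul]
    exact congrArg (fun y => f y * _) (smul_inv_smul γ _)
  exact (lintegral_map_equiv f e).symm.trans (by rw [vol_uniq h hμ])

theorem img_meas {A : Set (Cm n)} (hA : MeasurableSet A) (hs : A ⊆ C.B 4 a) (γ : Γ) :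
    MeasurableSet (C.pt γ a '' A) := by
  classical
  have h1 : Measurable ((ch C γ a).source.piecewise (ch C γ a) fun _ => 0) :=
    (ch C γ a).continuousOn.measurable_piecewise continuousOn_const
      (ch C γ a).open_source.measurableSet
  convert (ch C γ a).open_source.measurableSet.inter (h1 hA) using 1
  refine ((ch C γ a).symm_image_eq_source_inter_preimage hs).trans ?_
  exact Set.ext fun y => and_congr_right fun hy => by
    rw [mem_preimage, mem_preimage, piecewise_eq_of_mem _ _ _ hy]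

theorem set_vol (hμ : C.Vol μ) {A : Set (Cm n)} (hA : MeasurableSet A) (hs : A ⊆ C.B 4 a) (γ : Γ)
    {f : E → ℝ≥0∞} (hf : Measurable f) : ∫⁻ y in C.pt γ a '' A, f y ∂μ =
      ∫⁻ z in A, f (C.pt γ a z) * ENNReal.ofReal (cHess (C.ρ a) z).det.re := by
  have h1 := img_meas hA hs γ
  rw [← inter_eq_self_of_subset_left (image_mono hs), ← setLIntegral_indicator h1,
    hμ γ a _ (hf.indicator h1)]
  conv_rhs => rw [← inter_eq_self_of_subset_left hs, ← setLIntegral_indicator hA]
  refine setLIntegral_congr_fun isOpen_ball.measurableSet fun z hz => ?_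
  by_cases h : z ∈ A
  · simp only [indicator_of_mem h, indicator_of_mem (mem_image_of_mem _ h)]
  · simp only [indicator_of_notMem h, zero_mul,
      indicator_of_notMem (mt ((inj_pt γ a).mem_image_iff hs hz).1 h)]

theorem fin (hμ : C.Vol μ) (K : Set E) (hK : IsCompact K) : μ K < ⊤ := by
  obtain ⟨S, hS⟩ := fin_sheets C hK
  refine (measure_mono (t := ⋃ γ ∈ S, ⋃ a, cp C γ a) fun y hy => ?_).trans_lt
    (measure_biUnion_lt_top S.finite_toSet fun γ _ =>
      (measure_iUnion_fintype_le _ _).trans_lt (ENNReal.sum_lt_top.2 fun a _ => ?_))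
  · obtain ⟨γ, a, h⟩ := cp_cover (C := C) y
    exact mem_iUnion₂.2 ⟨γ, by_contra fun h' => hS y hy γ h' a h, mem_iUnion.2 ⟨a, h⟩⟩
  · rw [← setLIntegral_one, cp, set_vol hμ isClosed_closedBall.measurableSet (cb4 a) γ
      measurable_const]
    exact (lintegral_congr fun _ => one_mul _).trans_lt (((D_cont a).mono
      (cb4 a)).integrableOn_compact (isCompact_closedBall _ _)).lintegral_lt_top

theorem ae [Countable Γ] (hμ : C.Vol μ) (S : Set E) :
    μ S = 0 ↔ ∀ γ a, volume {z ∈ C.B 4 a | C.pt γ a z ∈ S} = 0 := by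
  constructor
  · intro h γ a
    haveI : Nonempty E := ⟨C.pt γ a 0⟩
    obtain ⟨p, h1, h2⟩ := exists_ext (ch C γ a)
    obtain ⟨T, hT, h3, h4⟩ := exists_measurable_superset_of_null h
    have h5 : MeasurableSet (C.B 4 a ∩ p ⁻¹' T) := isOpen_ball.measurableSet.inter (h1 h3)
    have h6 := set_vol hμ h5 inter_subset_left γ (f := fun _ => 1) measurable_const
    rw [setLIntegral_measure_zero _ _ (measure_mono_null (by
      rintro _ ⟨z, hz, rfl⟩
      exact (congrArg (· ∈ T) (h2 z hz.1)).mp hz.2) h4), eq_comm, setLIntegral_eq_zero_iff' h5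
        ((((D_cont a).mono inter_subset_left).aemeasurable h5).ennreal_ofReal.const_mul 1)] at h6
    refine measure_mono_null (fun z hz => mem_setOf.2 fun hz' => ?_) (ae_iff.1 h6)
    have h7 := hz' ⟨hz.1, by rw [mem_preimage, h2 z hz.1]; exact hT hz.2⟩
    rw [one_mul, ENNReal.ofReal_eq_zero] at h7
    exact h7.not_gt (det_re hz.1).1
  · intro h
    choose N h1 h2 h3 using fun i : Γ × C.I => exists_measurable_superset_of_null (h i.1 i.2)
    refine measure_mono_null (t := ⋃ i : Γ × C.I, C.pt i.1 i.2 '' (C.B 4 i.2 ∩ N i))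
      (fun y hy => ?_) (measure_iUnion_null fun i => ?_)
    · obtain ⟨γ, a, z, hz, rfl⟩ := exists_pt (C := C) y
      exact mem_iUnion.2 ⟨(γ, a), z, ⟨B14 a hz, h1 (γ, a) ⟨B14 a hz, hy⟩⟩, rfl⟩
    · rw [← setLIntegral_one, set_vol hμ (A := C.B 4 i.2 ∩ N i) (isOpen_ball.measurableSet.inter (h2 i))
        inter_subset_left _ measurable_const]
      exact setLIntegral_measure_zero _ _ (measure_mono_null inter_subset_right (h3 i))

theorem le_sum [Countable Γ] (hμ : C.Vol μ) (f : E → ℝ≥0∞) (hf : Measurable f) : ∫⁻ y, f y ∂μ ≤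
    ∑' γ, ∑ a, ∫⁻ z in C.B 1 a, f (C.pt γ a z) * ENNReal.ofReal (cHess (C.ρ a) z).det.re := by
  have h : (univ : Set E) = ⋃ γ, ⋃ a, C.pt γ a '' C.B 1 a := (eq_univ_of_forall fun y => by
    obtain ⟨γ, a, z, hz, rfl⟩ := exists_pt (C := C) y
    exact mem_iUnion₂.2 ⟨γ, a, z, hz, rfl⟩).symm
  rw [← setLIntegral_univ, h]
  refine (lintegral_iUnion_le _ _).trans (ENNReal.tsum_le_tsum fun γ =>
    (lintegral_iUnion_le _ _).trans_eq ?_)
  rw [tsum_fintype]
  exact Finset.sum_congr rfl fun a _ => set_vol hμ isOpen_ball.measurableSet (B14 a) γ hf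

theorem sum_le [Countable Γ] (hμ : C.Vol μ) (a : C.I) (f : E → ℝ≥0∞) (hf : Measurable f) :
    ∑' γ, ∫⁻ z in C.B 4 a, f (C.pt γ a z) * ENNReal.ofReal (cHess (C.ρ a) z).det.re ≤
      ∫⁻ y, f y ∂μ := by
  simp only [← hμ _ a f hf]
  rw [← lintegral_iUnion (fun γ => src_meas γ a)]
  · exact setLIntegral_le_lintegral _ _
  · intro γ g hne
    simp only [onFun, img]
    refine disjoint_left.2 fun y h1 h2 => hne ?_
    have := C.disj (g⁻¹ * γ) a _ h1 (by rw [mul_smul, smul_inv_smul]; exact h2)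
    exact (inv_mul_eq_one.1 this).symm

theorem integ [T2Space E] {V : Type} [NormedAddCommGroup V] [SecondCountableTopology V]
    (hμ : C.Vol μ) (hK : IsCompact K) {F : E → V} (hF : ContinuousOn F K)
    (h0 : ∀ y ∉ K, F y = 0) : Integrable F μ := by
  haveI : IsFiniteMeasureOnCompacts μ := ⟨fun K hK => fin hμ K hK⟩
  exact (hF.integrableOn_compact hK).integrable_of_forall_notMem_eq_zero h0

/-- the integral over a chart -/
theorem chart_int (hμ : C.Vol μ) (γ : Γ) (a : C.I) {F : E → ℂ} (hF : Integrable F μ) :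
    ∫ y in C.pt γ a '' C.B 4 a, F y ∂μ =
      ∫ z in C.B 4 a, (cHess (C.ρ a) z).det * F (C.pt γ a z) := by
  haveI : Nonempty E := ⟨C.pt γ a 0⟩
  obtain ⟨p, h1, h2⟩ := exists_ext (ch C γ a)
  have hm : MeasurableSet (C.B 4 a) := isOpen_ball.measurableSet
  have hD := ((D_cont a).aemeasurable (μ := volume) hm).ennreal_ofReal
  have h3 : μ.restrict (C.pt γ a '' C.B 4 a) = Measure.map p ((volume.restrict (C.B 4 a)).withDensity
      fun z => ENNReal.ofReal (cHess (C.ρ a) z).det.re) := by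
    refine Measure.ext_of_lintegral _ fun f hf => ?_
    rw [hμ γ a f hf, lintegral_map hf h1]
    refine Eq.trans ?_ (lintegral_withDensity_eq_lintegral_mul₀ hD (hf.comp h1).aemeasurable).symm
    exact setLIntegral_congr_fun hm fun z hz =>
      (mul_comm _ _).trans (congrArg (fun y => _ * f y) (h2 z hz).symm)
  have h4 := hF.aestronglyMeasurable.restrict (s := C.pt γ a '' C.B 4 a)
  rw [h3] at h4 ⊢
  rw [integral_map h1.aemeasurable h4, integral_withDensity_eq_integral_toReal_smul₀ hD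
    (Eventually.of_forall fun _ => ENNReal.ofReal_lt_top)]
  refine setIntegral_congr_fun hm fun z hz => ?_
  simp only [ENNReal.toReal_ofReal (det_re hz).1.le, h2 z hz, Complex.real_smul, (det_re hz).2]
  rfl

end Vale.Agent.P284Z.JGx
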