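import Vale.Agent.P284Z.J.G2

/-!
# P284Z, block JG: integration by parts on the covering
-/

set_option linter.all false

open scoped ContDiff Topology ComplexOrder ComplexConjugate ENNReal
open Filter Set Function Metric MeasureTheory

noncomputable section

namespace Vale.Agent.P284Z.JGx

open Vale.Agent.P272.K Vale.Agent.P284.H650 J A

section loc
variable {n : ℕ} {z : Cm n} {u ψ : Cm n → ℂ}

theorem dmat_dc (hu : ContDiffAt ℝ ∞ u z) (hψ : ContDiffAt ℝ ∞ ψ z) :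
    dmat (fun y l => ψ y * dzb l u y) z = ψ z • hc u z + dc ψ u z := by
  ext r l
  exact (INT.dz_mul (hψ.differentiableAt (by simp))
    ((INT.smooth_dzb hu).differentiableAt (by simp))).trans (add_comm _ _)

theorem int_loc {U K : Set (Cm n)} {X : Fin n → Cm n → Mx n} {k : Fin n} (hU : IsOpen U)
    (hX : ∀ i, i ≠ k → CF U (X i)) (hu : ∀ z ∈ U, ContDiffAt ℝ ∞ u z)
    (hψ : ∀ z ∈ U, ContDiffAt ℝ ∞ ψ z) (hK : IsCompact K) (hKU : K ⊆ U)
    (h0 : ∀ z ∈ U, z ∉ K → ψ z = 0) :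
    ∫ z in U, MD (update (fun i => X i z) k (ψ z • hc u z + dc ψ u z)) = 0 := by
  have e : ∀ z ∈ U, ∀ l, (fun y => U.indicator ψ y * dzb l u y) =ᶠ[𝓝 z]
      fun y => ψ y * dzb l u y := fun z hz l =>
    mem_of_superset (hU.mem_nhds hz) fun y hy => congrArg (· * _) (indicator_of_mem hy ψ)
  refine Eq.trans (setIntegral_congr_fun hU.measurableSet fun z hz => ?_)
    (int_MD (a := fun y l => U.indicator ψ y * dzb l u y) hU k (fun i hi => (hX i hi).sm)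
      (fun i hi => (hX i hi).cl) (fun z hz l => ((hψ z hz).mul
        (INT.smooth_dzb (hu z hz))).congr_of_eventuallyEq (e z hz l)) hK hKU fun z hz => ?_).2
  · simp only [← dmat_dc (hu z hz) (hψ z hz)]
    congr 2
    ext r l
    exact (INT.dz_congr (e z hz l)).symm
  · funext l
    rw [indicator_apply_eq_zero.2 fun h => h0 z h hz, zero_mul, Pi.zero_apply]

theorem conj_loc (hu : ContDiffAt ℝ 2 u z) : ψ z • hc u z + dc u ψ z =
    (conj (ψ z) • hc (fun w => conj (u w)) z +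
      dc (fun w => conj (ψ w)) (fun w => conj (u w)) z).conjTranspose := by
  ext j k
  have h1 : dzb j (fun w => conj (u w)) = fun w => conj (dz j u w) := funext fun _ => INT.dzb_conj
  simp only [hc, dc, Matrix.conjTranspose_apply, Matrix.add_apply, Matrix.smul_apply,
    Matrix.of_apply, h1, INT.dz_conj, smul_eq_mul, Complex.star_def, map_add, map_mul,
    Complex.conj_conj, INT.dz_dzb_comm hu]
  ring

theorem MD_conj {X : Fin n → Mx n} {k : Fin n} (hX : ∀ i, i ≠ k → (X i).IsHermitian) (M : Mx n) :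
    MD (update X k M.conjTranspose) = conj (MD (update X k M)) := by
  rw [← MD_conjTranspose]
  congr 1
  funext i
  by_cases hi : i = k
  · subst hi; simp
  · simp [update_of_ne hi, (hX i hi).eq]

theorem dc_zero (h : ψ =ᶠ[𝓝 z] fun _ => 0) : dc ψ u z = 0 ∧ dc u ψ z = 0 := by
  constructor <;> ext j k <;> simp [dc, INT.dz_congr h, INT.dzb_congr h]

theorem dc_sum {ι : Type} (s : Finset ι) {ψ : ι → Cm n → ℂ}
    (h : ∀ i ∈ s, DifferentiableAt ℝ (ψ i) z) :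
    dc (fun w => ∑ i ∈ s, ψ i w) u z = ∑ i ∈ s, dc (ψ i) u z := by
  ext j k
  simp only [dc, Matrix.of_apply, Matrix.sum_apply, INT.dz_sum s h, Finset.sum_mul]

end loc

variable {n : ℕ} {Γ E : Type} [Group Γ] [TopologicalSpace E] [MulAction Γ E] {C : Cov n Γ E}
  {γ : Γ} {a : C.I} {z : Cm n} {y : E} {K Ω : Set E} {X : Fin n → C.Fm} {k : Fin n}
  {u ψ : E → ℂ} {H : C.Fm}

theorem upd (X : Fin n → C.Fm) (k : Fin n) (H : C.Fm) (γ : Γ) (a : C.I) (z : Cm n) :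
    (fun i => update X k H i γ a z) = update (fun i => X i γ a z) k (H γ a z) :=
  funext fun i => apply_update (fun _ (F : C.Fm) => F γ a z) X k H i

theorem all_upd {P : C.Fm → Prop} (hX : ∀ i, i ≠ k → P (X i)) (hH : P H) (i : Fin n) :
    P (update X k H i) := by
  by_cases hi : i = k
  · subst hi; rwa [update_self]
  · rw [update_of_ne hi]; exact hX i hi

variable (X k u ψ) in
/-- the exact form -/
def TT (y : E) : ℂ := ψ y * C.mD (update X k (C.hc u)) y + C.mD (update X k (C.dc ψ u)) y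

theorem TT_eq (y : E) : TT X k u ψ y =
    MD (update (fun i => X i (C.ch₀ y).1 (C.ch₀ y).2.1 (C.ch₀ y).2.2) k
      (ψ y • C.hc u (C.ch₀ y).1 (C.ch₀ y).2.1 (C.ch₀ y).2.2 +
        C.dc ψ u (C.ch₀ y).1 (C.ch₀ y).2.1 (C.ch₀ y).2.2)) /
      (cHess (C.ρ (C.ch₀ y).2.1) (C.ch₀ y).2.2).det := by
  rw [TT, Cov.mD, Cov.mD, upd, upd, MD_update_add, MD_update_smul, add_div, mul_div_assoc]

theorem TT_sum {ι : Type} (s : Finset ι) {ψ : ι → E → ℂ} (h : ∀ i ∈ s, C.SmAt (ψ i) y) :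
    TT X k u (fun y => ∑ i ∈ s, ψ i y) y = ∑ i ∈ s, TT X k u (ψ i) y := by
  obtain ⟨h1, h2⟩ := ch₀_spec (C := C) y
  simp only [TT_eq, Cov.dc, ← Finset.sum_div, ← MD_update_sum, Finset.sum_add_distrib,
    Finset.sum_smul]
  rw [dc_sum s fun i hi => (h i hi _ _ _ h1 h2).differentiableAt (by simp)]

theorem TT_conj (hX : ∀ i, i ≠ k → C.CFOn (X i) Ω) (hy : y ∈ Ω) (hu : C.SmAt u y) :
    ψ y * C.mD (update X k (C.hc u)) y + C.mD (update X k (C.dc u ψ)) y =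
      conj (TT X k (fun y => conj (u y)) (fun y => conj (ψ y)) y) := by
  obtain ⟨h1, h2⟩ := ch₀_spec (C := C) y
  have h3 := conj_loc (ψ := fun w => ψ (C.pt (C.ch₀ y).1 (C.ch₀ y).2.1 w))
    ((hu _ _ _ h1 h2).of_le two_le)
  simp only [h2] at h3
  rw [TT_eq, map_div₀, ← MD_conj fun i hi => ((hX i hi).2 _ _).herm _ ⟨h1, h2.symm ▸ hy⟩,
    ← (det_re h1).2, Complex.conj_ofReal, (det_re h1).2, Cov.mD, Cov.mD, upd, upd, mul_div_assoc',
    ← add_div, ← MD_update_smul, ← MD_update_add]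
  exact congrArg (fun M => MD (update _ k M) / _) h3

variable [T2Space E]

theorem zero_dc (hK : IsCompact K) (h0 : ∀ y ∉ K, ψ y = 0) (hy : y ∉ K) :
    C.mD (update X k (C.dc ψ u)) y = 0 ∧ C.mD (update X k (C.dc u ψ)) y = 0 := by
  obtain ⟨h1, h2⟩ := ch₀_spec (C := C) y
  have h3 := dc_zero (u := fun w => u (C.pt (C.ch₀ y).1 (C.ch₀ y).2.1 w))
    (ev_pt (P := fun y => ψ y = 0) h1 (by
      rw [h2]
      exact mem_of_superset (hK.isClosed.isOpen_compl.mem_nhds hy) h0))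
  simp only [Cov.mD, upd, Cov.dc, h3.1, h3.2, MD_update_zero, zero_div, and_self]

theorem TT_zero (hK : IsCompact K) (h0 : ∀ y ∉ K, ψ y = 0) (hy : y ∉ K) : TT X k u ψ y = 0 := by
  rw [TT, h0 y hy, (zero_dc hK h0 hy).1, zero_mul, add_zero]

variable [MeasurableSpace E] [BorelSpace E] {μ : Measure E} (hB : JB) (hμ : C.Vol μ)
  (hΩ : IsOpen Ω) (hK : IsCompact K) (hKΩ : K ⊆ Ω) (hX : ∀ i, i ≠ k → C.CFOn (X i) Ω)
  (hu : ∀ y ∈ Ω, C.SmAt u y) (hψ : ∀ y ∈ Ω, C.SmAt ψ y) (h0 : ∀ y ∉ K, ψ y = 0)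

include hB hΩ hX in
theorem cont_upd (h1 : ∀ y ∈ Ω, C.FmAt H y)
    (h2 : ∀ γ a, SmM {z ∈ C.B 4 a | C.pt γ a z ∈ Ω} (H γ a)) :
    ContinuousOn (C.mD (update X k H)) Ω :=
  mD_cont hB _ Ω hΩ (all_upd (P := fun H => ∀ y ∈ Ω, C.FmAt H y) (fun i hi => (hX i hi).1) h1)
    fun i γ a => continuousOn_pi.2 fun j => continuousOn_pi.2 fun l z hz =>
      (all_upd (P := fun H => SmM {z ∈ C.B 4 a | C.pt γ a z ∈ Ω} (H γ a))
        (fun i hi => ((hX i hi).2 γ a).sm) (h2 γ a) i z hz j l).continuousAt.continuousWithinAt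

include hB hΩ hX hu hψ in
theorem cont_dc : ContinuousOn (C.mD (update X k (C.dc u ψ))) Ω :=
  cont_upd hB hΩ hX (fun y hy => fm_dc hB (hu y hy) (hψ y hy)) fun γ a z hz _ _ =>
    (INT.smooth_dz (hu _ hz.2 γ a z hz.1 rfl)).mul (INT.smooth_dzb (hψ _ hz.2 γ a z hz.1 rfl))

include hB hμ hΩ hK hKΩ hX hu hψ h0

theorem ints : Integrable (fun y => ψ y * C.mD (update X k (C.hc u)) y) μ ∧
    Integrable (C.mD (update X k (C.dc u ψ))) μ ∧ Integrable (C.mD (update X k (C.dc ψ u))) μ :=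
  ⟨integ hμ hK (ContinuousOn.mul (fun y hy => (sm_cont (hψ y (hKΩ hy))).continuousWithinAt)
      ((cont_upd hB hΩ hX (fun y hy => fm_hc hB (hu y hy)) fun γ a z hz _ _ =>
        INT.smooth_dz (INT.smooth_dzb (hu _ hz.2 γ a z hz.1 rfl))).mono hKΩ))
      fun y hy => by rw [h0 y hy, zero_mul],
    integ hμ hK ((cont_dc hB hΩ hX hu hψ).mono hKΩ) fun y hy => (zero_dc hK h0 hy).2,
    integ hμ hK ((cont_dc hB hΩ hX hψ hu).mono hKΩ) fun y hy => (zero_dc hK h0 hy).1⟩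

theorem int_TT : Integrable (TT X k u ψ) μ :=
  (ints hB hμ hΩ hK hKΩ hX hu hψ h0).1.add (ints hB hμ hΩ hK hKΩ hX hu hψ h0).2.2

theorem piece (hKa : K ⊆ C.pt γ a '' C.B 4 a) : ∫ y, TT X k u ψ y ∂μ = 0 := by
  have hKs : K ⊆ (ch C γ a).source := img γ a ▸ hKa
  rw [← setIntegral_eq_integral_of_forall_compl_eq_zero (s := C.pt γ a '' C.B 4 a)
    fun y hy => TT_zero hK h0 fun h => hy (hKa h),
    chart_int hμ γ a (int_TT hB hμ hΩ hK hKΩ hX hu hψ h0),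
    setIntegral_eq_of_subset_of_forall_sdiff_eq_zero (s := {z ∈ C.B 4 a | C.pt γ a z ∈ Ω})
      (t := C.B 4 a) isOpen_ball.measurableSet (sep_subset _ _) fun z hz => by
        rw [TT_zero hK h0 fun h => hz.2 ⟨hz.1, hKΩ h⟩, mul_zero]]
  refine Eq.trans (setIntegral_congr_fun (open_pre γ a hΩ).measurableSet fun z hz => ?_)
    (int_loc (u := fun w => u (C.pt γ a w)) (ψ := fun w => ψ (C.pt γ a w)) (open_pre γ a hΩ)
      (fun i hi => (hX i hi).2 γ a) (fun z hz => hu _ hz.2 γ a z hz.1 rfl)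
      (fun z hz => hψ _ hz.2 γ a z hz.1 rfl)
      (hK.image_of_continuousOn ((ch C γ a).continuousOn.mono hKs)) ?_ fun z hz h =>
        h0 _ fun h' => h ⟨_, h', (ch C γ a).right_inv hz.1⟩)
  · have h1 := fun H hH => mD_pt hB (update X k H) γ a z hz.1
      (all_upd (P := fun H => C.FmAt H (C.pt γ a z)) (fun i hi => (hX i hi).1 _ hz.2) hH)
    simp only [TT, h1 _ (fm_hc hB (hu _ hz.2)), h1 _ (fm_dc hB (hψ _ hz.2) (hu _ hz.2)), upd,
      MD_update_add, MD_update_smul]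
    rw [mul_div_assoc', ← add_div, mul_div_cancel₀ _ (det_ne hz.1)]
    rfl
  · rintro _ ⟨y, hy, rfl⟩
    have h2 : C.pt γ a (ch C γ a y) = y := (ch C γ a).left_inv (hKs hy)
    exact ⟨(ch C γ a).map_source (hKs hy), h2.symm ▸ hKΩ hy⟩

theorem stokes : ∫ y, TT X k u ψ y ∂μ = 0 := by
  obtain ⟨χ, h1, -, h2, h3⟩ := pu C
  obtain ⟨S, hS⟩ := fin_sheets C hK
  have h4 : ∀ γ a y, y ∉ cp C γ a → χ a (γ⁻¹ • y) = 0 := fun γ a y h => by_contra fun h' =>
    h (mem_cp.1 (image_mono ball_subset_closedBall ((h2 a _).1 h')))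
  have h5 : ∀ y ∈ K, ∑ γ ∈ S, ∑ a, χ a (γ⁻¹ • y) = 1 := fun y hy => by
    obtain ⟨S', hS'⟩ := h3 y
    rw [← hS'.self_of_nhds.2, ← finsum_eq_sum_of_support_subset, finsum_eq_sum_of_support_subset]
    · exact fun γ hγ => by_contra fun h =>
        hγ (Finset.sum_eq_zero fun a _ => hS'.self_of_nhds.1 γ h a)
    · exact fun γ hγ => by_contra fun h =>
        hγ (Finset.sum_eq_zero fun a _ => h4 γ a y (hS y hy γ h a))
  obtain ⟨φ, hφ⟩ : ∃ φ : Γ × C.I → E → ℂ, ∀ i y, φ i y = χ i.2 (i.1⁻¹ • y) * ψ y :=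
    ⟨_, fun _ _ => rfl⟩
  have h6 : ψ = fun y => ∑ i ∈ S ×ˢ Finset.univ, φ i y := funext fun y => by
    simp only [hφ, ← Finset.sum_mul, Finset.sum_product, ← Complex.ofReal_sum]
    by_cases hy : y ∈ K
    · rw [h5 y hy, Complex.ofReal_one, one_mul]
    · rw [h0 y hy, mul_zero]
  have h7 : ∀ i, ∀ y ∈ Ω, C.SmAt (φ i) y := fun i y hy g b z hz e => by
    simp only [hφ]
    exact (sm_ofReal (sm_smul (h1 i.2 _)) g b z hz e).mul (hψ y hy g b z hz e)
  have h8 : ∀ i, ∀ y ∉ K ∩ cp C i.1 i.2, φ i y = 0 := fun i y hy => by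
    rw [hφ]
    rcases not_and_or.1 hy with h | h
    · rw [h0 y h, mul_zero]
    · rw [h4 _ _ y h, Complex.ofReal_zero, zero_mul]
  have h9 := fun i : Γ × C.I => hK.inter_right (cp_compact i.1 i.2).isClosed
  have h10 : TT X k u ψ = fun y => ∑ i ∈ S ×ˢ Finset.univ, TT X k u (φ i) y := funext fun y => by
    by_cases hy : y ∈ Ω
    · rw [← TT_sum _ fun i _ => h7 i y hy, ← h6]
    · rw [TT_zero hK h0 fun h => hy (hKΩ h)]
      exact (Finset.sum_eq_zero fun i _ => TT_zero (h9 i) (h8 i) fun h => hy (hKΩ h.1)).symm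
  rw [h10, integral_finsetSum _ fun i _ =>
    int_TT hB hμ hΩ (h9 i) (inter_subset_left.trans hKΩ) hX hu (h7 i) (h8 i)]
  exact Finset.sum_eq_zero fun i _ => piece hB hμ hΩ (h9 i) (inter_subset_left.trans hKΩ) hX hu
    (h7 i) (h8 i) (inter_subset_right.trans (image_mono (cb4 i.2)))

theorem ibp₁ :
    ∫ y, ψ y * C.mD (update X k (C.hc u)) y ∂μ = -∫ y, C.mD (update X k (C.dc ψ u)) y ∂μ := by
  obtain ⟨i1, -, i3⟩ := ints hB hμ hΩ hK hKΩ hX hu hψ h0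
  exact eq_neg_of_add_eq_zero_left
    ((integral_add i1 i3).symm.trans (stokes hB hμ hΩ hK hKΩ hX hu hψ h0))

theorem ibp₂ :
    ∫ y, ψ y * C.mD (update X k (C.hc u)) y ∂μ = -∫ y, C.mD (update X k (C.dc u ψ)) y ∂μ := by
  obtain ⟨i1, i2, -⟩ := ints hB hμ hΩ hK hKΩ hX hu hψ h0
  have c : ∀ {f : E → ℂ}, (∀ y ∈ Ω, C.SmAt f y) → ∀ y ∈ Ω, C.SmAt (fun y => conj (f y)) y :=
    fun hf y hy g b z hz e => Complex.conjCLE.contDiff.contDiffAt.comp z (hf y hy g b z hz e)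
  have h1 : ∀ y ∉ K, conj (ψ y) = 0 := fun y hy => by rw [h0 y hy, map_zero]
  have h2 := congrArg conj (stokes hB hμ hΩ hK hKΩ hX (c hu) (c hψ) h1)
  rw [← integral_conj, map_zero] at h2
  refine eq_neg_of_add_eq_zero_left ((integral_add i1 i2).symm.trans
    ((integral_congr_ae (Eventually.of_forall fun y => ?_)).trans h2))
  by_cases hy : y ∈ Ω
  · exact TT_conj hX hy (hu y hy)
  · have hy' : y ∉ K := fun h => hy (hKΩ h)
    simp only [TT_zero hK h1 hy', h0 y hy', (zero_dc hK h0 hy').2, zero_mul, add_zero, map_zero]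

omit hB hμ hΩ hK hKΩ hX hu hψ h0 in
theorem gg_eq (h f : E → ℝ) : C.gg h f = C.dc (fun y => (h y : ℂ)) fun y => (f y : ℂ) := by
  funext γ a z
  ext j k
  rfl

omit hB hμ hΩ hK hKΩ hX hu hψ h0 in
theorem om_eq (f : E → ℝ) : C.om 0 f = C.hc fun y => (f y : ℂ) := by
  funext γ a
  simp only [Cov.om, zero_mul, zero_add]
  rfl

omit hu hψ h0 in
theorem ibpr {f h : E → ℝ} (hs : ∀ y ∈ Ω, C.SmAt f y ∧ C.SmAt h y) (h0 : ∀ y ∉ K, h y = 0) :
    Integrable (fun y => h y * (C.mD (update X k (C.om 0 f)) y).re) μ ∧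
    Integrable (fun y => (C.mD (update X k (C.gg h f)) y).re) μ ∧
    ∫ y, h y * (C.mD (update X k (C.om 0 f)) y).re ∂μ =
      -∫ y, (C.mD (update X k (C.gg h f)) y).re ∂μ := by
  have hu : ∀ y ∈ Ω, C.SmAt (fun y => (f y : ℂ)) y := fun y hy => sm_ofReal (hs y hy).1
  have hψ : ∀ y ∈ Ω, C.SmAt (fun y => (h y : ℂ)) y := fun y hy => sm_ofReal (hs y hy).2
  have h1 : ∀ y ∉ K, (h y : ℂ) = 0 := fun y hy => by rw [h0 y hy, Complex.ofReal_zero]
  obtain ⟨i1, -, i3⟩ := ints hB hμ hΩ hK hKΩ hX hu hψ h1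
  have e := congrArg RCLike.re (ibp₁ hB hμ hΩ hK hKΩ hX hu hψ h1)
  rw [map_neg, ← integral_re i1, ← integral_re i3] at e
  have j1 := i1.re
  simp only [RCLike.re_to_complex, Complex.re_ofReal_mul] at e j1
  rw [gg_eq, om_eq]
  exact ⟨j1, i3.re, e⟩

end JGx

open JGx

variable {n : ℕ} {Γ E : Type} [Group Γ] [TopologicalSpace E] [MulAction Γ E]

/-- **JG** from the calculus of pull-backs -/
theorem jg_of (hB : JB) [Countable Γ] [T2Space E] (C : Cov n Γ E) [MeasurableSpace E]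
    [BorelSpace E] : JG C where
  vol := vol hB C
  inv _ := inv
  fin _ := fin
  ae _ := ae
  le_sum _ := le_sum
  sum_le _ := sum_le
  mD_pt := mD_pt hB
  mD_cont := mD_cont hB
  cf_om A g Ω _ := cf_om hB A g Ω
  cf_pbs := cf_pbs hB
  fm_dc _ _ _ hu hψ := ⟨fm_dc hB hu hψ, fm_hc hB hu⟩
  fm_gg h f y hh hf := by
    rw [gg_eq]
    exact fm_dc hB (sm_ofReal hh) (sm_ofReal hf)
  ibpc μ hμ Ω K X k u ψ hΩ hK hKΩ hX hs h0 := by
    have hu := fun y hy => (hs y hy).1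
    have hψ := fun y hy => (hs y hy).2
    obtain ⟨i1, i2, i3⟩ := ints hB hμ hΩ hK hKΩ hX hu hψ h0
    exact ⟨i1, i2, i3, ibp₂ hB hμ hΩ hK hKΩ hX hu hψ h0, ibp₁ hB hμ hΩ hK hKΩ hX hu hψ h0⟩
  ibp μ hμ Ω K X k f h hΩ hK hKΩ hX hs h0 := ibpr hB hμ hΩ hK hKΩ hX hs h0
  pu := pu C

end Vale.Agent.P284Z
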