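import Vale.Agent.P284Z.J.Alg

/-!
# P284Z, block J: integration by parts and Green's formula for mixed discriminants
-/

set_option linter.all false

open scoped ContDiff Topology ComplexOrder ComplexConjugate
open Filter Set Function Matrix MeasureTheory

noncomputable section

namespace Vale.Agent.P284Z.J

open Vale.Agent.P272.K Vale.Agent.P284.H650

variable {n : ℕ} {U : Set (Cm n)}

/-- smooth real functions on `U` -/
def Sm (U : Set (Cm n)) (f : Cm n → ℝ) : Prop := ∀ z ∈ U, ContDiffAt ℝ ∞ f z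

/-- smooth matrix fields on `U` -/
def SmM (U : Set (Cm n)) (X : Cm n → Mx n) : Prop :=
  ∀ z ∈ U, ∀ i j, ContDiffAt ℝ ∞ (fun y => X y i j) z

/-- smooth closed real forms of type `(1,1)` on `U` -/
structure CF (U : Set (Cm n)) (X : Cm n → Mx n) : Prop where
  sm : SmM U X
  cl : ∀ z ∈ U, ∀ i r l, dz i (fun y => X y r l) z = dz r (fun y => X y i l) z
  herm : ∀ z ∈ U, (X z).IsHermitian

theorem two_le : (2 : WithTop ℕ∞) ≤ ∞ := by norm_cast

theorem Sm.two {f : Cm n → ℝ} (hf : Sm U f) {z : Cm n} (hz : z ∈ U) : ContDiffAt ℝ 2 f z :=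
  (hf z hz).of_le two_le

theorem Sm.diff {f : Cm n → ℝ} (hf : Sm U f) {z : Cm n} (hz : z ∈ U) : DifferentiableAt ℝ f z :=
  (hf z hz).differentiableAt (by simp)

theorem Sm.cont {f : Cm n → ℝ} (hf : Sm U f) : ContinuousOn f U :=
  fun z hz => (hf z hz).continuousAt.continuousWithinAt

theorem Sm.add {f g : Cm n → ℝ} (hf : Sm U f) (hg : Sm U g) : Sm U fun z => f z + g z :=
  fun z hz => (hf z hz).add (hg z hz)

theorem Sm.sub {f g : Cm n → ℝ} (hf : Sm U f) (hg : Sm U g) : Sm U fun z => f z - g z :=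
  fun z hz => (hf z hz).sub (hg z hz)

theorem Sm.mul {f g : Cm n → ℝ} (hf : Sm U f) (hg : Sm U g) : Sm U fun z => f z * g z :=
  fun z hz => (hf z hz).mul (hg z hz)

theorem Sm.pow {f : Cm n → ℝ} (hf : Sm U f) (k : ℕ) : Sm U fun z => f z ^ k :=
  fun z hz => (hf z hz).pow k

theorem Sm.const (c : ℝ) : Sm U fun _ => c := fun _ _ => contDiffAt_const

theorem Sm.comp {f : Cm n → ℝ} {φ : ℝ → ℝ} (hφ : ContDiff ℝ ∞ φ) (hf : Sm U f) :
    Sm U fun z => φ (f z) := fun z hz => hφ.contDiffAt.comp z (hf z hz)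

theorem Sm.mono {V : Set (Cm n)} {f : Cm n → ℝ} (hf : Sm U f) (h : V ⊆ U) : Sm V f :=
  fun z hz => hf z (h hz)

theorem Sm.cf {f : Cm n → ℝ} (hf : Sm U f) : CF U (cHess f) :=
  ⟨fun z hz => INT.smooth_cHess (hf z hz), fun z hz => INT.cHess_closed (hf z hz),
    fun z hz => cHess_isHermitian (hf.two hz)⟩

theorem Sm.gg {f h : Cm n → ℝ} (hf : Sm U f) (hh : Sm U h) : SmM U (gg f h) :=
  fun z hz => smooth_gg (hf z hz) (hh z hz)

theorem SmM.add {X Y : Cm n → Mx n} (hX : SmM U X) (hY : SmM U Y) : SmM U fun z => X z + Y z :=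
  fun z hz i j => (hX z hz i j).add (hY z hz i j)

theorem SmM.smul {X : Cm n → Mx n} {f : Cm n → ℝ} (hf : Sm U f) (hX : SmM U X) :
    SmM U fun z => (f z : ℂ) • X z :=
  fun z hz i j => (INT.ofReal_contDiffAt (hf z hz)).mul (hX z hz i j)

theorem CF.add {X Y : Cm n → Mx n} (hX : CF U X) (hY : CF U Y) : CF U fun z => X z + Y z := by
  refine ⟨hX.sm.add hY.sm, fun z hz i r l => ?_, fun z hz => (hX.herm z hz).add (hY.herm z hz)⟩
  have d := fun r l => (hX.sm z hz r l).differentiableAt (by simp)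
  have e := fun r l => (hY.sm z hz r l).differentiableAt (by simp)
  simp only [Matrix.add_apply]
  rw [dz_add (d r l) (e r l), dz_add (d i l) (e i l), hX.cl z hz, hY.cl z hz]

theorem CF.mono {V : Set (Cm n)} {X : Cm n → Mx n} (hX : CF U X) (h : V ⊆ U) : CF V X :=
  ⟨fun z hz => hX.sm z (h hz), fun z hz => hX.cl z (h hz), fun z hz => hX.herm z (h hz)⟩

theorem sm_md {X : Fin n → Cm n → Mx n} (hX : ∀ i, SmM U (X i)) :
    Sm U fun z => md fun i => X i z := fun z hz =>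
  Complex.reCLM.contDiff.contDiffAt.comp z (contDiffAt_MD fun k => hX k z hz)

theorem sm_sl {X : Fin n → Cm n → Mx n} {k : Fin n} {Y : Cm n → Mx n}
    (hX : ∀ i, i ≠ k → SmM U (X i)) (hY : SmM U Y) :
    Sm U fun z => sl (fun i => X i z) k (Y z) := fun z hz =>
  Complex.reCLM.contDiff.contDiffAt.comp z (update_smooth (fun i hi => hX i hi z hz) (hY z hz))

/-- a function which is continuous on `U` and vanishes off a compact subset is integrable -/
theorem intOn {K : Set (Cm n)} {F : Cm n → ℝ} (hU : IsOpen U) (hK : IsCompact K) (hKU : K ⊆ U)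
    (hF : ContinuousOn F U) (h0 : ∀ z ∈ U, z ∉ K → F z = 0) : IntegrableOn F U :=
  integrableOn_of_cont hU hK hKU hF h0

/-- **Integration by parts** -/
theorem ibp {X : Fin n → Cm n → Mx n} {k : Fin n} {K : Set (Cm n)} {f h : Cm n → ℝ}
    (hU : IsOpen U) (hX : ∀ i, i ≠ k → CF U (X i)) (hf : Sm U f) (hh : Sm U h)
    (hK : IsCompact K) (hKU : K ⊆ U)
    (hout : ∀ z ∉ K, (h =ᶠ[𝓝 z] fun _ => 0) ∨ (f =ᶠ[𝓝 z] fun _ => 0)) :
    IntegrableOn (fun z => h z * sl (fun i => X i z) k (cHess f z)) U ∧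
    IntegrableOn (fun z => sl (fun i => X i z) k (gg h f z)) U ∧
    ∫ z in U, h z * sl (fun i => X i z) k (cHess f z) =
      -∫ z in U, sl (fun i => X i z) k (gg h f z) := by
  obtain ⟨i1, i2, e⟩ := ibp_loc hU k (fun i hi => (hX i hi).sm) (fun i hi => (hX i hi).cl) hf hh
    hK hKU hout
  have h1 : (fun z => h z * sl (fun i => X i z) k (cHess f z)) = fun z =>
      RCLike.re ((h z : ℂ) * MD (update (fun k => X k z) k (cHess f z))) :=
    funext fun z => (Complex.re_ofReal_mul _ _).symm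
  refine ⟨h1 ▸ i1.re, i2.re, ?_⟩
  rw [h1, integral_re i1, e, map_neg, ← integral_re i2]
  rfl

/-- **Green's formula** -/
theorem green {X : Fin n → Cm n → Mx n} {k : Fin n} {K : Set (Cm n)} {f h : Cm n → ℝ}
    (hU : IsOpen U) (hX : ∀ i, i ≠ k → CF U (X i)) (hf : Sm U f) (hh : Sm U h)
    (hK : IsCompact K) (hKU : K ⊆ U)
    (hout : ∀ z ∉ K, (h =ᶠ[𝓝 z] fun _ => 0) ∨ (f =ᶠ[𝓝 z] fun _ => 0)) :
    ∫ z in U, h z * sl (fun i => X i z) k (cHess f z) =
      ∫ z in U, f z * sl (fun i => X i z) k (cHess h z) := by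
  rw [(ibp hU hX hf hh hK hKU hout).2.2,
    (ibp hU hX hh hf hK hKU fun z hz => (hout z hz).symm).2.2]
  congr 1
  exact setIntegral_congr_fun hU.measurableSet fun z hz =>
    sl_gg_symm (fun i hi => (hX i hi).herm z hz) h f z

/-- outside of the support -/
theorem ev_zero {χ : Cm n → ℝ} {z : Cm n} (hz : z ∉ tsupport χ) : χ =ᶠ[𝓝 z] fun _ => 0 :=
  notMem_tsupport_iff_eventuallyEq.1 hz

end Vale.Agent.P284Z.J
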